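import Vale.Agent.N150D.Ent

/-! Upper bounds on the mixing of every reversible dynamics which dominates the heat-bath
dynamics of the SK model. -/

open Finset Filter Topology Set

namespace Vale.Agent.N150D.Ent

open Vale.Agent.P150 (Cfg genMat gibbs skJ WHP Pairs)

section det

variable {n : ℕ} {J : Fin n → Fin n → ℝ} {b : Fin n → ℝ}

lemma act_genMat (f : Cfg n → ℝ) (x : Cfg n) : act (genMat J b) f x = P150.gen J b f x :=
  P150.Semi.genMat_mul J b f x

lemma dir_genMat (f g : Cfg n → ℝ) : dir (genMat J b) (gibbs J b) f g = P150.dir J b f g := by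
  unfold dir P150.dir
  simp only [act_genMat]
  rfl

lemma gap_genMat : gap (genMat J b) (gibbs J b) = P150.gap J b := by
  unfold gap P150.gap
  simp only [dir_genMat]
  rfl

lemma tv_genMat (t : ℝ) (x : Cfg n) : tv (genMat J b) (gibbs J b) t x = P150.tvDist J b t x := rfl

lemma tmix_genMat : tmix (genMat J b) (gibbs J b) (1 / 4) = P150.tmix J b := rfl

/-- the heat-bath generator is reversible for the Gibbs measure -/
theorem rev_genMat (hJ : ∀ i j, J i j = J j i) : Rev (genMat J b) (gibbs J b) where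
  pos := P150.gibbs_pos J b
  sum := P150.gibbs_sum J b
  off := fun x y hxy => by
    have := P150.Semi.genMat_shift_nonneg J b x y
    rwa [Matrix.add_apply, Matrix.smul_apply, Matrix.one_apply_ne hxy, smul_zero, add_zero] at this
  row := fun x => by
    have := P150.Semi.genMat_mul J b (fun _ => 1) x
    rw [P150.Semi.gen_const] at this
    simpa using this
  rev := P150.Semi.detailed_balance b hJ

lemma lev_iff {K E A : ℝ} : Lev (genMat J b) (gibbs J b) K E A ↔ N150.Lev J b K E A := by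
  unfold Lev N150.Lev
  simp only [dir_genMat]
  rfl

lemma mlsi_iff {A : ℝ} : MLSI (genMat J b) (gibbs J b) A ↔ ∀ f : Cfg n → ℝ, (∀ x, 0 < f x) →
    P150.ex J b (fun x => f x * Real.log (f x)) - P150.ex J b f * Real.log (P150.ex J b f)
      ≤ A * P150.dir J b f (fun x => Real.log (f x)) := by
  unfold MLSI
  simp only [dir_genMat]
  rfl

end det

lemma skJ_symm {n : ℕ} (β : ℝ) (g : Pairs n → ℝ) (i j : Fin n) : skJ β g i j = skJ β g j i := by
  simp only [skJ, P150.gsym_comm]

/-- the critical upper bound for all faster reversible dynamics -/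
theorem univ_crit (h1 : N150.LevW) (h2 : N150.LastW) {ε : ℝ} (hε : 0 < ε) :
    WHP (fun n => {g | ∀ (L : Matrix (Cfg n) (Cfg n) ℝ) (c : ℝ), 0 < c →
      Rev L (gibbs (skJ 1 g) (fun _ => 0)) →
      (∀ x y, x ≠ y → c * genMat (skJ 1 g) (fun _ => 0) x y ≤ L x y) →
      ∀ t, (n : ℝ) ^ (2 / 3 + ε) / c ≤ t → ∀ x,
        tv L (gibbs (skJ 1 g) (fun _ => 0)) t x ≤ 1 / 4}) := by
  obtain ⟨a0, ha0⟩ := h1 (ε / 2) (by linarith)
  set a := max a0 30 with ha
  have ha30 : 30 ≤ a := le_max_right _ _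
  refine P150.MainThm.whp_mono (P150.MainThm.whp_inter (P150.MainThm.whp_inter ha0
    (h2 (ε / 2) (by linarith) (a + 1))) N150.whp_min) ?_
  filter_upwards [eventually_ge_atTop 81,
    N150.ev_sq_log (c := 2 * (27 + 200 * (a + 1))) (by linarith) (half_pos hε)] with n hn hlog g hg
  obtain ⟨⟨hL, hl⟩, hmin⟩ := hg
  intro M c hc hM hcM t ht x
  have hJ : ∀ i j, skJ 1 g i j = skJ 1 g j i := skJ_symm 1 g
  have hR := rev_genMat (b := fun _ => 0) hJ
  have hn0 : (0 : ℝ) < n := by exact_mod_cast (by omega : 0 < n)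
  set L := Real.log n with hLd
  have hL4 : 4 ≤ L := by
    rw [hLd, Real.le_log_iff_exp_le hn0]
    have e : Real.exp 4 = Real.exp 1 ^ 4 := by rw [← Real.exp_nat_mul]; norm_num
    have e2 : Real.exp 1 ^ 4 ≤ 3 ^ 4 :=
      pow_le_pow_left₀ (Real.exp_pos _).le Real.exp_one_lt_three.le 4
    have e3 : (81 : ℝ) ≤ n := by exact_mod_cast hn
    linarith
  set j := Nat.log 2 n + 3 with hj
  have hj1 : (4 : ℝ) * n ≤ 2 ^ j := by
    have e := Nat.lt_pow_succ_log_self (b := 2) one_lt_two n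
    have e2 : 4 * n ≤ 2 ^ j := by rw [hj, pow_add]; rw [pow_succ] at e; omega
    exact_mod_cast e2
  have hj2 : (j : ℝ) + 3 ≤ 3 * L := by
    have e : ((2 ^ Nat.log 2 n : ℕ) : ℝ) ≤ n := by
      exact_mod_cast Nat.pow_log_le_self 2 (by omega)
    have e2 := Real.log_le_log (by positivity) e
    rw [Nat.cast_pow, Real.log_pow, Nat.cast_ofNat] at e2
    have e3 := mul_le_mul_of_nonneg_left Real.log_two_gt_d9.le (Nat.cast_nonneg (Nat.log 2 n))
    rw [hj]; push_cast
    linarith
  set A := (n : ℝ) ^ (2 / 3 + ε / 2) with hA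
  have hA0 : 0 < A := Real.rpow_pos_of_pos hn0 _
  have haL : 30 * L ≤ a * L := mul_le_mul_of_nonneg_right ha30 (by linarith)
  have hT : A * (3 * j * (j + 3) + Real.log (200 * (a * L + 1))) ≤ (n : ℝ) ^ (2 / 3 + ε) := by
    have e1 : (n : ℝ) ^ (2 / 3 + ε) = A * (n : ℝ) ^ (ε / 2) := by
      rw [hA, ← Real.rpow_add hn0]; congr 1; ring
    rw [e1]
    refine mul_le_mul_of_nonneg_left ?_ hA0.le
    have e2 := Real.log_le_self (show 0 ≤ 200 * (a * L + 1) by linarith)
    have j0 : (0 : ℝ) ≤ j := Nat.cast_nonneg j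
    have e3 : (j : ℝ) * (j + 3) ≤ (3 * L) * (3 * L) :=
      mul_le_mul (by linarith) hj2 (by linarith) (by linarith)
    have e4 : a * L * 1 ≤ a * L * L := mul_le_mul_of_nonneg_left (by linarith) (by linarith)
    nlinarith
  refine tv_of_levels hM (div_pos hA0 hc) (K0 := a * L) (by linarith) j (by linarith) hj1 hmin
    (fun K hK => Lev.compare hR hM hc hcM hA0.le (lev_iff.2 (hL K
      ((mul_le_mul_of_nonneg_right (le_max_left _ _) (by linarith)).trans hK))))
    (Lev.compare hR hM hc hcM hA0.le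
      (Lev.mono hR (lev_iff.2 hl) (by linarith) le_rfl le_rfl)) (le_trans ?_ ht) x
  rw [div_mul_eq_mul_div]
  exact div_le_div_of_nonneg_right hT hc.le

/-- the high temperature upper bound for all faster reversible dynamics -/
theorem univ_high {β C : ℝ} (hC : 0 < C) (h : WHP (fun n => {g |
      (∀ f : Cfg n → ℝ, (∀ x, 0 < f x) →
        P150.ex (skJ β g) (fun _ => 0) (fun x => f x * Real.log (f x))
          - P150.ex (skJ β g) (fun _ => 0) f * Real.log (P150.ex (skJ β g) (fun _ => 0) f)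
          ≤ C * P150.dir (skJ β g) (fun _ => 0) f (fun x => Real.log (f x))) ∧
      ∀ x, -Real.log (gibbs (skJ β g) (fun _ => 0) x) ≤ 4 * n})) :
    WHP (fun n => {g | ∀ (L : Matrix (Cfg n) (Cfg n) ℝ) (c : ℝ), 0 < c →
      Rev L (gibbs (skJ β g) (fun _ => 0)) →
      (∀ x y, x ≠ y → c * genMat (skJ β g) (fun _ => 0) x y ≤ L x y) →
      MLSI L (gibbs (skJ β g) (fun _ => 0)) (C / c) ∧ ∀ t, 0 ≤ t → ∀ x,
        tv L (gibbs (skJ β g) (fun _ => 0)) t x ^ 2 ≤ 2 * n * Real.exp (-(c * t / C))}) := by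
  refine P150.MainThm.whp_mono h (Eventually.of_forall fun n g hg => ?_)
  obtain ⟨h1, h2⟩ := hg
  intro M c hc hM hcM
  have hR := rev_genMat (b := fun _ => 0) (skJ_symm β g)
  have hA := MLSI.compare hR hM hc hcM hC.le (mlsi_iff.2 h1)
  refine ⟨hA, fun t ht x => (tv_sq_of_mlsi hM (div_pos hC hc) hA ht x).trans ?_⟩
  have e : t / (C / c) = c * t / C := by field_simp
  rw [e]
  have := mul_le_mul_of_nonneg_left (h2 x) (Real.exp_pos (-(c * t / C))).le
  linarith only [this]

variable {X : Type*} [Fintype X] [DecidableEq X] {π : X → ℝ} {L : Matrix X X ℝ}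

/-- the mixing time from the decay of the squared distance -/
lemma tv_le_of_sq {B a ε t : ℝ} (hB : 0 < B) (ha : 0 < a) (hε : 0 < ε) {x : X}
    (h : tv L π t x ^ 2 ≤ B * Real.exp (-(a * t))) (ht : Real.log (B / ε ^ 2) / a ≤ t) :
    tv L π t x ≤ ε := by
  have h1 : Real.exp (-(a * t)) ≤ (B / ε ^ 2)⁻¹ := by
    rw [← Real.exp_log (show 0 < B / ε ^ 2 by positivity), ← Real.exp_neg]
    refine Real.exp_le_exp.2 (neg_le_neg ?_)
    rwa [div_le_iff₀' ha] at ht
  have h2 : B * (B / ε ^ 2)⁻¹ = ε ^ 2 := by field_simp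
  have h3 := mul_le_mul_of_nonneg_left h1 hB.le
  exact (abs_le_of_sq_le_sq' (h.trans (h3.trans h2.le)) hε.le).2

end Vale.Agent.N150D.Ent
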