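import Vale.Agent.N150D.Chain

/-!
Finite reversible chains: the Dirichlet form, the spectral gap, and the mixing time.
-/

set_option linter.unusedSectionVars false

namespace Vale.Agent.N150D

open Finset

variable {S : Type*} [Fintype S] [DecidableEq S] {L M : Matrix S S ℝ} {π : S → ℝ}

theorem ex_add (π f g : S → ℝ) : ex π (fun x => f x + g x) = ex π f + ex π g := by
  simp only [ex, mul_add, sum_add_distrib]

theorem ex_smul (π : S → ℝ) (c : ℝ) (f : S → ℝ) : ex π (fun x => c * f x) = c * ex π f := by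
  simp only [ex, mul_sum]
  exact sum_congr rfl fun x _ => by ring

theorem ex_const (hs : ∑ x, π x = 1) (c : ℝ) : ex π (fun _ => c) = c := by
  simp only [ex, ← sum_mul, hs, one_mul]

theorem var_eq (hs : ∑ x, π x = 1) (f : S → ℝ) :
    var π f = ex π (fun x => f x ^ 2) - ex π f ^ 2 := by
  have e : (fun x => (f x - ex π f) ^ 2) =
      fun x => f x ^ 2 + ((-2 * ex π f) * f x + ex π f ^ 2) := by
    funext x; ring
  rw [var, e, ex_add π (fun x => f x ^ 2), ex_add π (fun x => (-2 * ex π f) * f x), ex_smul,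
    ex_const hs]
  ring

theorem var_nonneg (hp : ∀ x, 0 < π x) (f : S → ℝ) : 0 ≤ var π f :=
  sum_nonneg fun x _ => mul_nonneg (hp x).le (sq_nonneg _)

/-- The Dirichlet form as a sum over the edges. -/
theorem Rev.dir_eq (h : Rev L π) (f g : S → ℝ) :
    dir L π f g = (1 / 2) * ∑ x, ∑ y, π x * L x y * ((f y - f x) * (g y - g x)) := by
  have e1 : ∑ x, ∑ y, π x * L x y * (f x * g x) = 0 := by
    refine sum_eq_zero fun x _ => ?_
    simp only [mul_assoc, ← mul_sum, ← sum_mul, h.row, zero_mul, mul_zero]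
  have e2 : ∑ x, ∑ y, π x * L x y * (f y * g y) = 0 := by
    rw [sum_comm, ← e1]
    exact sum_congr rfl fun x _ => sum_congr rfl fun y _ => by rw [h.rev]
  have e3 : ∑ x, ∑ y, π x * L x y * (f y * g x) = ∑ x, ∑ y, π x * L x y * (f x * g y) := by
    rw [sum_comm]
    exact sum_congr rfl fun x _ => sum_congr rfl fun y _ => by rw [h.rev]
  have e4 : ex π (fun x => f x * act L g x) = ∑ x, ∑ y, π x * L x y * (f x * g y) := by
    simp only [ex, act, mul_sum]
    exact sum_congr rfl fun x _ => sum_congr rfl fun y _ => by ring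
  have e5 : ∑ x, ∑ y, π x * L x y * ((f y - f x) * (g y - g x)) =
      ∑ x, ∑ y, π x * L x y * (f y * g y) - ∑ x, ∑ y, π x * L x y * (f y * g x)
        - ∑ x, ∑ y, π x * L x y * (f x * g y) + ∑ x, ∑ y, π x * L x y * (f x * g x) := by
    simp only [← sum_sub_distrib, ← sum_add_distrib]
    exact sum_congr rfl fun x _ => sum_congr rfl fun y _ => by ring
  rw [dir, e4, e5, e1, e2, e3]
  ring

theorem Rev.dir_symm (h : Rev L π) (f g : S → ℝ) : dir L π f g = dir L π g f := by
  rw [h.dir_eq, h.dir_eq]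
  simp only [mul_comm (f _ - f _)]

/-- Comparison of Dirichlet forms on pairs of functions with increments of the same sign. -/
theorem dir_mono (hL : Rev L π) (hM : Rev M π) {a : ℝ} (hc : ∀ x y, x ≠ y → a * L x y ≤ M x y)
    {f g : S → ℝ} (hfg : ∀ x y, 0 ≤ (f y - f x) * (g y - g x)) :
    a * dir L π f g ≤ dir M π f g := by
  rw [hL.dir_eq, hM.dir_eq, mul_left_comm, mul_sum]
  refine mul_le_mul_of_nonneg_left (sum_le_sum fun x _ => ?_) (by norm_num)
  rw [mul_sum]
  refine sum_le_sum fun y _ => ?_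
  by_cases e : x = y
  · subst e; simp
  · have := mul_le_mul_of_nonneg_right (mul_le_mul_of_nonneg_left (hc x y e) (hL.pos x).le)
      (hfg x y)
    linarith

theorem Rev.dir_nonneg (h : Rev L π) {f g : S → ℝ} (hfg : ∀ x y, 0 ≤ (f y - f x) * (g y - g x)) :
    0 ≤ dir L π f g := by
  simpa using dir_mono h h (a := 0) (fun x y e => by simpa using h.off x y e) hfg

theorem Rev.dir_self_nonneg (h : Rev L π) (f : S → ℝ) : 0 ≤ dir L π f f :=
  h.dir_nonneg fun _ _ => mul_self_nonneg _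

theorem Rev.bdd_gap (h : Rev L π) :
    ∀ r ∈ {r : ℝ | ∃ f : S → ℝ, var π f ≠ 0 ∧ r = dir L π f f / var π f}, 0 ≤ r := by
  rintro r ⟨f, _, rfl⟩
  exact div_nonneg (h.dir_self_nonneg f) (var_nonneg h.pos f)

theorem Rev.gap_nonneg (h : Rev L π) : 0 ≤ gap L π := Real.sInf_nonneg h.bdd_gap

/-- The Poincaré inequality. -/
theorem Rev.gap_mul_var_le (h : Rev L π) (f : S → ℝ) : gap L π * var π f ≤ dir L π f f := by
  rcases (var_nonneg h.pos f).eq_or_lt with e | e
  · rw [← e, mul_zero]; exact h.dir_self_nonneg f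
  · rw [← le_div_iff₀ e]
    exact csInf_le ⟨0, h.bdd_gap⟩ ⟨f, e.ne', rfl⟩

theorem exists_var_ne [Nontrivial S] (hp : ∀ x, 0 < π x) : ∃ f : S → ℝ, var π f ≠ 0 := by
  obtain ⟨x, y, hxy⟩ := exists_pair_ne S
  refine ⟨fun z => if z = x then 1 else 0, fun h0 => ?_⟩
  have h1 := (sum_eq_zero_iff_of_nonneg fun z _ => mul_nonneg (hp z).le (sq_nonneg _)).1 h0
  have h2 := pow_eq_zero_iff two_ne_zero |>.1
    ((mul_eq_zero.1 (h1 x (mem_univ x))).resolve_left (hp x).ne')
  have h3 := pow_eq_zero_iff two_ne_zero |>.1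
    ((mul_eq_zero.1 (h1 y (mem_univ y))).resolve_left (hp y).ne')
  simp only [if_true, if_neg hxy.symm] at h2 h3
  linarith

/-- A Poincaré inequality bounds the gap from below. -/
theorem Rev.le_gap [Nontrivial S] (h : Rev L π) {γ : ℝ}
    (hγ : ∀ f, γ * var π f ≤ dir L π f f) : γ ≤ gap L π := by
  obtain ⟨f0, hf0⟩ := exists_var_ne h.pos
  refine le_csInf ⟨_, f0, hf0, rfl⟩ ?_
  rintro r ⟨f, hf, rfl⟩
  rw [le_div_iff₀ (lt_of_le_of_ne (var_nonneg h.pos f) hf.symm)]
  exact hγ f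

/-- Comparison of the gaps. -/
theorem gap_mono (hL : Rev L π) (hM : Rev M π) {a : ℝ} (ha : 0 ≤ a)
    (hc : ∀ x y, x ≠ y → a * L x y ≤ M x y) : a * gap L π ≤ gap M π := by
  rcases subsingleton_or_nontrivial S with hS | hS
  · have e : gap L π = 0 := by
      have : {r : ℝ | ∃ f : S → ℝ, var π f ≠ 0 ∧ r = dir L π f f / var π f} = ∅ := by
        refine Set.eq_empty_of_forall_notMem ?_
        rintro r ⟨f, hf, _⟩
        refine hf (sum_eq_zero fun x _ => ?_)
        have e : f = fun _ => f x := funext fun y => by rw [Subsingleton.elim y x]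
        have e2 : ex π f = f x := by rw [e, ex_const hL.sum]
        simp [e2]
      rw [gap, this, Real.sInf_empty]
    rw [e, mul_zero]
    exact hM.gap_nonneg
  · refine hM.le_gap fun f => ?_
    rw [mul_assoc]
    exact (mul_le_mul_of_nonneg_left (hL.gap_mul_var_le f) ha).trans
      (dir_mono hL hM hc fun _ _ => mul_self_nonneg _)

/-! ### The eigenfunction -/

theorem Rev.dir_affine (h : Rev L π) (f : S → ℝ) (c m : ℝ) :
    dir L π (fun x => c * (f x - m)) (fun x => c * (f x - m)) = c ^ 2 * dir L π f f := by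
  rw [h.dir_eq, h.dir_eq]
  simp only [mul_sum]
  exact sum_congr rfl fun x _ => sum_congr rfl fun y _ => by ring

theorem Rev.dir_add_smul (h : Rev L π) (f g : S → ℝ) (s : ℝ) :
    dir L π (fun x => f x + s * g x) (fun x => f x + s * g x)
      = dir L π f f + 2 * s * dir L π f g + s ^ 2 * dir L π g g := by
  rw [h.dir_eq, h.dir_eq, h.dir_eq, h.dir_eq]
  simp only [mul_sum, ← sum_add_distrib]
  exact sum_congr rfl fun x _ => sum_congr rfl fun y _ => by ring

theorem normalise (hs : ∑ x, π x = 1) {f : S → ℝ} (hv : 0 < var π f) :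
    ex π (fun x => (√(var π f))⁻¹ * (f x - ex π f)) = 0 ∧
      ex π (fun x => ((√(var π f))⁻¹ * (f x - ex π f)) ^ 2) = 1 := by
  constructor
  · rw [ex_smul]
    have := ex_add π f fun _ => -ex π f
    rw [ex_const hs] at this
    simp only [← sub_eq_add_neg, sub_self] at this
    rw [this, mul_zero]
  · simp only [mul_pow]
    rw [ex_smul, inv_pow, Real.sq_sqrt hv.le]
    exact inv_mul_cancel₀ hv.ne'

theorem Rev.exists_min [Nontrivial S] (h : Rev L π) :
    ∃ φ : S → ℝ, ex π φ = 0 ∧ ex π (fun x => φ x ^ 2) = 1 ∧ dir L π φ φ = gap L π := by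
  set K : Set (S → ℝ) := {φ | ex π φ = 0 ∧ ex π (fun x => φ x ^ 2) = 1} with hK
  have hcl : IsClosed K := by
    refine IsClosed.inter (isClosed_eq ?_ continuous_const) (isClosed_eq ?_ continuous_const)
    · unfold ex; fun_prop
    · unfold ex; fun_prop
  have hcp : IsCompact K := by
    refine (isCompact_univ_pi fun x : S =>
      isCompact_Icc (a := -(1 + (π x)⁻¹)) (b := 1 + (π x)⁻¹)).of_isClosed_subset hcl ?_
    intro φ hφ x _
    have h1 : π x * φ x ^ 2 ≤ 1 := by
      rw [← hφ.2]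
      exact single_le_sum (f := fun x => π x * φ x ^ 2)
        (fun z _ => mul_nonneg (h.pos z).le (sq_nonneg _)) (mem_univ x)
    have h2 := h.pos x
    have h3 : φ x ^ 2 ≤ (π x)⁻¹ := by
      rw [← one_div, le_div_iff₀' h2]; exact h1
    have h4 := inv_pos.2 h2
    constructor <;> nlinarith [sq_nonneg (φ x + 1), sq_nonneg (φ x - 1)]
  obtain ⟨f0, hf0⟩ := exists_var_ne h.pos
  have hcd : Continuous fun φ : S → ℝ => dir L π φ φ := by
    unfold dir ex act; fun_prop
  obtain ⟨φ, hφ, hmin⟩ := hcp.exists_isMinOn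
    ⟨_, normalise h.sum (lt_of_le_of_ne (var_nonneg h.pos f0) hf0.symm)⟩ hcd.continuousOn
  refine ⟨φ, hφ.1, hφ.2, le_antisymm (h.le_gap fun f => ?_) ?_⟩
  · rcases (var_nonneg h.pos f).eq_or_lt with e | hv
    · rw [← e, mul_zero]; exact h.dir_self_nonneg f
    · have h2 : dir L π φ φ ≤ dir L π (fun x => (√(var π f))⁻¹ * (f x - ex π f))
        (fun x => (√(var π f))⁻¹ * (f x - ex π f)) := hmin (normalise h.sum hv)
      rwa [h.dir_affine, inv_pow, Real.sq_sqrt hv.le, inv_mul_eq_div, le_div_iff₀ hv] at h2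
  · have := h.gap_mul_var_le φ
    rw [var_eq h.sum, hφ.1, hφ.2] at this
    simpa using this

theorem linear_coeff_zero {B D : ℝ} (h : ∀ s : ℝ, 0 ≤ 2 * s * B + s ^ 2 * D) : B = 0 := by
  by_contra hB
  have hD : 0 < |D| + 1 := by positivity
  have h1 := h (-(B / (|D| + 1)))
  have h4 : 2 * -(B / (|D| + 1)) * B + (-(B / (|D| + 1))) ^ 2 * D
      = B ^ 2 / (|D| + 1) ^ 2 * (D - 2 * (|D| + 1)) := by
    field_simp
    ring
  rw [h4] at h1
  have h5 : 0 < B ^ 2 / (|D| + 1) ^ 2 := by positivity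
  have h6 : D - 2 * (|D| + 1) < 0 := by linarith only [abs_nonneg D, le_abs_self D]
  linarith only [mul_neg_of_pos_of_neg h5 h6, h1]

/-- The gap is an eigenvalue of `-L` on the functions of mean zero. -/
theorem Rev.exists_eigen [Nontrivial S] (h : Rev L π) :
    ∃ φ : S → ℝ, ex π φ = 0 ∧ ex π (fun x => φ x ^ 2) = 1 ∧
      ∀ x, act L φ x = -gap L π * φ x := by
  obtain ⟨φ, h0, h1, hg⟩ := h.exists_min
  refine ⟨φ, h0, h1, ?_⟩
  set γ := gap L π with hγ
  have hEL : ∀ ψ : S → ℝ, dir L π φ ψ - γ * ex π (fun x => φ x * ψ x) = 0 := by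
    intro ψ
    apply linear_coeff_zero (D := dir L π ψ ψ - γ * var π ψ)
    intro s
    have h2 := h.gap_mul_var_le (fun x => φ x + s * ψ x)
    rw [h.dir_add_smul, var_eq h.sum, ex_add π φ (fun x => s * ψ x), ex_smul, h0, zero_add,
      hg] at h2
    have h3 : ex π (fun x => (φ x + s * ψ x) ^ 2)
        = 1 + 2 * s * ex π (fun x => φ x * ψ x) + s ^ 2 * ex π (fun x => ψ x ^ 2) := by
      have e : ∀ x, (φ x + s * ψ x) ^ 2
          = φ x ^ 2 + ((2 * s) * (φ x * ψ x) + s ^ 2 * ψ x ^ 2) := by intro x; ring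
      simp only [e]
      rw [ex_add π (fun x => φ x ^ 2), ex_add π (fun x => (2 * s) * (φ x * ψ x)),
        ex_smul π (2 * s), ex_smul π (s ^ 2), h1]
      ring
    rw [h3] at h2
    rw [var_eq h.sum]
    linarith only [h2]
  intro x
  have h2 := hEL (fun y => if y = x then 1 else 0)
  rw [h.dir_symm] at h2
  simp only [dir, ex, ite_mul, one_mul, zero_mul, mul_ite, mul_zero, mul_one, sum_ite_eq',
    mem_univ, if_true] at h2
  have h3 : π x * (act L φ x + γ * φ x) = 0 := by linarith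
  have h4 := (mul_eq_zero.1 h3).resolve_left (h.pos x).ne'
  linarith

/-- An eigenfunction of mean zero of a matrix bounds the worst distance from below. -/
theorem exists_tvM_ge {P : Matrix S S ℝ} {φ : S → ℝ} {l : ℝ} (h0 : ex π φ = 0)
    (h1 : ex π (fun x => φ x ^ 2) = 1) (hP : ∀ x, act P φ x = l * φ x) :
    ∃ x, |l| / 2 ≤ tvM P π x := by
  have hne : Nonempty S := by
    by_contra hS
    rw [not_nonempty_iff] at hS
    simp [ex] at h1
  obtain ⟨x, hx⟩ := Finite.exists_max (fun x => |φ x|)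
  have hxpos : 0 < |φ x| := by
    refine (abs_nonneg (φ x)).lt_of_ne fun h => ?_
    have hz : ∀ y, φ y = 0 := fun y => abs_eq_zero.1 (le_antisymm (h ▸ hx y) (abs_nonneg _))
    simp [ex, hz] at h1
  refine ⟨x, ?_⟩
  have h5 : act P φ x = ∑ y, (P x y - π y) * φ y := by
    unfold ex at h0
    simp only [act, sub_mul, sum_sub_distrib, h0, sub_zero]
  have h6 : |∑ y, (P x y - π y) * φ y| ≤ 2 * tvM P π x * |φ x| := by
    refine (abs_sum_le_sum_abs _ _).trans ?_
    have : 2 * tvM P π x * |φ x| = ∑ y, |P x y - π y| * |φ x| := by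
      rw [tvM, ← sum_mul]; ring
    rw [this]
    refine sum_le_sum fun y _ => ?_
    rw [abs_mul]
    exact mul_le_mul_of_nonneg_left (hx y) (abs_nonneg _)
  rw [← h5, hP, abs_mul] at h6
  have := le_of_mul_le_mul_right h6 hxpos
  linarith

/-- The worst distance at the time `t` is at least `exp (-gap t) / 2`. -/
theorem Rev.tv_ge [Nontrivial S] (h : Rev L π) (t : ℝ) :
    ∃ x, Real.exp (-(gap L π * t)) / 2 ≤ tv L π t x := by
  obtain ⟨φ, h0, h1, h3⟩ := h.exists_eigen
  obtain ⟨x, hx⟩ := exists_tvM_ge h0 h1 (ker_eigen h3 t)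
  rw [abs_of_pos (Real.exp_pos _), neg_mul] at hx
  exact ⟨x, hx⟩

/-! ### Decay in `L²` -/

theorem act_ker_deriv (L : Matrix S S ℝ) (f : S → ℝ) (t : ℝ) (x : S) :
    HasDerivAt (fun s => act (ker L s) f x) (act L (act (ker L t) f) x) t := by
  have h : HasDerivAt (fun s : ℝ => act (ker L s) f x) (∑ y, (L * ker L t) x y * f y) t :=
    HasDerivAt.fun_sum fun y _ => (ker_deriv' L t x y).mul_const (f y)
  have e : ∑ y, (L * ker L t) x y * f y = act L (act (ker L t) f) x := by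
    simp only [Matrix.mul_apply, sum_mul, act, mul_sum]
    rw [sum_comm]
    exact sum_congr rfl fun z _ => sum_congr rfl fun y _ => by ring
  rwa [e] at h

theorem Sto.ex_act {P : Matrix S S ℝ} (h : Sto P π) (f : S → ℝ) : ex π (act P f) = ex π f := by
  simp only [ex, act, mul_sum]
  rw [sum_comm]
  simp only [← mul_assoc, ← sum_mul, h.stat]

theorem Rev.ex_act_ker (h : Rev L π) (t : ℝ) (f : S → ℝ) : ex π (act (ker L t) f) = ex π f := by
  simp only [ex, act, mul_sum]
  rw [sum_comm]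
  refine sum_congr rfl fun y _ => ?_
  simp only [← mul_assoc, ← sum_mul, h.ker_rev t _ y, ← mul_sum, h.ker_row, mul_one]

/-- Exponential decay in `L²(π)` of the functions of mean zero. -/
theorem Rev.l2_decay (h : Rev L π) {γ : ℝ} (hγ : ∀ f, γ * var π f ≤ dir L π f f) {f : S → ℝ}
    (hf : ex π f = 0) {t : ℝ} (ht : 0 ≤ t) :
    ex π (fun x => act (ker L t) f x ^ 2) ≤ Real.exp (-(2 * γ * t)) * ex π (fun x => f x ^ 2) := by
  set u : ℝ → S → ℝ := fun s => act (ker L s) f with hu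
  set F : ℝ → ℝ := fun s => Real.exp (2 * γ * s) * ex π (fun x => u s x ^ 2) with hF
  have hd : ∀ s, HasDerivAt F (Real.exp (2 * γ * s) * (2 * γ * 1) * ex π (fun x => u s x ^ 2)
      + Real.exp (2 * γ * s) * (-(2 * dir L π (u s) (u s)))) s := by
    intro s
    have h1 : HasDerivAt (fun s => ex π (fun x => u s x ^ 2))
        (∑ x, π x * ((2 : ℕ) * u s x ^ (2 - 1) * act L (u s) x)) s :=
      HasDerivAt.fun_sum fun x _ => ((act_ker_deriv L f s x).pow 2).const_mul (π x)
    have h2 : ∑ x, π x * (((2 : ℕ) : ℝ) * u s x ^ (2 - 1) * act L (u s) x)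
        = -(2 * dir L π (u s) (u s)) := by
      rw [dir, mul_neg, neg_neg, ex, mul_sum]
      refine sum_congr rfl fun x _ => ?_
      norm_num
      ring
    rw [h2] at h1
    exact (((hasDerivAt_id s).const_mul (2 * γ)).exp).mul h1
  have hanti : Antitone F := by
    refine antitone_of_deriv_nonpos (fun s => (hd s).differentiableAt) fun s => ?_
    rw [(hd s).deriv]
    have h1 := hγ (u s)
    rw [var_eq h.sum, hu, h.ex_act_ker, hf] at h1
    have h4 := mul_le_mul_of_nonneg_left h1 (Real.exp_pos (2 * γ * s)).le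
    simp only [hu]
    linarith
  have h0 := hanti ht
  have h2 : F 0 = ex π (fun x => f x ^ 2) := by
    simp [hF, hu, ker_zero, act, Matrix.one_apply]
  rw [h2] at h0
  have h3 : Real.exp (-(2 * γ * t)) * Real.exp (2 * γ * t) = 1 := by
    rw [← Real.exp_add]; simp
  calc ex π (fun x => u t x ^ 2) = Real.exp (-(2 * γ * t)) * F t := by
        rw [hF, ← mul_assoc, h3, one_mul]
    _ ≤ _ := mul_le_mul_of_nonneg_left h0 (Real.exp_pos _).le

/-- The `L²` bound on the total variation distance. -/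
theorem Rev.tv_sq_le_of (h : Rev L π) {γ : ℝ} (hγ : ∀ f, γ * var π f ≤ dir L π f f) (x : S)
    {t : ℝ} (ht : 0 ≤ t) : (2 * tv L π t x) ^ 2 ≤ Real.exp (-(2 * γ * t)) * (π x)⁻¹ := by
  have hx := h.pos x
  set f : S → ℝ := fun z => (if z = x then (π x)⁻¹ else 0) - 1 with hf
  have h0 : ex π f = 0 := by
    simp [ex, hf, mul_sub, h.sum, hx.ne']
  have h1 : ex π (fun z => f z ^ 2) ≤ (π x)⁻¹ := by
    have e : ∀ z, π z * f z ^ 2 = (if z = x then (π x)⁻¹ - 2 else 0) + π z := by
      intro z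
      by_cases e : z = x
      · subst e; simp only [hf, if_true]; field_simp; ring
      · simp [hf, e]
    simp only [ex, e, sum_add_distrib, sum_ite_eq', mem_univ, if_true, h.sum]
    linarith
  have h2 : ∀ y, π y * act (ker L t) f y = ker L t x y - π y := by
    intro y
    simp only [act, hf, mul_sub, sum_sub_distrib, mul_ite, mul_zero, sum_ite_eq', mem_univ,
      if_true, mul_one, h.ker_row]
    rw [← mul_assoc, ← h.ker_rev t x y]
    field_simp
  have h3 : 2 * tv L π t x = ∑ y, π y * |act (ker L t) f y| := by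
    have : ∀ y, |ker L t x y - π y| = π y * |act (ker L t) f y| := fun y => by
      rw [← h2, abs_mul, abs_of_pos (h.pos y)]
    simp only [tv, tvM, this]
    ring
  have h4 : (∑ y, π y * |act (ker L t) f y|) ^ 2 ≤
      (∑ y, π y) * ∑ y, π y * act (ker L t) f y ^ 2 := by
    refine sum_sq_le_sum_mul_sum_of_sq_le_mul _ (fun y _ => (h.pos y).le)
      (fun y _ => mul_nonneg (h.pos y).le (sq_nonneg _)) fun y _ => ?_
    rw [mul_pow, sq_abs]
    exact le_of_eq (by ring)
  rw [h.sum, one_mul] at h4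
  rw [h3]
  exact (h4.trans (h.l2_decay hγ h0 ht)).trans
    (mul_le_mul_of_nonneg_left h1 (Real.exp_pos _).le)

theorem Rev.tv_sq_le (h : Rev L π) (x : S) {t : ℝ} (ht : 0 ≤ t) :
    (2 * tv L π t x) ^ 2 ≤ Real.exp (-(2 * gap L π * t)) * (π x)⁻¹ :=
  h.tv_sq_le_of h.gap_mul_var_le x ht

/-- Mixing at the time `(m / 2 + log (1 / (2 ε))) / γ` when `γ ≤ gap` and `exp (-m) ≤ π`. -/
theorem Rev.tv_le_of_gap (h : Rev L π) {γ m ε t : ℝ} (hγ0 : 0 < γ) (hγ : γ ≤ gap L π)
    (hε : 0 < ε) (ht0 : 0 ≤ t) (ht : (m / 2 + Real.log (1 / (2 * ε))) / γ ≤ t) (x : S)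
    (hm : Real.exp (-m) ≤ π x) : tv L π t x ≤ ε := by
  have h1 := h.tv_sq_le x ht0
  have h2 : (π x)⁻¹ ≤ Real.exp m := by
    have := inv_anti₀ (Real.exp_pos _) hm
    rwa [← Real.exp_neg, neg_neg] at this
  rw [div_le_iff₀ hγ0] at ht
  have h3 : Real.exp (-(2 * gap L π * t)) * Real.exp m ≤ (2 * ε) ^ 2 := by
    have e : (2 * ε) ^ 2 = Real.exp (-(2 * Real.log (1 / (2 * ε)))) := by
      rw [one_div, Real.log_inv, mul_neg, neg_neg, two_mul (Real.log _), Real.exp_add,
        Real.exp_log (by positivity), sq]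
    rw [e, ← Real.exp_add, Real.exp_le_exp]
    nlinarith [mul_le_mul_of_nonneg_right hγ ht0]
  have h4 := (h1.trans (mul_le_mul_of_nonneg_left h2 (Real.exp_pos _).le)).trans h3
  have := (abs_le_of_sq_le_sq' h4 (by positivity)).2
  linarith

theorem exists_floor (hp : ∀ x, 0 < π x) : ∃ m : ℝ, 0 ≤ m ∧ ∀ x, Real.exp (-m) ≤ π x := by
  refine ⟨∑ x, |Real.log (π x)|, by positivity, fun x => ?_⟩
  rw [← Real.exp_log (hp x), Real.exp_le_exp]
  have := single_le_sum (f := fun x => |Real.log (π x)|) (fun z _ => abs_nonneg _) (mem_univ x)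
  linarith [neg_abs_le (Real.log (π x))]

/-- A chain with a positive gap mixes. -/
theorem Rev.mixes (h : Rev L π) (hg : 0 < gap L π) {ε : ℝ} (hε : 0 < ε) :
    ∃ T, 0 ≤ T ∧ ∀ x, tv L π T x ≤ ε := by
  obtain ⟨m, _, hm⟩ := exists_floor h.pos
  exact ⟨max 0 ((m / 2 + Real.log (1 / (2 * ε))) / gap L π), le_max_left _ _, fun x =>
    h.tv_le_of_gap hg le_rfl hε (le_max_left _ _) (le_max_right _ _) x (hm x)⟩

/-- The upper bound on the mixing time by the gap. -/
theorem Rev.tmix_le_gap (h : Rev L π) {γ m ε : ℝ} (hγ0 : 0 < γ) (hγ : γ ≤ gap L π) (hε : 0 < ε)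
    (hε2 : ε ≤ 1 / 2) (hm0 : 0 ≤ m) (hm : ∀ x, Real.exp (-m) ≤ π x) :
    tmix L π ε ≤ (m / 2 + Real.log (1 / (2 * ε))) / γ := by
  have h1 : 0 ≤ Real.log (1 / (2 * ε)) :=
    Real.log_nonneg (by rw [le_div_iff₀ (by positivity)]; linarith)
  have h2 : 0 ≤ (m / 2 + Real.log (1 / (2 * ε))) / γ := by positivity
  exact tmix_le_of h2 fun x => h.tv_le_of_gap hγ0 hγ hε h2 le_rfl x (hm x)

theorem Rev.log_le_of_tv [Nontrivial S] (h : Rev L π) {ε t : ℝ} (ht : ∀ x, tv L π t x ≤ ε) :
    Real.log (1 / (2 * ε)) ≤ gap L π * t := by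
  obtain ⟨x, hx⟩ := h.tv_ge t
  have h1 : Real.exp (-(gap L π * t)) ≤ 2 * ε := by linarith [ht x]
  have h2 := Real.log_le_log (Real.exp_pos _) h1
  rw [Real.log_exp] at h2
  rw [one_div, Real.log_inv]
  linarith

/-- The lower bound on the mixing time by the gap. -/
theorem Rev.le_tmix [Nontrivial S] (h : Rev L π) (hg : 0 < gap L π) {ε : ℝ} (hε : 0 < ε) :
    Real.log (1 / (2 * ε)) ≤ gap L π * tmix L π ε :=
  h.log_le_of_tv (tv_tmix (h.mixes hg hε))

theorem Rev.div_le_tmix [Nontrivial S] (h : Rev L π) (hg : 0 < gap L π) {ε a : ℝ} (hε : 0 < ε)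
    (ha : gap L π ≤ a) : Real.log (1 / (2 * ε)) / a ≤ tmix L π ε := by
  rw [div_le_iff₀' (hg.trans_le ha)]
  exact (h.le_tmix hg hε).trans (mul_le_mul_of_nonneg_right ha (tmix_nonneg _ _ _))

/-- For levels `ε, δ` in `(0, 1/2)` there is `k`, which depends on them only, with
`tmix ε ≤ k tmix δ` for all the chains with a positive gap. -/
theorem tmix_levels {ε δ : ℝ} (hε : 0 < ε) (hδ0 : 0 < δ) (hδ : δ < 1 / 2) :
    ∃ k : ℕ, 1 ≤ k ∧ ∀ (S : Type) [Fintype S] [DecidableEq S] (L : Matrix S S ℝ) (π : S → ℝ),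
      Rev L π → 0 < gap L π → tmix L π ε ≤ k * tmix L π δ := by
  obtain ⟨k, hk, h⟩ := exists_rounds hε hδ0.le hδ
  exact ⟨k, hk, fun S _ _ L π hL hg => hL.tmix_boost hk h (hL.mixes hg hδ0)⟩

end Vale.Agent.N150D
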