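import Vale.Agent.N150D.Defs
import Vale.Agent.N150D.Spec
import Vale.Agent.N150D.EntSK
import Vale.Agent.N150.Main
import Vale.Agent.N150.SlMain
import Vale.Agent.N150.SlFin
import Vale.Agent.P150.H185.MainAT
import Vale.Agent.P150.H185.CritAll
import Vale.Agent.P150.H704.CritFull

/-! The three regimes for all the dynamics which are comparable with the heat-bath dynamics. -/

open Filter Topology Set Real

namespace Vale.Agent.N150D.Asm

open Vale.Agent.P150 (Cfg Pairs gibbs genMat skJ WHP)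
open Vale.Agent.P150.MainThm (whp_mono whp_inter)

variable {n : ℕ} {K β ε : ℝ} {g : Pairs n → ℝ} {L : Matrix (Cfg n) (Cfg n) ℝ}

theorem rev_heat (β : ℝ) (g : Pairs n → ℝ) : Rev (heat β g) (mu β g) :=
  Ent.rev_genMat (Ent.skJ_symm β g)

theorem gap_heat (β : ℝ) (g : Pairs n → ℝ) :
    gap (heat β g) (mu β g) = P150.gap (skJ β g) fun _ => 0 := Ent.gap_genMat

theorem gap_heat_pos (hn : 0 < n) (β : ℝ) (g : Pairs n → ℝ) : 0 < gap (heat β g) (mu β g) := by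
  rw [gap_heat]
  exact P150.Semi.gap_pos _ (Ent.skJ_symm β g) hn

theorem low (hK : 0 < K) (h : Like K β g L) (x y : Cfg n) (hxy : x ≠ y) :
    K⁻¹ * heat β g x y ≤ L x y := by
  rw [inv_mul_le_iff₀ hK]
  exact (h.2 x y hxy).1

theorem gap_le (hK : 0 < K) (h : Like K β g L) :
    gap (heat β g) (mu β g) ≤ K * gap L (mu β g) ∧
      gap L (mu β g) ≤ K * gap (heat β g) (mu β g) := by
  constructor
  · rw [← inv_mul_le_iff₀ hK]
    exact gap_mono (rev_heat β g) h.1 (inv_pos.2 hK).le (low hK h)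
  · rw [← inv_mul_le_iff₀ hK]
    refine gap_mono h.1 (rev_heat β g) (inv_pos.2 hK).le fun x y hxy => ?_
    rw [inv_mul_le_iff₀ hK]
    exact (h.2 x y hxy).2

theorem gap_pos (hn : 0 < n) (hK : 0 < K) (h : Like K β g L) : 0 < gap L (mu β g) :=
  (mul_pos_iff_of_pos_left hK).1 ((gap_heat_pos hn β g).trans_le (gap_le hK h).1)

theorem inv_gap (hn : 0 < n) (hK : 0 < K) (h : Like K β g L) :
    (gap (heat β g) (mu β g))⁻¹ ≤ K * (gap L (mu β g))⁻¹ ∧
      (gap L (mu β g))⁻¹ ≤ K * (gap (heat β g) (mu β g))⁻¹ := by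
  have h0 := gap_heat_pos hn β g
  have h1 := gap_pos hn hK h
  obtain ⟨h2, h3⟩ := gap_le hK h
  constructor
  · rw [← div_eq_mul_inv, le_div_iff₀ h1, inv_mul_le_iff₀ h0]
    linarith
  · rw [← div_eq_mul_inv, le_div_iff₀ h0, inv_mul_le_iff₀ h1]
    linarith

/-- The comparison of the discrete and the continuous time. -/
def DC : Prop := ∀ K β ε : ℝ, 0 < ε → ε < 1 / 2 → ∃ C : ℝ, 0 < C ∧
  WHP fun n => {g | ∀ L, Like K β g L →
    tmix L (mu β g) (1 / 4) ≤ C * (kmix (step K L) (mu β g) ε / n + 1) ∧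
    (kmix (step K L) (mu β g) ε : ℝ) / n ≤ C * (tmix L (mu β g) (1 / 4) + 1)}

/-- All three time scales are controlled by the heat-bath gap and by the mixing time at `1 / 4`. -/
theorem core (hD : DC) (hK : 0 < K) (β : ℝ) (h0 : 0 < ε) (h1 : ε < 1 / 2) :
    ∃ D : ℝ, 1 ≤ D ∧ WHP fun n => {g | ∀ L, Like K β g L →
      ∀ u ∈ [(gap L (mu β g))⁻¹, tmix L (mu β g) ε, kmix (step K L) (mu β g) ε / n],
        (gap (heat β g) (mu β g))⁻¹ ≤ D * (u + 1) ∧
        u ≤ D * ((gap (heat β g) (mu β g))⁻¹ + tmix L (mu β g) (1 / 4) + 1)} := by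
  obtain ⟨C, hC, hW⟩ := hD K β ε h0 h1
  obtain ⟨k, hk, hlev⟩ := tmix_levels (ε := ε) (δ := 1 / 4) h0 (by norm_num) (by norm_num)
  set a := log (1 / (2 * ε)) with ha
  have ha0 : 0 < a := log_pos (by rw [lt_div_iff₀ (by positivity)]; linarith)
  have hk0 : (0 : ℝ) ≤ k := k.cast_nonneg
  have hKa : 0 < K / a := by positivity
  have hKC : 0 < 2 * K * C := by positivity
  refine ⟨1 + K + K / a + k + 2 * K * C + C, by linarith, whp_mono hW ?_⟩
  filter_upwards [eventually_gt_atTop 0] with n hn g hg L hL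
  have : Nonempty (Fin n) := ⟨⟨0, hn⟩⟩
  obtain ⟨b1, b2⟩ := hg L hL
  obtain ⟨c1, c2⟩ := inv_gap hn hK hL
  have hγ := gap_pos hn hK hL
  have d1 := hL.1.le_tmix hγ h0
  have d2 := hL.1.le_tmix hγ (ε := 1 / 4) (by norm_num)
  have d3 := hlev _ L _ hL.1 hγ
  set D := 1 + K + K / a + k + 2 * K * C + C with hD
  set r0 := (gap (heat β g) (mu β g))⁻¹ with hr0
  set r := (gap L (mu β g))⁻¹ with hr
  set T := tmix L (mu β g) ε
  set T4 := tmix L (mu β g) (1 / 4)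
  set N : ℝ := kmix (step K L) (mu β g) ε / n
  have p0 : 0 < r0 := inv_pos.2 (gap_heat_pos hn β g)
  have p1 : 0 < r := inv_pos.2 hγ
  have p2 : 0 ≤ T := tmix_nonneg _ _ _
  have p3 : 0 ≤ T4 := tmix_nonneg _ _ _
  have p4 : 0 ≤ N := by positivity
  have e1 : a * r ≤ T := by
    rw [hr, ← div_eq_mul_inv, div_le_iff₀' hγ]
    exact d1
  have e2 : r ≤ 2 * T4 := by
    rw [hr, inv_le_iff_one_le_mul₀' hγ]
    rw [show (1 : ℝ) / (2 * (1 / 4)) = 2 by norm_num] at d2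
    nlinarith [log_two_gt_d9]
  have m : ∀ {A x y z : ℝ}, A ≤ D → x ≤ A * y → 0 ≤ y → y ≤ z → x ≤ D * z :=
    fun h1 h2 h3 h4 => h2.trans (mul_le_mul h1 h4 h3 (by positivity))
  intro u hu
  simp only [List.mem_cons, List.not_mem_nil, or_false] at hu
  rcases hu with rfl | rfl | rfl
  · exact ⟨m (by linarith) c1 p1.le (by linarith), m (by linarith) c2 p0.le (by linarith)⟩
  · refine ⟨m (A := K / a) (by linarith) (c1.trans ?_) p2 (by linarith),
      m (by linarith) d3 p3 (by linarith)⟩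
    rw [div_mul_eq_mul_div, le_div_iff₀ ha0, mul_assoc, mul_comm r]
    exact mul_le_mul_of_nonneg_left e1 hK.le
  · refine ⟨m (A := 2 * K * C) (by linarith) (c1.trans ?_) (by linarith) le_rfl,
      m (by linarith) b2 (by linarith) (by linarith)⟩
    have := mul_le_mul_of_nonneg_left (e2.trans (mul_le_mul_of_nonneg_left b1 zero_le_two)) hK.le
    linarith

theorem one_le_log : ∀ᶠ n : ℕ in atTop, 1 ≤ log n :=
  (tendsto_log_atTop.comp tendsto_natCast_atTop_atTop).eventually_ge_atTop 1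

theorem ev_log (A : ℝ) : ∀ᶠ n : ℕ in atTop, A ≤ log n :=
  (tendsto_log_atTop.comp tendsto_natCast_atTop_atTop).eventually_ge_atTop A

theorem ev_pow (A : ℝ) {η : ℝ} (hη : 0 < η) : ∀ᶠ n : ℕ in atTop, A ≤ (n : ℝ) ^ η :=
  ((tendsto_rpow_atTop hη).comp tendsto_natCast_atTop_atTop).eventually_ge_atTop A

theorem ev_exp (A : ℝ) {η : ℝ} (hη : 0 < η) : ∀ᶠ n : ℕ in atTop, A ≤ exp (η * n) :=
  (tendsto_exp_atTop.comp (tendsto_natCast_atTop_atTop.const_mul_atTop hη)).eventually_ge_atTop A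

/-- High temperature: the upper bound in continuous time, with a constant free of `ε`. -/
theorem high_up (hK : 0 < K) (h0 : 0 ≤ β) (h1 : β < 1) : ∃ C : ℝ, 0 < C ∧ ∀ ε : ℝ, 0 < ε →
    WHP fun n => {g | ∀ L, Like K β g L → tmix L (mu β g) ε ≤ C * log n} := by
  obtain ⟨C, hC, h⟩ := P150.H185.sk_mlsi β h0 h1
  refine ⟨2 * (K * C), by positivity, fun ε hε => whp_mono (Ent.univ_high hC h) ?_⟩
  filter_upwards [ev_log (log (2 / ε ^ 2)), eventually_gt_atTop 0] with n hn hn0 g hg L hL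
  have hp : (0 : ℝ) < n := by exact_mod_cast hn0
  have hl := log_natCast_nonneg n
  have ht : 0 ≤ 2 * (K * C) * log n := by positivity
  refine tmix_le_of ht fun x => ?_
  have h2 := (hg L K⁻¹ (inv_pos.2 hK) hL.1 (low hK hL)).2 _ ht x
  refine Ent.tv_le_of_sq (B := 2 * n) (a := (K * C)⁻¹) (by positivity) (by positivity) hε
    (h2.trans (le_of_eq ?_)) ?_
  · congr 3
    field_simp
  · rw [div_inv_eq_mul, show 2 * (n : ℝ) / ε ^ 2 = 2 / ε ^ 2 * n by ring,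
      log_mul (by positivity) hp.ne']
    have := mul_le_mul_of_nonneg_right hn (show 0 ≤ K * C by positivity)
    linarith

theorem high (hD : DC) (hK : 0 < K) (h0 : 0 ≤ β) (h1 : β < 1) (e0 : 0 < ε) (e1 : ε < 1 / 2) :
    ∃ c C : ℝ, 0 < c ∧ Unif K β ε fun n r t k =>
      r ∈ Icc c C ∧ t ≤ C * log n ∧ k ≤ C * log n := by
  obtain ⟨D, hD1, h2⟩ := core hD hK β e0 e1
  obtain ⟨C, hC, h3⟩ := high_up hK h0 h1
  obtain ⟨c, C', hc, -, h4⟩ := P150.H185.high_zero_at β h0 h1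
  have hc' := inv_pos.2 hc
  refine ⟨K⁻¹, K * c⁻¹ + D * (c⁻¹ + C + 1), inv_pos.2 hK,
    whp_mono (whp_inter (whp_inter h2 (h3 (1 / 4) (by norm_num))) h4) ?_⟩
  filter_upwards [one_le_log, eventually_gt_atTop 0] with n hn hn0 g hg L hL
  obtain ⟨⟨a1, a2⟩, a3, a4, -⟩ := hg
  rw [← gap_heat] at a3 a4
  have b0 := gap_heat_pos hn0 β g
  have b1 : (gap (heat β g) (mu β g))⁻¹ ≤ c⁻¹ := inv_anti₀ hc a3
  have b2 : 1 ≤ (gap (heat β g) (mu β g))⁻¹ := (one_le_inv₀ b0).2 a4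
  obtain ⟨b3, b4⟩ := inv_gap hn0 hK hL
  have b5 := a2 L hL
  have b6 : ∀ u : ℝ, u ≤ D * ((gap (heat β g) (mu β g))⁻¹ + tmix L (mu β g) (1 / 4) + 1) →
      u ≤ (K * c⁻¹ + D * (c⁻¹ + C + 1)) * log n := fun u hu => by
    have d1 : (gap (heat β g) (mu β g))⁻¹ + tmix L (mu β g) (1 / 4) + 1 ≤
        (c⁻¹ + C + 1) * log n := by nlinarith
    have d2 := mul_le_mul_of_nonneg_left d1 (zero_le_one.trans hD1)
    have d3 : 0 ≤ K * c⁻¹ * log n := by positivity
    linarith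
  refine ⟨⟨?_, ?_⟩, b6 _ (a1 L hL _ (by simp)).2, b6 _ (a1 L hL _ (by simp)).2⟩
  · rw [inv_le_iff_one_le_mul₀' hK]
    exact b2.trans b3
  · have d1 := mul_le_mul_of_nonneg_left b1 hK.le
    have d2 : 0 ≤ D * (c⁻¹ + C + 1) := by positivity
    linarith

theorem ev_crit (C : ℝ) : ∀ᶠ n : ℕ in atTop, C * log n ^ 4 ≤ (n : ℝ) ^ (2 / 3 : ℝ) := by
  filter_upwards [N150.ev_log |C| (show (0 : ℝ) < 2 / 3 by norm_num)] with n hn
  have h1 : 0 ≤ log n ^ 4 := by positivity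
  nlinarith [mul_le_mul_of_nonneg_right (le_abs_self C) h1, mul_nonneg (abs_nonneg C) h1]

theorem crit (hD : DC) (hK : 0 < K) (e0 : 0 < ε) (e1 : ε < 1 / 2) :
    ∃ C : ℝ, 0 < C ∧ ∀ η : ℝ, 0 < η → Unif K 1 ε fun n r t k => ∀ u ∈ [r, t, k],
      u ∈ Icc ((n : ℝ) ^ (2 / 3 : ℝ) / (C * log n ^ 4)) ((n : ℝ) ^ (2 / 3 + η)) := by
  obtain ⟨D, hD1, h2⟩ := core hD hK 1 e0 e1
  obtain ⟨C, hC, h3⟩ := P150.H704.crit_full
  have hD0 : 0 < D := by linarith
  refine ⟨2 * D * C, by positivity, fun η hη => whp_mono (whp_inter (whp_inter h2 h3)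
    (whp_inter (N150.upFull (η / 2) (half_pos hη))
      (Ent.univ_crit (N150.Red.levW_of_pathH N150.Plan.closed.path)
        (N150.Red.lastW_of_pathH N150.Plan.closed.path) (half_pos hη)))) ?_⟩
  filter_upwards [one_le_log, eventually_ge_atTop 1, ev_crit (2 * D * C),
    ev_pow (D * (K + 2)) (half_pos hη)] with n hn hn0 f1 f2 g hg L hL u hu
  obtain ⟨⟨a1, a2, -⟩, ⟨-, a3, -⟩, a4⟩ := hg
  rw [← gap_heat] at a2 a3
  obtain ⟨b1, b2⟩ := a1 L hL u hu
  have hn1 : (1 : ℝ) ≤ n := by exact_mod_cast hn0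
  have hp : (0 : ℝ) < n := by linarith
  have b0 := gap_heat_pos hn0 1 g
  have hl : 0 < log n ^ 4 := by positivity
  constructor
  · have d1 : (n : ℝ) ^ (2 / 3 : ℝ) / (C * log n ^ 4) ≤ (gap (heat 1 g) (mu 1 g))⁻¹ := by
      rw [le_inv_comm₀ (by positivity) b0, inv_div]
      refine a2.trans (le_of_eq ?_)
      rw [rpow_neg hp.le, ← div_eq_mul_inv]
    have d2 : 1 ≤ (n : ℝ) ^ (2 / 3 : ℝ) / (2 * D * C * log n ^ 4) := by
      rw [le_div_iff₀ (by positivity), one_mul]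
      exact f1
    have d3 : (n : ℝ) ^ (2 / 3 : ℝ) / (C * log n ^ 4) =
        D * (2 * ((n : ℝ) ^ (2 / 3 : ℝ) / (2 * D * C * log n ^ 4))) := by
      have := hl.ne'
      have := hD0.ne'
      generalize log n ^ 4 = l at *
      field_simp
    have d4 := le_of_mul_le_mul_left (d3 ▸ d1.trans b1) hD0
    linarith
  · set A := (n : ℝ) ^ (2 / 3 + η / 2) with hA
    have hA1 : 1 ≤ A := one_le_rpow hn1 (by positivity)
    have d1 : (gap (heat 1 g) (mu 1 g))⁻¹ ≤ A := by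
      rw [inv_le_comm₀ b0 (by linarith), ← rpow_neg hp.le]
      exact a3
    have d2 : tmix L (mu 1 g) (1 / 4) ≤ K * A :=
      tmix_le_of (by positivity) (a4 L K⁻¹ (inv_pos.2 hK) hL.1 (low hK hL) _
        (by rw [div_inv_eq_mul, mul_comm]))
    have d3 : (n : ℝ) ^ (2 / 3 + η) = (n : ℝ) ^ (η / 2) * A := by
      rw [hA, ← rpow_add hp]
      congr 1
      ring
    have d4 := mul_le_mul_of_nonneg_right f2 (show 0 ≤ A by linarith)
    have d5 := mul_le_mul_of_nonneg_left (show (gap (heat 1 g) (mu 1 g))⁻¹ +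
      tmix L (mu 1 g) (1 / 4) + 1 ≤ (K + 2) * A by linarith) hD0.le
    rw [d3]
    linarith

theorem whp_floor (h0 : 0 ≤ β) :
    WHP fun n => {g | ∀ x, exp (-((1 + 2 * β) * n)) ≤ mu β g x} := by
  refine whp_mono (P150.H704.whp_H one_pos (by linarith [log_two_lt_d9]))
    (Eventually.of_forall fun n g hg x => ?_)
  have h1 := P150.H704.gibbs_inv_le h0 hg x
  have h2 : 0 < mu β g x := (rev_heat β g).pos x
  rw [exp_neg, inv_le_comm₀ (exp_pos _) h2]
  refine h1.trans (exp_le_exp.2 ?_)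
  have := mul_le_mul_of_nonneg_left log_two_lt_d9.le (Nat.cast_nonneg (α := ℝ) n)
  have : (0 : ℝ) ≤ n := n.cast_nonneg
  linarith

theorem slow (hD : DC) (hK : 0 < K) (h1 : 1 < β) (e0 : 0 < ε) (e1 : ε < 1 / 2) :
    ∃ c : ℝ, 0 < c ∧ ∀ η : ℝ, 0 < η → Unif K β ε fun n r t k => ∀ u ∈ [r, t, k],
      u ∈ Icc (exp (c * n)) (exp ((2 * √(log 2) * (β - 1) + η) * n)) := by
  obtain ⟨D, hD1, h2⟩ := core hD hK β e0 e1
  obtain ⟨c, hc, h3⟩ := N150.Slow.two_sided h1 (N150.Slow.slow_all h1)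
  have hD0 : 0 < D := by linarith
  have hβ : 0 < β := by linarith
  set M := D * (2 + (2 + β) * K) with hM
  have hM0 : 0 < M := by positivity
  refine ⟨c / 2, half_pos hc, fun η hη => whp_mono (whp_inter (whp_inter h2
    (h3 (η / 2) (half_pos hη))) (whp_floor hβ.le)) ?_⟩
  filter_upwards [eventually_ge_atTop 1, ev_exp (2 * D) (half_pos hc),
    P150.H704.ev_lin (inv_pos.2 hM0) (half_pos hη)] with n hn0 f1 f2 g hg L hL u hu
  obtain ⟨⟨a1, a2, a3, -⟩, a4⟩ := hg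
  rw [← gap_heat] at a2 a3
  obtain ⟨b1, b2⟩ := a1 L hL u hu
  have hn1 : (1 : ℝ) ≤ n := by exact_mod_cast hn0
  have b0 := gap_heat_pos hn0 β g
  constructor
  · have d1 : exp (c * n) ≤ (gap (heat β g) (mu β g))⁻¹ := by
      rw [le_inv_comm₀ (exp_pos _) b0, ← exp_neg]
      exact a3
    have d2 : exp (c * n) = exp (c / 2 * n) * exp (c / 2 * n) := by
      rw [← exp_add]
      congr 1
      ring
    have d3 := mul_le_mul_of_nonneg_right f1 (exp_pos (c / 2 * n)).le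
    have d4 : D * (2 * exp (c / 2 * n)) ≤ D * (u + 1) := by linarith
    have d5 := le_of_mul_le_mul_left d4 hD0
    have d6 : 1 ≤ exp (c / 2 * n) := one_le_exp (by positivity)
    linarith
  · set A := exp ((2 * √(log 2) * (β - 1) + η / 2) * n) with hA
    have hb : 0 < β - 1 := by linarith
    have hA1 : 1 ≤ A := one_le_exp (by positivity)
    have d1 : (gap (heat β g) (mu β g))⁻¹ ≤ A := by
      rw [inv_le_comm₀ b0 (exp_pos _), ← exp_neg]
      exact a2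
    have hγ := gap_pos hn0 hK hL
    have d2 := hL.1.tmix_le_gap hγ le_rfl (ε := 1 / 4) (by norm_num) (by norm_num)
      (by positivity) a4
    rw [show (1 : ℝ) / (2 * (1 / 4)) = 2 by norm_num, div_eq_mul_inv] at d2
    have d3 := (inv_gap hn0 hK hL).2.trans (mul_le_mul_of_nonneg_left d1 hK.le)
    have d4 : (1 + 2 * β) * n / 2 + log 2 ≤ (2 + β) * n := by linarith [log_two_lt_d9]
    have d5 := d2.trans (mul_le_mul d4 d3 (inv_pos.2 hγ).le (by positivity))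
    have d6 : exp ((2 * √(log 2) * (β - 1) + η) * n) = exp (η / 2 * n) * A := by
      rw [hA, ← exp_add]
      congr 1
      ring
    rw [le_inv_mul_iff₀ hM0] at f2
    have d7 := mul_le_mul_of_nonneg_right f2 (show 0 ≤ A by linarith)
    have d8 : A ≤ n * A := le_mul_of_one_le_left (by linarith) hn1
    have d9 := mul_le_mul_of_nonneg_left (show (gap (heat β g) (mu β g))⁻¹ +
      tmix L (mu β g) (1 / 4) + 1 ≤ (2 + (2 + β) * K) * (n * A) by linarith) hD0.le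
    rw [d6]
    calc u ≤ _ := b2.trans d9
      _ = M * n * A := by rw [hM]; ring
      _ ≤ _ := d7

theorem ev_third (C : ℝ) :
    ∀ᶠ n : ℕ in atTop, (n : ℝ) ^ (1 / 3 : ℝ) ≤ (n : ℝ) ^ (2 / 3 : ℝ) / (C * log n ^ 4) ∨ C ≤ 0 := by
  rcases le_or_gt C 0 with hC | hC
  · exact Eventually.of_forall fun _ => Or.inr hC
  filter_upwards [N150.ev_log C (show (0 : ℝ) < 1 / 3 by norm_num), one_le_log,
    eventually_ge_atTop 1] with n h1 h2 h3
  have hp : (0 : ℝ) < n := by exact_mod_cast h3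
  have h4 : 0 < C * log n ^ 4 := by positivity
  have h5 : (n : ℝ) ^ (2 / 3 : ℝ) = (n : ℝ) ^ (1 / 3 : ℝ) * (n : ℝ) ^ (1 / 3 : ℝ) := by
    rw [← rpow_add hp]
    norm_num
  rw [le_div_iff₀ h4, h5]
  exact Or.inl (mul_le_mul_of_nonneg_left (by linarith) (by positivity))

theorem ev_exp_pow {c : ℝ} (hc : 0 < c) : ∀ᶠ n : ℕ in atTop, (n : ℝ) ^ (1 / 3 : ℝ) ≤ exp (c * n) := by
  filter_upwards [P150.H704.ev_lin one_pos hc, eventually_ge_atTop 1] with n h1 h2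
  have h3 : (1 : ℝ) ≤ n := by exact_mod_cast h2
  have h4 := rpow_le_rpow_of_exponent_le h3 (show (1 / 3 : ℝ) ≤ 1 by norm_num)
  rw [rpow_one] at h4
  linarith

/-- At and below the critical temperature all three time scales are at least `n ^ (1/3)`. -/
theorem not_fast (hD : DC) (hK : 0 < K) (h1 : 1 ≤ β) (e0 : 0 < ε) (e1 : ε < 1 / 2) :
    Unif K β ε fun n r t k => ∀ u ∈ [r, t, k], (n : ℝ) ^ (1 / 3 : ℝ) ≤ u := by
  rcases h1.eq_or_lt with rfl | h1
  · obtain ⟨C, hC, h⟩ := crit hD hK e0 e1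
    refine whp_mono (h 1 one_pos) ?_
    filter_upwards [ev_third C] with n hn g hg L hL u hu
    exact (hn.resolve_right hC.not_ge).trans (hg L hL u hu).1
  · obtain ⟨c, hc, h⟩ := slow hD hK h1 e0 e1
    refine whp_mono (h 1 one_pos) ?_
    filter_upwards [ev_exp_pow hc] with n hn g hg L hL u hu
    exact hn.trans (hg L hL u hu).1

theorem ev_lt (C : ℝ) : ∀ᶠ n : ℕ in atTop, C * log n < (n : ℝ) ^ (1 / 3 : ℝ) := by
  filter_upwards [N150.ev_log (|C| + 1) (show (0 : ℝ) < 1 / 3 by norm_num), one_le_log] with n h1 h2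
  have h3 : log n ≤ log n ^ 4 := le_self_pow₀ h2 (by norm_num)
  have h4 := mul_le_mul (le_abs_self C) h3 (by linarith) (abs_nonneg C)
  have h5 : 0 ≤ |C| * log n ^ 4 := by positivity
  linarith

/-- Fast mixing holds exactly for `β < 1`, for each choice of the dynamics. -/
theorem fast_iff (hD : DC) (hK : 0 < K) (h0 : 0 ≤ β) (e0 : 0 < ε) (e1 : ε < 1 / 2)
    (F : ∀ n : ℕ, (Pairs n → ℝ) → Matrix (Cfg n) (Cfg n) ℝ) (hF : ∀ n g, Like K β g (F n g)) :
    ((∃ C : ℝ, WHP fun n => {g | tmix (F n g) (mu β g) ε ≤ C * log n}) ↔ β < 1) ∧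
    ((∃ C : ℝ, WHP fun n => {g | (gap (F n g) (mu β g))⁻¹ ≤ C}) ↔ β < 1) ∧
    ((∃ C : ℝ, WHP fun n => {g | kmix (step K (F n g)) (mu β g) ε ≤ C * n * log n}) ↔ β < 1) := by
  have key : ∀ A : (n : ℕ) → Set (Pairs n → ℝ), WHP A → ∀ C : ℝ, (∀ᶠ n : ℕ in atTop, ∀ g ∈ A n,
      ∃ u ∈ [(gap (F n g) (mu β g))⁻¹, tmix (F n g) (mu β g) ε,
        kmix (step K (F n g)) (mu β g) ε / n], u ≤ C * log n) → β < 1 := by
    intro A hA C hC
    by_contra hb
    obtain ⟨n, ⟨⟨g, h1, h2⟩, h3⟩, h4⟩ := (((P150.H185.Crit.whp_nonempty (whp_inter hA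
      (not_fast hD hK (not_lt.1 hb) e0 e1))).and hC).and (ev_lt C)).exists
    obtain ⟨u, hu, h5⟩ := h3 g h1
    linarith [h2 _ (hF n g) u hu]
  refine ⟨⟨fun ⟨C, h⟩ => key _ h C (Eventually.of_forall fun n g hg => ⟨_, by simp, hg⟩),
    fun h1 => ?_⟩, ⟨fun ⟨C, h⟩ => key _ h |C| ?_, fun h1 => ?_⟩,
    ⟨fun ⟨C, h⟩ => key _ h C ?_, fun h1 => ?_⟩⟩
  · obtain ⟨c, C, -, h⟩ := high hD hK h0 h1 e0 e1
    exact ⟨C, whp_mono h (Eventually.of_forall fun n g hg => (hg _ (hF n g)).2.1)⟩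
  · filter_upwards [one_le_log] with n hn g hg
    exact ⟨_, by simp, (hg.trans (le_abs_self C)).trans
      (le_mul_of_one_le_right (abs_nonneg C) hn)⟩
  · obtain ⟨c, C, -, h⟩ := high hD hK h0 h1 e0 e1
    exact ⟨C, whp_mono h (Eventually.of_forall fun n g hg => (hg _ (hF n g)).1.2)⟩
  · filter_upwards [eventually_gt_atTop 0] with n hn g hg
    have hp : (0 : ℝ) < n := by exact_mod_cast hn
    refine ⟨kmix (step K (F n g)) (mu β g) ε / n, by simp, ?_⟩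
    rw [div_le_iff₀ hp, mul_right_comm]
    exact hg
  · obtain ⟨c, C, -, h⟩ := high hD hK h0 h1 e0 e1
    refine ⟨C, whp_mono h ?_⟩
    filter_upwards [eventually_gt_atTop 0] with n hn g hg
    have hp : (0 : ℝ) < n := by exact_mod_cast hn
    have h2 := (hg _ (hF n g)).2.2
    rw [div_le_iff₀ hp, mul_right_comm] at h2
    exact h2

/-- The heat-bath dynamics at the level `1 / 4`. -/
theorem one (β : ℝ) (h0 : 0 ≤ β) :
    ((∃ C : ℝ, WHP fun n => {g | tmix (heat β g) (mu β g) (1 / 4) ≤ C * log n}) ↔ β < 1) ∧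
    (β < 1 → ∃ c C : ℝ, 0 < c ∧ WHP fun n => {g |
      tmix (heat β g) (mu β g) (1 / 4) ∈ Icc (c * log n) (C * log n) ∧
      (gap (heat β g) (mu β g))⁻¹ ∈ Icc c C}) ∧
    (β = 1 → ∀ η : ℝ, 0 < η → WHP fun n => {g |
      tmix (heat β g) (mu β g) (1 / 4) ∈ Icc ((n : ℝ) ^ (2 / 3 - η)) ((n : ℝ) ^ (2 / 3 + η)) ∧
      (gap (heat β g) (mu β g))⁻¹ ∈ Icc ((n : ℝ) ^ (2 / 3 - η)) ((n : ℝ) ^ (2 / 3 + η))}) ∧
    (1 < β → ∃ c C : ℝ, 0 < c ∧ WHP fun n => {g |
      tmix (heat β g) (mu β g) (1 / 4) ∈ Icc (exp (c * n)) (exp (C * n)) ∧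
      (gap (heat β g) (mu β g))⁻¹ ∈ Icc (exp (c * n)) (exp (C * n))}) := by
  refine ⟨P150.H185.Crit.tmix_iff β h0, fun h1 => ?_, ?_, fun h1 => ?_⟩
  · obtain ⟨c, C, hc, hC, h⟩ := P150.H185.high_zero_at β h0 h1
    refine ⟨min c 1, max C c⁻¹, lt_min hc one_pos, whp_mono h ?_⟩
    filter_upwards [eventually_gt_atTop 0] with n hn g hg
    obtain ⟨a1, a2, a3, a4, -⟩ := hg
    rw [← gap_heat] at a1 a2
    have hl := log_natCast_nonneg n
    exact ⟨⟨(mul_le_mul_of_nonneg_right (min_le_left _ _) hl).trans a3,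
      a4.trans (mul_le_mul_of_nonneg_right (le_max_left _ _) hl)⟩,
      (min_le_right _ _).trans ((one_le_inv₀ (gap_heat_pos hn β g)).2 a2),
      (inv_anti₀ hc a1).trans (le_max_right _ _)⟩
  · rintro rfl η hη
    obtain ⟨C, hC, h⟩ := N150.crit_mat N150.upFull (N150.lowFull_of P150.H704.crit_full)
    refine whp_mono (h η hη) ?_
    filter_upwards [eventually_ge_atTop 2] with n hn g hg
    obtain ⟨a1, -, a3, a4, -, a5, a6⟩ := hg
    rw [← gap_heat] at a1 a6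
    have hn1 : (1 : ℝ) < n := by exact_mod_cast hn
    have hp : (0 : ℝ) < n := by linarith
    have hl := log_pos hn1
    have b0 := gap_heat_pos (by omega : 0 < n) 1 g
    have low : ∀ u : ℝ, 0 < u → |log u / log n - 2 / 3| ≤ η → (n : ℝ) ^ (2 / 3 - η) ≤ u := by
      intro u hu h
      rw [← log_le_log_iff (rpow_pos_of_pos hp _) hu, log_rpow hp, ← le_div_iff₀ hl]
      linarith [(abs_le.1 h).1]
    have hl2 := log_pos (show (1 : ℝ) < 2 by norm_num)
    refine ⟨⟨low _ (lt_of_lt_of_le (by positivity) a3) a5, a4⟩, low _ (inv_pos.2 b0) a6, ?_⟩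
    rw [inv_le_comm₀ b0 (rpow_pos_of_pos hp _), ← rpow_neg hp.le]
    exact a1
  · obtain ⟨c, hc, h⟩ := N150.Slow.two_sided h1 (N150.Slow.slow_all h1)
    refine ⟨c, 2 * √(log 2) * (β - 1) + 1, hc, whp_mono (h 1 one_pos) ?_⟩
    filter_upwards [eventually_gt_atTop 0] with n hn g hg
    obtain ⟨a1, a2, a3, a4⟩ := hg
    rw [← gap_heat] at a1 a2
    have b0 := gap_heat_pos hn β g
    refine ⟨⟨a3, a4⟩, ?_, ?_⟩
    · rw [le_inv_comm₀ (exp_pos _) b0, ← exp_neg]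
      exact a2
    · rw [inv_le_comm₀ b0 (exp_pos _), ← exp_neg]
      exact a1

end Vale.Agent.N150D.Asm
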