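import Mathlib

/-!
Finite reversible Markov chains in continuous and in discrete time: definitions.
-/

namespace Vale.Agent.N150D

variable {S : Type*} [Fintype S] [DecidableEq S]

/-- `L` is a rate matrix which is reversible for the positive probability vector `π`. -/
structure Rev (L : Matrix S S ℝ) (π : S → ℝ) : Prop where
  pos : ∀ x, 0 < π x
  sum : ∑ x, π x = 1
  off : ∀ x y, x ≠ y → 0 ≤ L x y
  row : ∀ x, ∑ y, L x y = 0
  rev : ∀ x y, π x * L x y = π y * L y x

/-- `P` is a stochastic matrix and the probability vector `π` is stationary for it. -/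
structure Sto (P : Matrix S S ℝ) (π : S → ℝ) : Prop where
  nn : ∀ x, 0 ≤ π x
  sum : ∑ x, π x = 1
  nonneg : ∀ x y, 0 ≤ P x y
  row : ∀ x, ∑ y, P x y = 1
  stat : ∀ y, ∑ x, π x * P x y = π y

/-- The transition kernel `exp (t L)`. -/
noncomputable def ker (L : Matrix S S ℝ) (t : ℝ) : Matrix S S ℝ := NormedSpace.exp (t • L)

/-- The total variation distance between the row `x` of `P` and `π`. -/
noncomputable def tvM (P : Matrix S S ℝ) (π : S → ℝ) (x : S) : ℝ :=
  (1 / 2) * ∑ y, |P x y - π y|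

/-- The total variation distance to `π` at the time `t`, from `x`. -/
noncomputable def tv (L : Matrix S S ℝ) (π : S → ℝ) (t : ℝ) (x : S) : ℝ := tvM (ker L t) π x

/-- The `ε`-mixing time in continuous time. -/
noncomputable def tmix (L : Matrix S S ℝ) (π : S → ℝ) (ε : ℝ) : ℝ :=
  sInf {t : ℝ | 0 ≤ t ∧ ∀ x, tv L π t x ≤ ε}

/-- The `ε`-mixing time of the discrete chain with the transition matrix `P`. -/
noncomputable def kmix (P : Matrix S S ℝ) (π : S → ℝ) (ε : ℝ) : ℕ :=
  sInf {k : ℕ | ∀ x, tvM (P ^ k) π x ≤ ε}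

/-- The action of a matrix on functions. -/
noncomputable def act (L : Matrix S S ℝ) (f : S → ℝ) (x : S) : ℝ := ∑ y, L x y * f y

/-- Expectation. -/
noncomputable def ex (π : S → ℝ) (f : S → ℝ) : ℝ := ∑ x, π x * f x

/-- Variance. -/
noncomputable def var (π : S → ℝ) (f : S → ℝ) : ℝ := ex π (fun x => (f x - ex π f) ^ 2)

/-- The Dirichlet form `-⟨f, L g⟩`. -/
noncomputable def dir (L : Matrix S S ℝ) (π : S → ℝ) (f g : S → ℝ) : ℝ :=
  - ex π (fun x => f x * act L g x)

/-- The spectral gap of `-L` on `L²(π)`, as a Rayleigh quotient. -/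
noncomputable def gap (L : Matrix S S ℝ) (π : S → ℝ) : ℝ :=
  sInf {r : ℝ | ∃ f : S → ℝ, var π f ≠ 0 ∧ r = dir L π f f / var π f}

end Vale.Agent.N150D
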