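import Vale.Agent.N150D.ChDef

/-!
Finite Markov chains: the semigroup, total variation, and mixing times at different levels.
-/

set_option linter.unusedSectionVars false

namespace Vale.Agent.N150D

open Finset

variable {S : Type*} [Fintype S] [DecidableEq S]

/-! ### The matrix exponential -/

set_option backward.isDefEq.respectTransparency false in
theorem ker_deriv_mat (L : Matrix S S ℝ) (t : ℝ) :
    HasDerivAt (fun s : ℝ => ker L s) (ker L t * L) t :=
  open scoped Matrix.Norms.Operator in hasDerivAt_exp_smul_const L t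

set_option backward.isDefEq.respectTransparency false in
theorem ker_deriv_mat' (L : Matrix S S ℝ) (t : ℝ) :
    HasDerivAt (fun s : ℝ => ker L s) (L * ker L t) t :=
  open scoped Matrix.Norms.Operator in hasDerivAt_exp_smul_const' L t

theorem ker_deriv (L : Matrix S S ℝ) (t : ℝ) (x y : S) :
    HasDerivAt (fun s : ℝ => ker L s x y) ((ker L t * L) x y) t :=
  (hasDerivAt_pi.1 ((hasDerivAt_pi.1 (ker_deriv_mat L t)) x)) y

theorem ker_deriv' (L : Matrix S S ℝ) (t : ℝ) (x y : S) :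
    HasDerivAt (fun s : ℝ => ker L s x y) ((L * ker L t) x y) t :=
  (hasDerivAt_pi.1 ((hasDerivAt_pi.1 (ker_deriv_mat' L t)) x)) y

set_option backward.isDefEq.respectTransparency false in
theorem exp_hasSum (A : Matrix S S ℝ) :
    HasSum (fun n : ℕ => ((n.factorial : ℝ)⁻¹) • A ^ n) (NormedSpace.exp A) :=
  open scoped Matrix.Norms.Operator in NormedSpace.exp_series_hasSum_exp' A

theorem pow_entry_nonneg {A : Matrix S S ℝ} (hA : ∀ x y, 0 ≤ A x y) (k : ℕ) :
    ∀ x y, 0 ≤ (A ^ k) x y := by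
  induction k with
  | zero =>
    intro x y
    rw [pow_zero, Matrix.one_apply]
    split_ifs <;> norm_num
  | succ k ih =>
    intro x y
    rw [pow_succ, Matrix.mul_apply]
    exact sum_nonneg fun z _ => mul_nonneg (ih x z) (hA z y)

theorem ker_zero (L : Matrix S S ℝ) : ker L 0 = 1 := by
  rw [ker, zero_smul, NormedSpace.exp_zero]

theorem ker_add (L : Matrix S S ℝ) (s t : ℝ) : ker L (s + t) = ker L s * ker L t := by
  unfold ker
  rw [add_smul]
  exact Matrix.exp_add_of_commute _ _ (((Commute.refl _).smul_left s).smul_right t)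

theorem ker_nat_mul (L : Matrix S S ℝ) (t : ℝ) (k : ℕ) : ker L (k * t) = ker L t ^ k := by
  induction k with
  | zero => simp [ker_zero]
  | succ k ih => rw [Nat.cast_succ, add_mul, one_mul, ker_add, ih, pow_succ]

theorem exp_scalar (r : ℝ) :
    NormedSpace.exp (r • (1 : Matrix S S ℝ)) = Real.exp r • (1 : Matrix S S ℝ) := by
  have h : ∀ u : ℝ, u • (1 : Matrix S S ℝ) = Matrix.diagonal (fun _ => u) := by
    intro u
    ext x y
    by_cases h : x = y
    · subst h; simp
    · simp [h]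
  rw [h, h, Matrix.exp_diagonal]
  congr 1
  ext x
  rw [Pi.coe_exp, Real.exp_eq_exp_ℝ]

/-- Poissonization: for `L = c (P - 1)`, the kernel is a Poisson mixture of the powers of `P`. -/
theorem ker_hasSum (P : Matrix S S ℝ) (c t : ℝ) (x y : S) :
    HasSum (fun j : ℕ => Real.exp (-(t * c)) * ((t * c) ^ j / j.factorial) * (P ^ j) x y)
      (ker (c • (P - 1)) t x y) := by
  have h1 : t • c • (P - 1) = (t * c) • P + (-(t * c)) • (1 : Matrix S S ℝ) := by
    rw [smul_smul, smul_sub, neg_smul, sub_eq_add_neg]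
  have h2 : ker (c • (P - 1)) t = Real.exp (-(t * c)) • NormedSpace.exp ((t * c) • P) := by
    rw [ker, h1, Matrix.exp_add_of_commute _ _ ((Commute.one_right _).smul_right _),
      exp_scalar, mul_smul_comm, mul_one]
  have h3 := (Pi.hasSum.1 (Pi.hasSum.1 (exp_hasSum ((t * c) • P)) x) y).mul_left
    (Real.exp (-(t * c)))
  rw [h2, Matrix.smul_apply, smul_eq_mul]
  refine (congrArg (HasSum · _) (funext fun j => ?_)).mp h3
  simp only [smul_pow, Matrix.smul_apply, smul_eq_mul]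
  ring

theorem ker_nonneg_of {L : Matrix S S ℝ} (hL : ∀ x y, x ≠ y → 0 ≤ L x y) {t : ℝ} (ht : 0 ≤ t)
    (x y : S) : 0 ≤ ker L t x y := by
  set c : ℝ := 1 + ∑ z, |L z z| with hc
  have hc0 : 0 < c := by positivity
  have e : L = c • ((1 + c⁻¹ • L) - 1) := by
    rw [add_sub_cancel_left, smul_smul, mul_inv_cancel₀ hc0.ne', one_smul]
  have hP : ∀ x y, 0 ≤ (1 + c⁻¹ • L) x y := by
    intro x y
    rw [Matrix.add_apply, Matrix.smul_apply, smul_eq_mul, Matrix.one_apply]
    split_ifs with h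
    · subst h
      have h1 : |L x x| ≤ ∑ z, |L z z| :=
        single_le_sum (f := fun z => |L z z|) (fun z _ => abs_nonneg _) (mem_univ x)
      have h2 : -c ≤ L x x := by linarith [neg_abs_le (L x x)]
      have h3 := mul_le_mul_of_nonneg_left h2 (inv_pos.2 hc0).le
      rw [mul_neg, inv_mul_cancel₀ hc0.ne'] at h3
      linarith
    · have := hL x y h
      positivity
  rw [e]
  refine (ker_hasSum _ c t x y).nonneg fun j => ?_
  have := pow_entry_nonneg hP j x y
  positivity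

theorem ker_eigen {L : Matrix S S ℝ} {f : S → ℝ} {c : ℝ} (hf : ∀ x, act L f x = c * f x)
    (t : ℝ) (x : S) : act (ker L t) f x = Real.exp (c * t) * f x := by
  set F : ℝ → ℝ := fun s => Real.exp (-(c * s)) * act (ker L s) f x with hF
  have hd : ∀ s, HasDerivAt F 0 s := by
    intro s
    have h1 : HasDerivAt (fun s : ℝ => Real.exp (-(c * s))) (Real.exp (-(c * s)) * (-(c * 1))) s :=
      ((((hasDerivAt_id s).const_mul c)).neg).exp
    have h2 : HasDerivAt (fun s : ℝ => act (ker L s) f x) (∑ y, (ker L s * L) x y * f y) s :=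
      HasDerivAt.fun_sum fun y _ => (ker_deriv L s x y).mul_const (f y)
    have h3 : ∑ y, (ker L s * L) x y * f y = c * act (ker L s) f x := by
      simp only [Matrix.mul_apply, sum_mul, act]
      rw [sum_comm, mul_sum]
      refine sum_congr rfl fun z _ => ?_
      have := hf z
      calc ∑ y, ker L s x z * L z y * f y = ker L s x z * act L f z := by
            rw [act, mul_sum]; exact sum_congr rfl fun y _ => by ring
        _ = c * (ker L s x z * f z) := by rw [this]; ring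
    have h4 := h1.mul h2
    rw [h3] at h4
    have h5 : Real.exp (-(c * s)) * (-(c * 1)) * act (ker L s) f x
        + Real.exp (-(c * s)) * (c * act (ker L s) f x) = 0 := by ring
    rw [h5] at h4
    exact h4
  have hconst : F t = F 0 :=
    is_const_of_deriv_eq_zero (fun s => (hd s).differentiableAt) (fun s => (hd s).deriv) t 0
  have h0 : F 0 = f x := by simp [hF, ker_zero, act, Matrix.one_apply]
  have h2 : Real.exp (c * t) * Real.exp (-(c * t)) = 1 := by
    rw [← Real.exp_add]; simp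
  calc act (ker L t) f x = (Real.exp (c * t) * Real.exp (-(c * t))) * act (ker L t) f x := by
        rw [h2, one_mul]
    _ = Real.exp (c * t) * F t := by rw [hF]; ring
    _ = _ := by rw [hconst, h0]

variable {L : Matrix S S ℝ} {π : S → ℝ}

theorem pow_rev {A : Matrix S S ℝ} (h : ∀ x y, π x * A x y = π y * A y x) (k : ℕ) :
    ∀ x y, π x * (A ^ k) x y = π y * (A ^ k) y x := by
  induction k with
  | zero =>
    intro x y
    by_cases e : x = y
    · subst e; rfl
    · simp [e, Ne.symm e]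
  | succ k ih =>
    intro x y
    conv_lhs => rw [pow_succ]
    conv_rhs => rw [pow_succ']
    simp only [Matrix.mul_apply, mul_sum]
    refine sum_congr rfl fun z _ => ?_
    calc π x * ((A ^ k) x z * A z y) = π x * (A ^ k) x z * A z y := by ring
      _ = (A ^ k) z x * (π z * A z y) := by rw [ih]; ring
      _ = _ := by rw [h]; ring

theorem Rev.ker_rev (h : Rev L π) (t : ℝ) (x y : S) : π x * ker L t x y = π y * ker L t y x := by
  have h1 := (Pi.hasSum.1 (Pi.hasSum.1 (exp_hasSum (t • L)) x) y).mul_left (π x)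
  have h2 := (Pi.hasSum.1 (Pi.hasSum.1 (exp_hasSum (t • L)) y) x).mul_left (π y)
  refine h1.unique ((congrArg (HasSum · _) (funext fun j => ?_)).mp h2)
  have := pow_rev h.rev j x y
  simp only [smul_pow, Matrix.smul_apply, smul_eq_mul]
  linear_combination (-((j.factorial : ℝ)⁻¹ * t ^ j)) * this

theorem Rev.ker_nonneg (h : Rev L π) {t : ℝ} (ht : 0 ≤ t) (x y : S) : 0 ≤ ker L t x y :=
  ker_nonneg_of h.off ht x y

theorem Rev.ker_row (h : Rev L π) (t : ℝ) (x : S) : ∑ y, ker L t x y = 1 := by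
  have := ker_eigen (L := L) (f := fun _ => 1) (c := 0) (fun x => by simp [act, h.row]) t x
  simpa [act] using this

theorem Rev.ker_sto (h : Rev L π) {t : ℝ} (ht : 0 ≤ t) : Sto (ker L t) π where
  nn x := (h.pos x).le
  sum := h.sum
  nonneg := h.ker_nonneg ht
  row := h.ker_row t
  stat y := by simp only [h.ker_rev t _ y, ← mul_sum, h.ker_row, mul_one]

/-! ### Stochastic matrices -/

variable {P Q : Matrix S S ℝ}

theorem Sto.one (h : Sto P π) : Sto (1 : Matrix S S ℝ) π where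
  nn := h.nn
  sum := h.sum
  nonneg x y := by rw [Matrix.one_apply]; split_ifs <;> norm_num
  row x := by simp [Matrix.one_apply]
  stat y := by simp [Matrix.one_apply]

theorem Sto.mul (hP : Sto P π) (hQ : Sto Q π) : Sto (P * Q) π where
  nn := hP.nn
  sum := hP.sum
  nonneg x y := by
    rw [Matrix.mul_apply]
    exact sum_nonneg fun z _ => mul_nonneg (hP.nonneg x z) (hQ.nonneg z y)
  row x := by
    simp only [Matrix.mul_apply]
    rw [sum_comm]
    simp only [← mul_sum, hQ.row, mul_one, hP.row]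
  stat y := by
    simp only [Matrix.mul_apply, mul_sum]
    rw [sum_comm]
    simp only [← mul_assoc, ← sum_mul, hP.stat, hQ.stat]

theorem Sto.pow (hP : Sto P π) (k : ℕ) : Sto (P ^ k) π := by
  induction k with
  | zero => rw [pow_zero]; exact hP.one
  | succ k ih => rw [pow_succ]; exact ih.mul hP

theorem tvM_nonneg (P : Matrix S S ℝ) (π : S → ℝ) (x : S) : 0 ≤ tvM P π x := by
  unfold tvM
  positivity

theorem Sto.tvM_le_one (hP : Sto P π) (x : S) : tvM P π x ≤ 1 := by
  have h1 : ∑ y, |P x y - π y| ≤ ∑ y, (P x y + π y) := by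
    refine sum_le_sum fun y _ => ?_
    have h2 := hP.nonneg x y
    have h3 := hP.nn y
    rw [abs_le]
    constructor <;> linarith
  rw [sum_add_distrib, hP.row, hP.sum] at h1
  unfold tvM
  linarith

/-- Running a stochastic matrix first does not increase the worst distance. -/
theorem tvM_mul_left (hP : Sto P π) {b : ℝ} (hb : ∀ z, tvM Q π z ≤ b) (x : S) :
    tvM (P * Q) π x ≤ b := by
  have h1 : ∀ y, (P * Q) x y - π y = ∑ z, P x z * (Q z y - π y) := by
    intro y
    simp only [Matrix.mul_apply, mul_sub, sum_sub_distrib, ← sum_mul, hP.row, one_mul]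
  have h2 : ∑ y, |(P * Q) x y - π y| ≤ ∑ y, ∑ z, P x z * |Q z y - π y| := by
    refine sum_le_sum fun y _ => ?_
    rw [h1]
    refine (abs_sum_le_sum_abs _ _).trans (sum_le_sum fun z _ => ?_)
    rw [abs_mul, abs_of_nonneg (hP.nonneg x z)]
  have h3 : ∑ y, ∑ z, P x z * |Q z y - π y| ≤ ∑ z, P x z * (2 * b) := by
    rw [sum_comm]
    refine sum_le_sum fun z _ => ?_
    rw [← mul_sum]
    refine mul_le_mul_of_nonneg_left ?_ (hP.nonneg x z)
    have := hb z
    unfold tvM at this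
    linarith
  rw [← sum_mul, hP.row] at h3
  unfold tvM
  linarith

/-- Running a stochastic matrix afterwards does not increase the distance. -/
theorem tvM_mul_right (hQ : Sto Q π) (x : S) : tvM (P * Q) π x ≤ tvM P π x := by
  have h1 : ∀ y, (P * Q) x y - π y = ∑ z, (P x z - π z) * Q z y := by
    intro y
    simp only [Matrix.mul_apply, sub_mul, sum_sub_distrib, hQ.stat]
  have h2 : ∑ y, |(P * Q) x y - π y| ≤ ∑ y, ∑ z, |P x z - π z| * Q z y := by
    refine sum_le_sum fun y _ => ?_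
    rw [h1]
    refine (abs_sum_le_sum_abs _ _).trans (sum_le_sum fun z _ => ?_)
    rw [abs_mul, abs_of_nonneg (hQ.nonneg z y)]
  rw [sum_comm] at h2
  simp only [← mul_sum, hQ.row, mul_one] at h2
  unfold tvM
  linarith

/-- Submultiplicativity of twice the distance. -/
theorem tvM_mul (hP : Sto P π) (hQ : Sto Q π) {b : ℝ} (hb : ∀ z, tvM Q π z ≤ b) (x : S) :
    2 * tvM (P * Q) π x ≤ (2 * tvM P π x) * (2 * b) := by
  have h1 : ∀ y, (P * Q) x y - π y = ∑ z, (P x z - π z) * (Q z y - π y) := by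
    intro y
    simp only [Matrix.mul_apply, sub_mul, mul_sub, sum_sub_distrib, ← sum_mul, hP.row, hP.sum,
      hQ.stat]
    ring
  have h2 : ∑ y, |(P * Q) x y - π y| ≤ ∑ y, ∑ z, |P x z - π z| * |Q z y - π y| := by
    refine sum_le_sum fun y _ => ?_
    rw [h1]
    refine (abs_sum_le_sum_abs _ _).trans (sum_le_sum fun z _ => ?_)
    rw [abs_mul]
  have h3 : ∑ y, ∑ z, |P x z - π z| * |Q z y - π y| ≤ ∑ z, |P x z - π z| * (2 * b) := by
    rw [sum_comm]
    refine sum_le_sum fun z _ => ?_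
    rw [← mul_sum]
    refine mul_le_mul_of_nonneg_left ?_ (abs_nonneg _)
    have := hb z
    unfold tvM at this
    linarith
  rw [← sum_mul] at h3
  unfold tvM
  linarith

theorem tvM_pow (hP : Sto P π) {a : ℝ} (ha : ∀ z, tvM P π z ≤ a) {k : ℕ} (hk : 1 ≤ k) (x : S) :
    2 * tvM (P ^ k) π x ≤ (2 * a) ^ k := by
  have ha0 : 0 ≤ a := (tvM_nonneg P π x).trans (ha x)
  induction k, hk using Nat.le_induction with
  | base => rw [pow_one, pow_one]; linarith [ha x]
  | succ k _ ih =>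
    rw [pow_succ, pow_succ]
    exact (tvM_mul (hP.pow k) hP ha x).trans (mul_le_mul_of_nonneg_right ih (by linarith))

theorem tvM_pow_anti (hP : Sto P π) {j k : ℕ} (hjk : j ≤ k) (x : S) :
    tvM (P ^ k) π x ≤ tvM (P ^ j) π x := by
  obtain ⟨m, rfl⟩ := Nat.exists_eq_add_of_le hjk
  rw [pow_add]
  exact tvM_mul_right (hP.pow m) x

/-! ### The discrete mixing time -/

theorem kmix_le_of {ε : ℝ} {k : ℕ} (hk : ∀ x, tvM (P ^ k) π x ≤ ε) : kmix P π ε ≤ k :=
  Nat.sInf_le hk

theorem tvM_le_of_kmix_le (hP : Sto P π) {ε : ℝ} (hne : ∃ j : ℕ, ∀ x, tvM (P ^ j) π x ≤ ε)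
    {k : ℕ} (hk : kmix P π ε ≤ k) (x : S) : tvM (P ^ k) π x ≤ ε :=
  (tvM_pow_anti hP hk x).trans (Nat.sInf_mem (s := {k : ℕ | ∀ x, tvM (P ^ k) π x ≤ ε}) hne x)

theorem tvM_boost (hP : Sto P π) {ε δ : ℝ} {k : ℕ} (hk : 1 ≤ k) (hδ : (2 * δ) ^ k ≤ 2 * ε)
    {j : ℕ} (hj : ∀ x, tvM (P ^ j) π x ≤ δ) (x : S) : tvM (P ^ (k * j)) π x ≤ ε := by
  have := tvM_pow (hP.pow j) hj hk x
  rw [← pow_mul, mul_comm j k] at this
  linarith

theorem kmix_boost (hP : Sto P π) {ε δ : ℝ} {k : ℕ} (hk : 1 ≤ k) (hδ : (2 * δ) ^ k ≤ 2 * ε)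
    (hne : ∃ j : ℕ, ∀ x, tvM (P ^ j) π x ≤ δ) : kmix P π ε ≤ k * kmix P π δ :=
  kmix_le_of (tvM_boost hP hk hδ (tvM_le_of_kmix_le hP hne le_rfl))

theorem kmix_mono (hP : Sto P π) {ε δ : ℝ} (hδ : δ ≤ ε)
    (hne : ∃ j : ℕ, ∀ x, tvM (P ^ j) π x ≤ δ) : kmix P π ε ≤ kmix P π δ :=
  kmix_le_of fun x => (tvM_le_of_kmix_le hP hne le_rfl x).trans hδ

/-! ### The mixing time in continuous time -/

theorem tv_nonneg (L : Matrix S S ℝ) (π : S → ℝ) (t : ℝ) (x : S) : 0 ≤ tv L π t x :=
  tvM_nonneg _ _ _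

theorem Rev.tv_le_one (h : Rev L π) {t : ℝ} (ht : 0 ≤ t) (x : S) : tv L π t x ≤ 1 :=
  (h.ker_sto ht).tvM_le_one x

theorem Rev.tv_anti (h : Rev L π) {s t : ℝ} (hst : s ≤ t) (x : S) : tv L π t x ≤ tv L π s x := by
  unfold tv
  rw [show t = s + (t - s) by ring, ker_add]
  exact tvM_mul_right (h.ker_sto (by linarith)) x

theorem tv_continuous (L : Matrix S S ℝ) (π : S → ℝ) (x : S) :
    Continuous fun t => tv L π t x := by
  unfold tv tvM
  refine continuous_const.mul (continuous_finsetSum _ fun y _ => Continuous.abs ?_)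
  exact (continuous_iff_continuousAt.2 fun t => (ker_deriv L t x y).continuousAt).sub
    continuous_const

theorem tmix_nonneg (L : Matrix S S ℝ) (π : S → ℝ) (ε : ℝ) : 0 ≤ tmix L π ε :=
  Real.sInf_nonneg fun _ h => h.1

theorem tmix_le_of {ε T : ℝ} (hT : 0 ≤ T) (h : ∀ x, tv L π T x ≤ ε) : tmix L π ε ≤ T :=
  csInf_le ⟨0, fun _ h => h.1⟩ ⟨hT, h⟩

/-- The infimum in the mixing time is attained. -/
theorem tv_tmix {ε : ℝ} (hne : ∃ T, 0 ≤ T ∧ ∀ x, tv L π T x ≤ ε) (x : S) :
    tv L π (tmix L π ε) x ≤ ε := by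
  have hc : IsClosed {t : ℝ | 0 ≤ t ∧ ∀ x, tv L π t x ≤ ε} := by
    simp only [Set.ofPred_and, Set.ofPred_forall]
    exact isClosed_Ici.inter (isClosed_iInter fun x =>
      isClosed_le (tv_continuous L π x) continuous_const)
  exact (hc.csInf_mem hne ⟨0, fun _ h => h.1⟩).2 x

theorem Rev.tv_le_of_tmix_le (h : Rev L π) {ε t : ℝ} (hne : ∃ T, 0 ≤ T ∧ ∀ x, tv L π T x ≤ ε)
    (ht : tmix L π ε ≤ t) (x : S) : tv L π t x ≤ ε :=
  (h.tv_anti ht x).trans (tv_tmix hne x)

theorem Rev.tv_boost (h : Rev L π) {ε δ : ℝ} {k : ℕ} (hk : 1 ≤ k) (hδ : (2 * δ) ^ k ≤ 2 * ε)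
    {t : ℝ} (ht : 0 ≤ t) (hj : ∀ x, tv L π t x ≤ δ) (x : S) : tv L π (k * t) x ≤ ε := by
  have := tvM_pow (h.ker_sto ht) hj hk x
  rw [← ker_nat_mul] at this
  unfold tv
  linarith

/-- Mixing times at two levels below `1/2` are comparable. -/
theorem Rev.tmix_boost (h : Rev L π) {ε δ : ℝ} {k : ℕ} (hk : 1 ≤ k) (hδ : (2 * δ) ^ k ≤ 2 * ε)
    (hne : ∃ T, 0 ≤ T ∧ ∀ x, tv L π T x ≤ δ) : tmix L π ε ≤ k * tmix L π δ :=
  tmix_le_of (mul_nonneg k.cast_nonneg (tmix_nonneg _ _ _))
    (h.tv_boost hk hδ (tmix_nonneg _ _ _) (tv_tmix hne))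

theorem tmix_mono {ε δ : ℝ} (hδ : δ ≤ ε) (hne : ∃ T, 0 ≤ T ∧ ∀ x, tv L π T x ≤ δ) :
    tmix L π ε ≤ tmix L π δ :=
  tmix_le_of (tmix_nonneg _ _ _) fun x => (tv_tmix hne x).trans hδ

/-- For two levels in `(0, 1/2)` there is a number of rounds, which depends on them only. -/
theorem exists_rounds {ε δ : ℝ} (hε : 0 < ε) (hδ0 : 0 ≤ δ) (hδ : δ < 1 / 2) :
    ∃ k : ℕ, 1 ≤ k ∧ (2 * δ) ^ k ≤ 2 * ε := by
  obtain ⟨k, hk⟩ := exists_pow_lt_of_lt_one (show 0 < 2 * ε by linarith)
    (show 2 * δ < 1 by linarith)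
  exact ⟨k + 1, by omega, (pow_le_pow_of_le_one (by linarith) (by linarith) k.le_succ).trans hk.le⟩

end Vale.Agent.N150D
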