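import Vale.Agent.N150D.ChDef

/-!
Discrete time versus continuous time: the chain `P ^ k` and the semigroup of `c (P - 1)`.
-/

namespace Vale.Agent.N150D.Disc

open Finset

variable {S : Type*} [Fintype S] [DecidableEq S] {P Q : Matrix S S ℝ} {π : S → ℝ}

/-! ### Stochastic matrices -/

theorem sto_one (h : Sto P π) : Sto (1 : Matrix S S ℝ) π where
  nn := h.nn
  sum := h.sum
  nonneg x y := by
    rw [Matrix.one_apply]
    split_ifs <;> norm_num
  row x := by simp [Matrix.one_apply]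
  stat y := by simp [Matrix.one_apply]

omit [DecidableEq S] in
theorem sto_mul (h : Sto P π) (h' : Sto Q π) : Sto (P * Q) π where
  nn := h.nn
  sum := h.sum
  nonneg x y := by
    rw [Matrix.mul_apply]
    exact sum_nonneg fun z _ => mul_nonneg (h.nonneg x z) (h'.nonneg z y)
  row x := by
    simp only [Matrix.mul_apply]
    rw [sum_comm]
    simp only [← mul_sum, h'.row, mul_one, h.row]
  stat y := by
    simp only [Matrix.mul_apply, mul_sum]
    rw [sum_comm]
    simp only [← mul_assoc, ← sum_mul, h.stat, h'.stat]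

theorem sto_pow (h : Sto P π) (k : ℕ) : Sto (P ^ k) π := by
  induction k with
  | zero => simpa using sto_one h
  | succ k ih => simpa [pow_succ] using sto_mul ih h

omit [DecidableEq S] in
theorem l1_mul_le (h0 : ∀ x y, 0 ≤ Q x y) {r : ℝ} (h1 : ∀ x, ∑ y, Q x y = r) (v : S → ℝ) :
    ∑ y, |∑ z, v z * Q z y| ≤ r * ∑ z, |v z| := by
  calc ∑ y, |∑ z, v z * Q z y| ≤ ∑ y, ∑ z, |v z| * Q z y := by
        refine sum_le_sum fun y _ => (abs_sum_le_sum_abs _ _).trans (le_of_eq ?_)
        exact sum_congr rfl fun z _ => by rw [abs_mul, abs_of_nonneg (h0 z y)]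
    _ = r * ∑ z, |v z| := by
        rw [sum_comm, mul_sum]
        exact sum_congr rfl fun z _ => by rw [← mul_sum, h1, mul_comm]

omit [DecidableEq S] in
/-- One more stochastic step does not increase the distance to `π`. -/
theorem tvM_mul_le (A : Matrix S S ℝ) (h : Sto Q π) (x : S) : tvM (A * Q) π x ≤ tvM A π x := by
  have e : ∀ y, (A * Q) x y - π y = ∑ z, (A x z - π z) * Q z y := by
    intro y
    simp only [Matrix.mul_apply, sub_mul, sum_sub_distrib, h.stat]
  have := l1_mul_le h.nonneg h.row fun z => A x z - π z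
  simp only [tvM, e]
  linarith

theorem tvM_pow_anti (h : Sto P π) {k j : ℕ} (hkj : k ≤ j) (x : S) :
    tvM (P ^ j) π x ≤ tvM (P ^ k) π x := by
  obtain ⟨m, rfl⟩ := Nat.exists_eq_add_of_le hkj
  rw [pow_add]
  exact tvM_mul_le _ (sto_pow h m) x

omit [DecidableEq S] in
theorem tvM_le_one (h : Sto P π) (x : S) : tvM P π x ≤ 1 := by
  have : ∑ y, |P x y - π y| ≤ ∑ y, (P x y + π y) :=
    sum_le_sum fun y _ => (abs_sub _ _).trans
      (by rw [abs_of_nonneg (h.nonneg x y), abs_of_nonneg (h.nn y)])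
  rw [sum_add_distrib, h.row, h.sum] at this
  simp only [tvM]
  linarith

omit [DecidableEq S] in
theorem tvM_nonneg (A : Matrix S S ℝ) (π : S → ℝ) (x : S) : 0 ≤ tvM A π x :=
  mul_nonneg (by norm_num) (sum_nonneg fun _ _ => abs_nonneg _)

omit [DecidableEq S] in
theorem tvM_le_add (A B : Matrix S S ℝ) (π : S → ℝ) (x : S) :
    tvM A π x ≤ tvM B π x + (1 / 2) * ∑ y, |A x y - B x y| := by
  have : ∑ y, |A x y - π y| ≤ ∑ y, (|B x y - π y| + |A x y - B x y|) :=
    sum_le_sum fun y _ => by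
      have := abs_add_le (B x y - π y) (A x y - B x y)
      rwa [show B x y - π y + (A x y - B x y) = A x y - π y by ring] at this
  rw [sum_add_distrib] at this
  simp only [tvM]
  linarith

/-! ### Binomial weights and lazy chains -/

theorem bin_sum (m : ℕ) (r : ℝ) :
    ∑ j ∈ range (m + 1), (m.choose j : ℝ) * r ^ j * (1 - r) ^ (m - j) = 1 := by
  have := congrArg (Polynomial.eval r) (bernsteinPolynomial.sum ℝ m)
  simpa [Polynomial.eval_finsetSum, bernsteinPolynomial] using this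

theorem bin_var (m : ℕ) (r : ℝ) :
    ∑ j ∈ range (m + 1), ((m : ℝ) * r - j) ^ 2 * ((m.choose j : ℝ) * r ^ j * (1 - r) ^ (m - j)) =
      m * r * (1 - r) := by
  have := congrArg (Polynomial.eval r) (bernsteinPolynomial.variance ℝ m)
  simpa [Polynomial.eval_finsetSum, bernsteinPolynomial] using this

theorem bin_abs (m : ℕ) {r : ℝ} (h0 : 0 ≤ r) (h1 : r ≤ 1) :
    ∑ j ∈ range (m + 1), |(m : ℝ) * r - j| * ((m.choose j : ℝ) * r ^ j * (1 - r) ^ (m - j)) ≤
      √(m * (1 - r)) := by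
  have h2 : 0 ≤ 1 - r := by linarith
  set w : ℕ → ℝ := fun j => (m.choose j : ℝ) * r ^ j * (1 - r) ^ (m - j) with hw
  have hw0 : ∀ j, 0 ≤ w j := fun j => by positivity
  refine Real.le_sqrt_of_sq_le ?_
  have h3 := sum_mul_sq_le_sq_mul_sq (range (m + 1)) (fun j => |(m : ℝ) * r - j| * √(w j))
    fun j => √(w j)
  simp only [mul_assoc, Real.mul_self_sqrt (hw0 _), mul_pow, sq_abs, Real.sq_sqrt (hw0 _)] at h3
  have h4 := bin_sum m r
  have h5 := bin_var m r
  have h6 : (m : ℝ) * r * (1 - r) ≤ m * (1 - r) := by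
    have : (m : ℝ) * (1 - r) * r ≤ m * (1 - r) * 1 :=
      mul_le_mul_of_nonneg_left h1 (by positivity)
    linarith
  change ∑ j ∈ range (m + 1), w j = 1 at h4
  change ∑ j ∈ range (m + 1), ((m : ℝ) * r - j) ^ 2 * w j = _ at h5
  change (∑ j ∈ range (m + 1), |(m : ℝ) * r - j| * w j) ^ 2 ≤ _
  rw [h4, h5, mul_one] at h3
  exact h3.trans h6

theorem pow_expand (R : Matrix S S ℝ) (δ : ℝ) (k : ℕ) (x y : S) :
    ((R + δ • (1 : Matrix S S ℝ)) ^ k) x y =
      ∑ j ∈ range (k + 1), (k.choose j : ℝ) * δ ^ (k - j) * (R ^ j) x y := by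
  rw [((Commute.one_right R).smul_right δ).add_pow, Matrix.sum_apply]
  refine sum_congr rfl fun j _ => ?_
  rw [smul_pow, one_pow, mul_smul_comm, mul_one, ← nsmul_eq_mul', Matrix.smul_apply,
    Matrix.smul_apply, nsmul_eq_mul, smul_eq_mul]
  ring

theorem pow_rows {R : Matrix S S ℝ} (h0 : ∀ x y, 0 ≤ R x y) {r : ℝ} (h1 : ∀ x, ∑ y, R x y = r)
    (j : ℕ) : (∀ x y, 0 ≤ (R ^ j) x y) ∧ ∀ x, ∑ y, (R ^ j) x y = r ^ j := by
  induction j with
  | zero =>
    refine ⟨fun x y => ?_, fun x => by simp [Matrix.one_apply]⟩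
    rw [pow_zero, Matrix.one_apply]
    split_ifs <;> norm_num
  | succ j ih =>
    refine ⟨fun x y => ?_, fun x => ?_⟩
    · rw [pow_succ, Matrix.mul_apply]
      exact sum_nonneg fun z _ => mul_nonneg (ih.1 x z) (h0 z y)
    · simp only [pow_succ, Matrix.mul_apply]
      rw [sum_comm]
      simp only [← mul_sum, h1, ← sum_mul, ih.2]

/-- Two consecutive laws of a lazy chain are close. -/
theorem step_le (h : Sto P π) {δ : ℝ} (hδ : 0 < δ) (hl : ∀ x, δ ≤ P x x) (k : ℕ) (x : S) :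
    ∑ y, |(P ^ k) x y - (P ^ (k + 1)) x y| ≤ 1 / √(δ * (k + 1)) := by
  set R : Matrix S S ℝ := P - δ • (1 : Matrix S S ℝ) with hR
  have hP : P = R + δ • (1 : Matrix S S ℝ) := by simp [hR]
  have h0 : ∀ x y, 0 ≤ R x y := by
    intro x y
    rw [hR, Matrix.sub_apply, Matrix.smul_apply, Matrix.one_apply, smul_eq_mul]
    split_ifs with hxy
    · subst hxy
      linarith [hl x]
    · linarith [h.nonneg x y]
  have h1 : ∀ x, ∑ y, R x y = 1 - δ := by
    intro x
    simp [hR, Matrix.one_apply, h.row]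
  have hr : 0 ≤ 1 - δ := (h1 x) ▸ sum_nonneg fun y _ => h0 x y
  have hk : (0 : ℝ) < k + 1 := by positivity
  set a : ℕ → ℝ := fun j => (((k + 1 : ℕ) : ℝ) * (1 - δ) - j) / (δ * (k + 1)) *
    (((k + 1).choose j : ℝ) * δ ^ (k + 1 - j)) with ha
  have e : ∀ y, (P ^ k) x y - (P ^ (k + 1)) x y = ∑ j ∈ range (k + 1 + 1), a j * (R ^ j) x y := by
    intro y
    rw [hP, pow_expand, pow_expand]
    have e1 : ∑ j ∈ range (k + 1), (k.choose j : ℝ) * δ ^ (k - j) * (R ^ j) x y =
        ∑ j ∈ range (k + 1 + 1), (k.choose j : ℝ) * δ ^ (k - j) * (R ^ j) x y := by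
      rw [sum_range_succ _ (k + 1)]
      simp
    rw [e1, ← sum_sub_distrib]
    refine sum_congr rfl fun j hj => ?_
    rw [← sub_mul]
    congr 1
    have hj' : j ≤ k + 1 := Nat.lt_succ_iff.1 (mem_range.1 hj)
    have c1 : ((k.choose j : ℝ)) * (k + 1) = ((k + 1).choose j : ℝ) * ((k : ℝ) + 1 - j) := by
      have := Nat.choose_mul_succ_eq k j
      have h2 := congrArg (Nat.cast : ℕ → ℝ) this
      push_cast [Nat.cast_sub hj'] at h2
      exact h2
    rcases eq_or_lt_of_le hj' with rfl | hlt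
    · simp only [ha, Nat.choose_succ_self, Nat.choose_self, Nat.sub_self]
      push_cast
      field_simp
      ring
    · have e2 : k + 1 - j = (k - j) + 1 := by omega
      simp only [ha, e2, pow_succ]
      have c2 : (k.choose j : ℝ) = ((k + 1).choose j : ℝ) * ((k : ℝ) + 1 - j) / (k + 1) := by
        rw [← c1]
        field_simp
      rw [c2]
      push_cast
      field_simp
      ring
  have h2 : ∑ y, |(P ^ k) x y - (P ^ (k + 1)) x y| ≤
      ∑ j ∈ range (k + 1 + 1), |a j| * (1 - δ) ^ j := by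
    simp only [e]
    calc ∑ y, |∑ j ∈ range (k + 1 + 1), a j * (R ^ j) x y|
        ≤ ∑ y, ∑ j ∈ range (k + 1 + 1), |a j| * (R ^ j) x y := by
          refine sum_le_sum fun y _ => (abs_sum_le_sum_abs _ _).trans (le_of_eq ?_)
          exact sum_congr rfl fun j _ => by
            rw [abs_mul, abs_of_nonneg ((pow_rows h0 h1 j).1 x y)]
      _ = _ := by
          rw [sum_comm]
          exact sum_congr rfl fun j _ => by rw [← mul_sum, (pow_rows h0 h1 j).2]
  have h3 := bin_abs (k + 1) hr (by linarith : 1 - δ ≤ 1)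
  rw [sub_sub_cancel] at h3
  have hD : 0 < δ * (k + 1) := by positivity
  have h4 : ∑ j ∈ range (k + 1 + 1), |a j| * (1 - δ) ^ j =
      (∑ j ∈ range (k + 1 + 1), |((k + 1 : ℕ) : ℝ) * (1 - δ) - j| *
        (((k + 1).choose j : ℝ) * (1 - δ) ^ j * δ ^ (k + 1 - j))) / (δ * (k + 1)) := by
    rw [sum_div]
    refine sum_congr rfl fun j _ => ?_
    simp only [ha]
    rw [abs_mul, abs_div, abs_of_pos hD,
      abs_of_nonneg (show 0 ≤ ((k + 1).choose j : ℝ) * δ ^ (k + 1 - j) by positivity)]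
    ring
  rw [h4] at h2
  refine h2.trans ((div_le_div_of_nonneg_right h3 hD.le).trans (le_of_eq ?_))
  push_cast
  rw [mul_comm ((k : ℝ) + 1) δ, div_eq_div_iff hD.ne' (Real.sqrt_pos.2 hD).ne',
    Real.mul_self_sqrt hD.le, one_mul]

theorem steps_le (h : Sto P π) {δ : ℝ} (hδ : 0 < δ) (hl : ∀ x, δ ≤ P x x) (k a d : ℕ) (x : S) :
    ∑ y, |(P ^ (k + a)) x y - (P ^ (k + a + d)) x y| ≤ d / √(δ * (k + 1)) := by
  induction d with
  | zero => simp
  | succ d ih =>
    have h1 := step_le h hδ hl (k + a + d) x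
    have h2 : 1 / √(δ * ((k + a + d : ℕ) + 1)) ≤ 1 / √(δ * (k + 1)) := by
      refine one_div_le_one_div_of_le (Real.sqrt_pos.2 (by positivity)) (Real.sqrt_le_sqrt ?_)
      refine mul_le_mul_of_nonneg_left ?_ hδ.le
      push_cast
      have : (0 : ℝ) ≤ a := a.cast_nonneg
      have : (0 : ℝ) ≤ d := d.cast_nonneg
      linarith
    have h3 : ∑ y, |(P ^ (k + a)) x y - (P ^ (k + a + (d + 1))) x y| ≤
        ∑ y, (|(P ^ (k + a)) x y - (P ^ (k + a + d)) x y| +
          |(P ^ (k + a + d)) x y - (P ^ (k + a + d + 1)) x y|) :=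
      sum_le_sum fun y _ => abs_sub_le _ _ _
    rw [sum_add_distrib] at h3
    push_cast
    rw [add_div]
    linarith

theorem steps_abs (h : Sto P π) {δ : ℝ} (hδ : 0 < δ) (hl : ∀ x, δ ≤ P x x) (k a b : ℕ) (x : S) :
    ∑ y, |(P ^ (k + a)) x y - (P ^ (k + b)) x y| ≤ |(b : ℝ) - a| / √(δ * (k + 1)) := by
  rcases le_total a b with hab | hab
  · obtain ⟨d, rfl⟩ := Nat.exists_eq_add_of_le hab
    have := steps_le h hδ hl k a d x
    rw [← add_assoc]
    push_cast
    rwa [add_sub_cancel_left, Nat.abs_cast]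
  · obtain ⟨d, rfl⟩ := Nat.exists_eq_add_of_le hab
    have := steps_le h hδ hl k b d x
    rw [← add_assoc]
    push_cast
    rw [abs_sub_comm, add_sub_cancel_left, Nat.abs_cast]
    simpa only [abs_sub_comm] using this

/-! ### Poisson weights -/

/-- The Poisson weights. -/
noncomputable def poi (s : ℝ) (j : ℕ) : ℝ := Real.exp (-s) * (s ^ j / j.factorial)

theorem poi_nonneg {s : ℝ} (hs : 0 ≤ s) (j : ℕ) : 0 ≤ poi s j := by
  unfold poi
  positivity

theorem poi_sum (s : ℝ) : HasSum (poi s) 1 := by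
  have h : HasSum (fun j : ℕ => s ^ j / j.factorial) (Real.exp s) :=
    Real.exp_eq_exp_ℝ ▸ NormedSpace.expSeries_div_hasSum_exp s
  have := h.mul_left (Real.exp (-s))
  rwa [← Real.exp_add, neg_add_cancel, Real.exp_zero] at this

theorem poi_succ (s : ℝ) (j : ℕ) : poi s (j + 1) * ((j : ℝ) + 1) = s * poi s j := by
  unfold poi
  rw [Nat.factorial_succ]
  push_cast
  field_simp
  ring

theorem poi_mean (s : ℝ) : HasSum (fun j : ℕ => poi s j * j) s := by
  rw [← hasSum_nat_add_iff' 1]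
  simp only [sum_range_one, Nat.cast_zero, mul_zero, sub_zero, Nat.cast_add, Nat.cast_one,
    poi_succ]
  simpa using (poi_sum s).mul_left s

theorem poi_sq (s : ℝ) : HasSum (fun j : ℕ => poi s j * (j : ℝ) ^ 2) (s * (s + 1)) := by
  rw [← hasSum_nat_add_iff' 1]
  have e : ∀ j : ℕ, poi s (j + 1) * ((j + 1 : ℕ) : ℝ) ^ 2 = s * (poi s j * j + poi s j) := by
    intro j
    push_cast
    rw [sq, ← mul_assoc, poi_succ]
    ring
  simp only [e, sum_range_one, Nat.cast_zero]
  simpa using ((poi_mean s).add (poi_sum s)).mul_left s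

theorem poi_var (s m : ℝ) :
    HasSum (fun j : ℕ => poi s j * ((j : ℝ) - m) ^ 2) (s + (s - m) ^ 2) := by
  have := ((poi_sq s).sub ((poi_mean s).mul_left (2 * m))).add ((poi_sum s).mul_left (m ^ 2))
  rw [show s * (s + 1) - 2 * m * s + m ^ 2 * 1 = s + (s - m) ^ 2 by ring] at this
  refine (congrArg (HasSum · _) (funext fun j => ?_)).mp this
  ring

theorem exp_hasSum (A : Matrix S S ℝ) :
    HasSum (fun n : ℕ => ((n.factorial : ℝ)⁻¹) • A ^ n) (NormedSpace.exp A) :=
  open scoped Matrix.Norms.Operator in NormedSpace.exp_series_hasSum_exp' A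

theorem exp_scalar (r : ℝ) :
    NormedSpace.exp (r • (1 : Matrix S S ℝ)) = Real.exp r • (1 : Matrix S S ℝ) := by
  rw [Matrix.smul_one_eq_diagonal, Matrix.smul_one_eq_diagonal, Matrix.exp_diagonal]
  congr 1
  funext x
  rw [Pi.exp_def, Real.exp_eq_exp_ℝ]

/-- The semigroup of `c (P - 1)` is the Poisson mixture of the powers of `P`. -/
theorem hasSum_ker (P : Matrix S S ℝ) (c t : ℝ) (x y : S) :
    HasSum (fun j : ℕ => poi (t * c) j * (P ^ j) x y) (ker (c • (P - 1)) t x y) := by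
  have h1 : t • c • (P - 1) = (t * c) • P + (-(t * c)) • (1 : Matrix S S ℝ) := by
    rw [smul_smul, smul_sub, neg_smul, sub_eq_add_neg]
  have h2 : ker (c • (P - 1)) t = Real.exp (-(t * c)) • NormedSpace.exp ((t * c) • P) := by
    rw [ker, h1, Matrix.exp_add_of_commute _ _ ((Commute.one_right _).smul_right _),
      exp_scalar, mul_smul_comm, mul_one]
  have h3 := (Pi.hasSum.1 (Pi.hasSum.1 (exp_hasSum ((t * c) • P)) x) y).mul_left
    (Real.exp (-(t * c)))
  rw [h2, Matrix.smul_apply, smul_eq_mul]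
  refine (congrArg (HasSum · _) (funext fun j => ?_)).mp h3
  simp only [smul_pow, Matrix.smul_apply, smul_eq_mul, poi]
  ring

omit [DecidableEq S] in
theorem l1_le_of_hasSum {u : ℕ → S → ℝ} {v : S → ℝ} (hu : ∀ y, HasSum (fun j => u j y) (v y))
    {b : ℕ → ℝ} {B : ℝ} (hb : HasSum b B) (h : ∀ j, ∑ y, |u j y| ≤ b j) : ∑ y, |v y| ≤ B := by
  set σ : S → ℝ := fun y => if 0 ≤ v y then 1 else -1 with hσ
  have e : ∑ y, |v y| = ∑ y, σ y * v y := by
    refine sum_congr rfl fun y _ => ?_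
    simp only [hσ]
    split_ifs with hy
    · rw [abs_of_nonneg hy, one_mul]
    · rw [abs_of_neg (not_le.1 hy), neg_one_mul]
  rw [e]
  refine hasSum_le (fun j => le_trans (sum_le_sum fun y _ => ?_) (h j))
    (hasSum_sum fun y _ => (hu y).mul_left (σ y)) hb
  simp only [hσ]
  split_ifs
  · rw [one_mul]
    exact le_abs_self _
  · rw [neg_one_mul]
    exact neg_le_abs _

/-! ### The two comparisons -/

/-- Continuous time is at least as good as discrete time. -/
theorem cont_le_disc (h : Sto P π) {c t : ℝ} {k : ℕ} (hk : (k : ℝ) < t * c) (x : S) :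
    tv (c • (P - 1)) π t x ≤ tvM (P ^ k) π x + t * c / (t * c - k) ^ 2 := by
  set s := t * c with hs
  have hs0 : 0 ≤ s := k.cast_nonneg.trans hk.le
  have hD : 0 < (s - k) ^ 2 := pow_pos (by linarith) 2
  have h1 := l1_le_of_hasSum (u := fun j y => poi s j * ((P ^ j) x y - π y))
    (v := fun y => ker (c • (P - 1)) t x y - π y)
    (fun y => by
      have := (hasSum_ker P c t x y).sub ((poi_sum s).mul_right (π y))
      simpa only [mul_sub, one_mul] using this)
    (((poi_sum s).mul_left (2 * tvM (P ^ k) π x)).add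
      ((poi_var s s).mul_left (2 / (s - k) ^ 2))) fun j => by
      have a0 := poi_nonneg hs0 j
      have a1 : ∑ y, |poi s j * ((P ^ j) x y - π y)| = poi s j * (2 * tvM (P ^ j) π x) := by
        simp only [abs_mul, abs_of_nonneg a0, ← mul_sum, tvM]
        ring
      have a2 : 2 * tvM (P ^ j) π x ≤
          2 * tvM (P ^ k) π x + 2 / (s - k) ^ 2 * ((j : ℝ) - s) ^ 2 := by
        rcases le_total k j with hj | hj
        · have := tvM_pow_anti h hj x
          have : 0 ≤ 2 / (s - k) ^ 2 * ((j : ℝ) - s) ^ 2 := by positivity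
          linarith
        · have b1 := tvM_le_one (sto_pow h j) x
          have b2 := tvM_nonneg (P ^ k) π x
          have b3 : (j : ℝ) ≤ k := by exact_mod_cast hj
          have b4 : (s - k) ^ 2 ≤ ((j : ℝ) - s) ^ 2 := by nlinarith
          have b5 : 2 ≤ 2 / (s - k) ^ 2 * ((j : ℝ) - s) ^ 2 := by
            rw [div_mul_eq_mul_div, le_div_iff₀ hD]
            linarith
          linarith
      rw [a1]
      refine (mul_le_mul_of_nonneg_left a2 a0).trans (le_of_eq ?_)
      ring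
  have e : 2 / (s - k) ^ 2 * (s + (s - s) ^ 2) = 2 * (s / (s - k) ^ 2) := by ring
  rw [e] at h1
  simp only [tv, tvM] at h1 ⊢
  linarith

/-- A lazy discrete chain is as good as the continuous time chain, up to a constant factor. -/
theorem disc_le_cont (h : Sto P π) {δ : ℝ} (hδ : 0 < δ) (hl : ∀ x, δ ≤ P x x) {c t : ℝ}
    (hs0 : 0 ≤ t * c) (k m : ℕ) {r : ℝ} (hr : 0 < r) (hV : t * c + (t * c - m) ^ 2 ≤ r ^ 2)
    (x : S) :
    tvM (P ^ (k + m)) π x ≤ tv (c • (P - 1)) π t x + r / (2 * √(δ * (k + 1))) := by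
  set s := t * c with hs
  set D := √(δ * (k + 1)) with hD
  have hD0 : 0 < D := Real.sqrt_pos.2 (by positivity)
  have h1 := l1_le_of_hasSum
    (u := fun j y => poi s j * ((P ^ (k + m)) x y - (P ^ (k + j)) x y))
    (v := fun y => (P ^ (k + m)) x y - (ker (c • (P - 1)) t * P ^ k : Matrix S S ℝ) x y)
    (fun y => by
      have b1 := hasSum_sum (s := univ) fun z _ => (hasSum_ker P c t x z).mul_right ((P ^ k) z y)
      have b2 := ((poi_sum s).mul_right ((P ^ (k + m)) x y)).sub b1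
      rw [one_mul, ← Matrix.mul_apply] at b2
      refine (congrArg (HasSum · _) (funext fun j => ?_)).mp b2
      rw [add_comm k j, pow_add P j k, Matrix.mul_apply, mul_sub, mul_sum]
      simp only [mul_assoc, hs])
    (((poi_var s m).mul_left (1 / (2 * r * D))).add ((poi_sum s).mul_left (r / (2 * D))))
    fun j => by
      have a0 := poi_nonneg hs0 j
      have a1 := steps_abs h hδ hl k m j x
      have a2 : |(j : ℝ) - m| / D ≤ 1 / (2 * r * D) * ((j : ℝ) - m) ^ 2 + r / (2 * D) := by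
        have b1 : 0 ≤ (|(j : ℝ) - m| - r) ^ 2 := sq_nonneg _
        have b2 : 1 / (2 * r * D) * ((j : ℝ) - m) ^ 2 + r / (2 * D) - |(j : ℝ) - m| / D =
            (|(j : ℝ) - m| - r) ^ 2 / (2 * r * D) := by
          rw [← sq_abs ((j : ℝ) - m)]
          field_simp
          ring
        have b3 : 0 ≤ (|(j : ℝ) - m| - r) ^ 2 / (2 * r * D) := by positivity
        linarith
      simp only [abs_mul, abs_of_nonneg a0, ← mul_sum]
      refine (mul_le_mul_of_nonneg_left (a1.trans a2) a0).trans (le_of_eq ?_)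
      ring
  have h2 : 1 / (2 * r * D) * (s + (s - m) ^ 2) + r / (2 * D) * 1 ≤ r / D := by
    have b1 := mul_le_mul_of_nonneg_left hV (show 0 ≤ 1 / (2 * r * D) by positivity)
    have b2 : 1 / (2 * r * D) * r ^ 2 + r / (2 * D) * 1 = r / D := by
      field_simp
      ring
    linarith
  have h3 := tvM_le_add (P ^ (k + m)) (ker (c • (P - 1)) t * P ^ k) π x
  have h4 := tvM_mul_le (ker (c • (P - 1)) t) (sto_pow h k) x
  have h5 : r / (2 * D) = 1 / 2 * (r / D) := by ring
  rw [tv, h5]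
  linarith

/-- After `(c t + 1) (2 + 1 / (4 η² δ))` steps the lazy chain is `η`-close to the time `t`. -/
theorem disc_le_of (h : Sto P π) {δ : ℝ} (hδ : 0 < δ) (hl : ∀ x, δ ≤ P x x) {c t η : ℝ}
    (hs0 : 0 ≤ t * c) (hη : 0 < η) {k : ℕ}
    (hk : (t * c + 1) * (2 + 1 / (4 * η ^ 2 * δ)) ≤ k) (x : S) :
    tvM (P ^ k) π x ≤ tv (c • (P - 1)) π t x + η := by
  set s := t * c with hs
  set m := ⌈s⌉₊ with hm
  have m1 : s ≤ m := Nat.le_ceil s
  have m2 : (m : ℝ) < s + 1 := Nat.ceil_lt_add_one hs0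
  have hA : 0 < 1 / (4 * η ^ 2 * δ) := by positivity
  have h1 : (m : ℝ) + (s + 1) * (1 / (4 * η ^ 2 * δ)) ≤ k := by nlinarith
  have h2 : m ≤ k := by
    have : 0 ≤ (s + 1) * (1 / (4 * η ^ 2 * δ)) := by positivity
    have : (m : ℝ) ≤ k := by linarith
    exact_mod_cast this
  obtain ⟨j, rfl⟩ := Nat.exists_eq_add_of_le' h2
  have h3 := disc_le_cont h hδ hl hs0 j m (r := √(s + 1)) (Real.sqrt_pos.2 (by linarith))
    (by rw [Real.sq_sqrt (by linarith)]; nlinarith) x
  refine h3.trans (add_le_add le_rfl ?_)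
  have hD : 0 < √(δ * (j + 1)) := Real.sqrt_pos.2 (by positivity)
  rw [div_le_iff₀ (by positivity), Real.sqrt_le_iff]
  refine ⟨by positivity, ?_⟩
  rw [mul_pow, mul_pow, Real.sq_sqrt (by positivity)]
  push_cast at h1
  have h4 : (s + 1) * (1 / (4 * η ^ 2 * δ)) ≤ j + 1 := by linarith
  rw [mul_one_div, div_le_iff₀ (by positivity)] at h4
  linarith

/-- Upper bound for the discrete mixing time from the distance at one time `t`. -/
theorem kmix_le (h : Sto P π) {δ : ℝ} (hδ : 0 < δ) (hl : ∀ x, δ ≤ P x x) {c t a η : ℝ}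
    (hs0 : 0 ≤ t * c) (hη : 0 < η) (ht : ∀ x, tv (c • (P - 1)) π t x ≤ a) :
    (∀ x, tvM (P ^ kmix P π (a + η)) π x ≤ a + η) ∧
      (kmix P π (a + η) : ℝ) ≤ (t * c + 1) * (3 + 1 / (4 * η ^ 2 * δ)) := by
  set T := (t * c + 1) * (2 + 1 / (4 * η ^ 2 * δ)) with hT
  have hT0 : 0 ≤ T := by positivity
  have h1 : ⌈T⌉₊ ∈ {k : ℕ | ∀ x, tvM (P ^ k) π x ≤ a + η} := fun x =>
    (disc_le_of h hδ hl hs0 hη (Nat.le_ceil T) x).trans (add_le_add (ht x) le_rfl)
  refine ⟨Nat.sInf_mem ⟨_, h1⟩, ?_⟩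
  have h2 : (kmix P π (a + η) : ℝ) ≤ ⌈T⌉₊ := by exact_mod_cast Nat.sInf_le h1
  have h3 := Nat.ceil_lt_add_one hT0
  nlinarith

/-- The distance in continuous time after `2 k + 4 / η` attempts. -/
theorem cont_le_of (h : Sto P π) {c t η : ℝ} (hη : 0 < η) {k : ℕ}
    (hk : 2 * k + 4 / η ≤ t * c) (x : S) : tv (c • (P - 1)) π t x ≤ tvM (P ^ k) π x + η := by
  have h0 : (0 : ℝ) ≤ k := k.cast_nonneg
  have h1 : 0 < 4 / η := by positivity
  have h2 : (k : ℝ) < t * c := by linarith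
  refine (cont_le_disc h h2 x).trans (add_le_add le_rfl ?_)
  rw [div_le_iff₀ (pow_pos (by linarith) 2)]
  have h3 : 4 ≤ t * c * η := by
    have : 4 / η ≤ t * c := by linarith
    rwa [div_le_iff₀ hη] at this
  have h4 : (t * c / 2) ^ 2 ≤ (t * c - k) ^ 2 := pow_le_pow_left₀ (by linarith) (by linarith) 2
  have h5 := mul_le_mul_of_nonneg_left h4 hη.le
  nlinarith

/-- Upper bound for the continuous mixing time from the discrete chain. -/
theorem tmix_le (h : Sto P π) {c a η : ℝ} (hc : 0 < c) (hη : 0 < η) {k : ℕ}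
    (hk : ∀ x, tvM (P ^ k) π x ≤ a) : c * tmix (c • (P - 1)) π (a + η) ≤ 2 * k + 4 / η := by
  rw [← le_div_iff₀' hc]
  refine csInf_le ⟨0, fun _ ht => ht.1⟩ ⟨by positivity, fun x => ?_⟩
  exact (cont_le_of h hη (by rw [div_mul_cancel₀ _ hc.ne']) x).trans (add_le_add (hk x) le_rfl)

end Vale.Agent.N150D.Disc
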