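import Vale.Agent.N150D.Chain
import Vale.Agent.N150D.Disc

/-!
The mixing times of a lazy chain `P` and of the semigroup of `c (P - 1)` are comparable.
-/

namespace Vale.Agent.N150D.Disc

open Finset

universe u

/-- The rate matrix `c (P - 1)` of a reversible stochastic matrix. -/
theorem rev_of_sto {S : Type*} [Fintype S] [DecidableEq S] {P : Matrix S S ℝ} {π : S → ℝ}
    (h : Sto P π) (hπ : ∀ x, 0 < π x) (hr : ∀ x y, π x * P x y = π y * P y x) {c : ℝ}
    (hc : 0 ≤ c) : Rev (c • (P - 1)) π where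
  pos := hπ
  sum := h.sum
  off x y hxy := by
    rw [Matrix.smul_apply, Matrix.sub_apply, Matrix.one_apply_ne hxy, sub_zero, smul_eq_mul]
    exact mul_nonneg hc (h.nonneg x y)
  row x := by
    simp [← mul_sum, Matrix.one_apply, h.row]
  rev x y := by
    by_cases hxy : x = y
    · rw [hxy]
    · simp only [Matrix.smul_apply, Matrix.sub_apply, Matrix.one_apply_ne hxy,
        Matrix.one_apply_ne (Ne.symm hxy), sub_zero, smul_eq_mul]
      linear_combination c * hr x y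

/-- The lower bound of the discrete mixing time needs no laziness. -/
theorem lower {ε : ℝ} (hε : 0 ≤ ε) (hε' : ε < 1 / 2) :
    ∃ C : ℝ, 0 < C ∧ ∀ (S : Type u) [Fintype S] [DecidableEq S] (P : Matrix S S ℝ) (π : S → ℝ)
      (c : ℝ), 0 < c → Sto P π → Rev (c • (P - 1)) π → ∀ k : ℕ, (∀ x, tvM (P ^ k) π x ≤ ε) →
      c * tmix (c • (P - 1)) π (1 / 4) ≤ C * (k + 1) := by
  set η := (1 / 2 - ε) / 2 with hη
  have hη0 : 0 < η := by linarith
  obtain ⟨r, hr1, hr⟩ := exists_rounds (ε := 1 / 4) (δ := ε + η) (by norm_num) (by linarith)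
    (by linarith)
  have hr0 : (0 : ℝ) < r := by exact_mod_cast hr1
  refine ⟨r * (2 + 4 / η), by positivity, fun S _ _ P π c hc h hL k hk => ?_⟩
  have h1 := tmix_le h hc hη0 hk
  have h2 := hL.tmix_boost hr1 hr ⟨(2 * k + 4 / η) / c, by positivity, fun x =>
    (cont_le_of h hη0 (by rw [div_mul_cancel₀ _ hc.ne']) x).trans (add_le_add (hk x) le_rfl)⟩
  have h3 := mul_le_mul_of_nonneg_left h2 hc.le
  have h4 := mul_le_mul_of_nonneg_left h1 hr0.le
  have h5 : 2 * (k : ℝ) + 4 / η ≤ (2 + 4 / η) * (k + 1) := by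
    have : 0 ≤ 4 / η * k := by positivity
    linarith
  have h6 := mul_le_mul_of_nonneg_left h5 hr0.le
  nlinarith

/-- The upper bound of the discrete mixing time of a lazy chain, from one time `T`. -/
theorem upper {ε δ : ℝ} (hε : 0 < ε) (hδ : 0 < δ) :
    ∃ C : ℝ, 0 < C ∧ ∀ (S : Type u) [Fintype S] [DecidableEq S] (P : Matrix S S ℝ) (π : S → ℝ)
      (c : ℝ), 0 < c → Sto P π → Rev (c • (P - 1)) π → (∀ x, δ ≤ P x x) → ∀ T : ℝ, 0 ≤ T →
      (∀ x, tv (c • (P - 1)) π T x ≤ 1 / 4) →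
      (∀ x, tvM (P ^ kmix P π ε) π x ≤ ε) ∧ (kmix P π ε : ℝ) ≤ C * (c * T + 1) := by
  obtain ⟨r, hr1, hr⟩ := exists_rounds (ε := ε / 2) (δ := 1 / 4) (by linarith) (by norm_num)
    (by norm_num)
  have hr0 : (1 : ℝ) ≤ r := by exact_mod_cast hr1
  refine ⟨r * (3 + 1 / (4 * (ε / 2) ^ 2 * δ)), by positivity,
    fun S _ _ P π c hc h hL hl T hT ht => ?_⟩
  have h1 := kmix_le h hδ hl (c := c) (t := r * T) (η := ε / 2) (by positivity) (by linarith)
    (hL.tv_boost hr1 hr hT ht)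
  rw [add_halves] at h1
  refine ⟨h1.1, h1.2.trans ?_⟩
  have h2 : r * T * c + 1 ≤ r * (c * T + 1) := by linarith
  have h3 := mul_le_mul_of_nonneg_right h2
    (show 0 ≤ 3 + 1 / (4 * (ε / 2) ^ 2 * δ) by positivity)
  linarith

/-- Both comparisons: at every level `ε < 1/2` the number of steps of a `δ`-lazy chain is
comparable with `c` times the mixing time of the semigroup at the level `1/4`. -/
theorem two_sided {ε δ : ℝ} (hε : 0 < ε) (hε' : ε < 1 / 2) (hδ : 0 < δ) :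
    ∃ C : ℝ, 0 < C ∧ ∀ (S : Type u) [Fintype S] [DecidableEq S] (P : Matrix S S ℝ) (π : S → ℝ)
      (c : ℝ), 0 < c → Sto P π → Rev (c • (P - 1)) π → (∀ x, δ ≤ P x x) →
      (∃ T, 0 ≤ T ∧ ∀ x, tv (c • (P - 1)) π T x ≤ 1 / 4) →
      (∀ k, kmix P π ε ≤ k → ∀ x, tvM (P ^ k) π x ≤ ε) ∧
      c * tmix (c • (P - 1)) π (1 / 4) ≤ C * (kmix P π ε + 1) ∧
      (kmix P π ε : ℝ) ≤ C * (c * tmix (c • (P - 1)) π (1 / 4) + 1) := by
  obtain ⟨A, hA, h1⟩ := lower.{u} hε.le hε'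
  obtain ⟨B, hB, h2⟩ := upper.{u} hε hδ
  refine ⟨A + B, by positivity, fun S _ _ P π c hc h hL hl hne => ?_⟩
  have h0 := tmix_nonneg (c • (P - 1)) π (1 / 4)
  have h3 := h2 S P π c hc h hL hl _ h0 (tv_tmix hne)
  have h4 := h1 S P π c hc h hL _ h3.1
  have h5 : 0 ≤ B * ((kmix P π ε : ℝ) + 1) := by positivity
  have h6 : 0 ≤ A * (c * tmix (c • (P - 1)) π (1 / 4) + 1) := by positivity
  exact ⟨fun k hk x => tvM_le_of_kmix_le h ⟨_, h3.1⟩ hk x, by linarith, by linarith [h3.2]⟩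

end Vale.Agent.N150D.Disc
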