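import Vale.Agent.P150.Bdl.B11
import Vale.Agent.P150.Bdl.B13
import Vale.Agent.N150D.Disc2

/-!
The discrete heat-bath chain of the SK model is uniformly lazy with high probability.
-/

namespace Vale.Agent.N150D.Lazy

open Finset Filter Topology MeasureTheory Vale.Agent.P150

variable {n : ℕ}

/-- The transition matrix of one update attempt. -/
noncomputable def stepMat (J : Fin n → Fin n → ℝ) (b : Fin n → ℝ) : Matrix (Cfg n) (Cfg n) ℝ :=
  1 + (n : ℝ)⁻¹ • genMat J b

variable {J : Fin n → Fin n → ℝ} {b : Fin n → ℝ}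

theorem genMat_eq (hn : 0 < n) : genMat J b = (n : ℝ) • (stepMat J b - 1) := by
  have : (n : ℝ) ≠ 0 := by positivity
  rw [stepMat, add_sub_cancel_left, smul_smul, mul_inv_cancel₀ this, one_smul]

theorem stepMat_apply (hn : 0 < n) (x y : Cfg n) :
    stepMat J b x y = (∑ i, resample J b i (fun z => if z = y then 1 else 0) x) / n := by
  have : (n : ℝ) ≠ 0 := by positivity
  simp only [stepMat, Matrix.add_apply, Matrix.smul_apply, Matrix.one_apply, smul_eq_mul, genMat,
    gen, sum_sub_distrib, sum_const, card_univ, Fintype.card_fin, nsmul_eq_mul]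
  field_simp
  ring

theorem stepMat_mul (hn : 0 < n) (f : Cfg n → ℝ) (x : Cfg n) :
    ∑ y, stepMat J b x y * f y = (∑ i, resample J b i f x) / n := by
  have : (n : ℝ) ≠ 0 := by positivity
  simp only [stepMat, Matrix.add_apply, Matrix.smul_apply, Matrix.one_apply, smul_eq_mul, add_mul,
    sum_add_distrib, ite_mul, one_mul, zero_mul, sum_ite_eq, mem_univ, if_true, mul_assoc,
    ← mul_sum, Semi.genMat_mul, gen, sum_sub_distrib, sum_const, card_univ, Fintype.card_fin,
    nsmul_eq_mul]
  field_simp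
  ring

theorem stepMat_rev (hJ : ∀ i j, J i j = J j i) (x y : Cfg n) :
    gibbs J b x * stepMat J b x y = gibbs J b y * stepMat J b y x := by
  have h := Semi.detailed_balance b hJ x y
  by_cases hxy : x = y
  · rw [hxy]
  · simp only [stepMat, Matrix.add_apply, Matrix.smul_apply, Matrix.one_apply_ne hxy,
      Matrix.one_apply_ne (Ne.symm hxy), smul_eq_mul, zero_add]
    linear_combination (n : ℝ)⁻¹ * h

theorem stepMat_row (x : Cfg n) : ∑ y, stepMat J b x y = 1 := by
  have h := Semi.genMat_mul J b (fun _ => 1) x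
  simp only [mul_one, Semi.gen_const] at h
  simp [stepMat, Matrix.one_apply, sum_add_distrib, ← mul_sum, h]

theorem stepMat_sto (hJ : ∀ i j, J i j = J j i) (hn : 0 < n) : Sto (stepMat J b) (gibbs J b) where
  nn x := (gibbs_pos J b x).le
  sum := gibbs_sum J b
  nonneg x y := by
    rw [stepMat_apply hn]
    refine div_nonneg (sum_nonneg fun i _ => sum_nonneg fun s _ =>
      mul_nonneg (Semi.resample_weight_nonneg J b x i s) ?_) n.cast_nonneg
    dsimp only
    split_ifs <;> norm_num
  row := stepMat_row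
  stat y := by
    simp only [stepMat_rev hJ _ y, ← mul_sum, stepMat_row, mul_one]

theorem stepMat_revL (hJ : ∀ i j, J i j = J j i) (hn : 0 < n) :
    Rev ((n : ℝ) • (stepMat J b - 1)) (gibbs J b) :=
  Disc.rev_of_sto (stepMat_sto hJ hn) (gibbs_pos J b) (stepMat_rev hJ) n.cast_nonneg

theorem genMat_rev (hJ : ∀ i j, J i j = J j i) (hn : 0 < n) : Rev (genMat J b) (gibbs J b) := by
  rw [genMat_eq hn]
  exact stepMat_revL hJ hn

theorem weight_ge {u M : ℝ} (hM : 0 < M) :
    Real.exp (-(2 * M)) / 2 * (1 - u ^ 2 / M ^ 2) ≤ Real.exp u / (2 * Real.cosh u) := by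
  have hc := Real.cosh_pos u
  have ha : 0 < Real.exp (-(2 * M)) / 2 := by positivity
  rcases le_total |u| M with h | h
  · have h1 : 1 - u ^ 2 / M ^ 2 ≤ 1 := sub_le_self _ (by positivity)
    refine (mul_le_mul_of_nonneg_left h1 ha.le).trans ?_
    rw [mul_one, div_le_div_iff₀ (by norm_num) (by positivity), Real.cosh_eq]
    have h2 : Real.exp (-(2 * M)) * Real.exp u ≤ Real.exp u := by
      rw [← Real.exp_add]
      exact Real.exp_le_exp.2 (by linarith)
    have h3 : Real.exp (-(2 * M)) * Real.exp (-u) ≤ Real.exp u := by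
      rw [← Real.exp_add]
      exact Real.exp_le_exp.2 (by linarith [(abs_le.1 h).1])
    linarith
  · have h1 : M ^ 2 ≤ u ^ 2 := by
      rw [← sq_abs u]
      exact pow_le_pow_left₀ hM.le h 2
    have h2 : 1 - u ^ 2 / M ^ 2 ≤ 0 := by
      rw [sub_nonpos, one_le_div (by positivity)]
      exact h1
    exact (mul_nonpos_of_nonneg_of_nonpos ha.le h2).trans (by positivity)

theorem sp_sq (s : Bool) : sp s ^ 2 = 1 := by cases s <;> simp [sp]

theorem cosh_sp (s : Bool) (h : ℝ) : Real.cosh (sp s * h) = Real.cosh h := by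
  cases s <;> simp [sp]

/-- Bounded local fields in the mean square give a holding probability bounded from below. -/
theorem diag_ge (hn : 0 < n) {M : ℝ} (hM : 0 < M) (x : Cfg n)
    (hx : ∑ i, locField J b x i ^ 2 ≤ M ^ 2 / 2 * n) :
    Real.exp (-(2 * M)) / 4 ≤ stepMat J b x x := by
  have hn' : (0 : ℝ) < n := by positivity
  have h1 : ∀ i, Real.exp (-(2 * M)) / 2 * (1 - locField J b x i ^ 2 / M ^ 2) ≤
      resample J b i (fun z => if z = x then 1 else 0) x := by
    intro i
    have a1 := weight_ge (u := sp (x i) * locField J b x i) hM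
    rw [mul_pow, sp_sq, one_mul, cosh_sp] at a1
    refine a1.trans (le_trans (le_of_eq ?_) (single_le_sum (s := univ) (f := fun s : Bool =>
      Real.exp (sp s * locField J b x i) / (2 * Real.cosh (locField J b x i)) *
        (if Function.update x i s = x then 1 else 0)) (fun s _ => ?_) (mem_univ (x i))))
    · simp
    · refine mul_nonneg (Semi.resample_weight_nonneg J b x i s) ?_
      split_ifs <;> norm_num
  have h2 := sum_le_sum (s := univ) fun i _ => h1 i
  rw [← mul_sum, sum_sub_distrib, ← sum_div, sum_const, card_univ, Fintype.card_fin, nsmul_eq_mul,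
    mul_one] at h2
  rw [stepMat_apply hn, le_div_iff₀ hn']
  refine le_trans ?_ h2
  have h3 : (∑ i, locField J b x i ^ 2) / M ^ 2 ≤ n / 2 := by
    rw [div_le_iff₀ (by positivity)]
    linarith
  have h4 := mul_le_mul_of_nonneg_left h3 (show 0 ≤ Real.exp (-(2 * M)) / 2 by positivity)
  linarith

theorem locField_eq (β : ℝ) (g : Pairs n → ℝ) (x : Cfg n) (i : Fin n) :
    locField (skJ β g) (fun _ => 0) x i = β * (F.skM g).mulVec (fun j => sp (x j)) i := by
  simp only [locField, zero_add, Matrix.mulVec, dotProduct, mul_sum]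
  refine sum_congr rfl fun j _ => ?_
  split_ifs with h
  · subst h
    simp [F.skM, gsym]
  · simp only [skJ, F.skM]
    ring

theorem fields_le (β : ℝ) {g : Pairs n → ℝ} {C : ℝ} (hg : F.OpLe (F.skM g) C) (x : Cfg n) :
    ∑ i, locField (skJ β g) (fun _ => 0) x i ^ 2 ≤ β ^ 2 * C ^ 2 * n := by
  have h := hg fun j => sp (x j)
  simp only [F.sq, sp_sq, sum_const, card_univ, Fintype.card_fin, nsmul_eq_mul, mul_one] at h
  simp only [locField_eq, mul_pow, ← mul_sum, mul_assoc]
  exact mul_le_mul_of_nonneg_left h (sq_nonneg β)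

theorem whp_opLe : WHP (fun _ => {g | F.OpLe (F.skM g) 3}) := by
  obtain ⟨a, ha, N, hN⟩ := F.opLe_exp (δ := 1) one_pos
  have h1 : Tendsto (fun n : ℕ => Real.exp (-(a * n))) atTop (𝓝 0) :=
    Real.tendsto_exp_neg_atTop_nhds_zero.comp (tendsto_natCast_atTop_atTop.const_mul_atTop ha)
  have h2 := ENNReal.tendsto_ofReal h1
  rw [ENNReal.ofReal_zero] at h2
  refine tendsto_of_tendsto_of_tendsto_of_le_of_le' tendsto_const_nhds h2
    (Eventually.of_forall fun _ => zero_le) ?_
  filter_upwards [eventually_ge_atTop N] with n hn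
  have h3 := hN n hn
  rw [show (2 : ℝ) + 1 = 3 by norm_num] at h3
  have : IsProbabilityMeasure (disorder n) := by
    unfold disorder
    infer_instance
  exact (ENNReal.le_ofReal_iff_toReal_le (measure_ne_top _ _) (Real.exp_pos _).le).2 h3

/-- The discrete chain is uniformly lazy, simultaneously for all `|β| ≤ B`. -/
theorem whp_lazy_all (B : ℝ) : ∃ δ : ℝ, 0 < δ ∧ WHP (fun n => {g | ∀ β : ℝ, |β| ≤ B → ∀ x,
    δ ≤ stepMat (skJ β g) (fun _ : Fin n => 0) x x}) := by
  refine ⟨Real.exp (-(2 * (5 * |B| + 1))) / 4, by positivity, ?_⟩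
  refine tendsto_of_tendsto_of_tendsto_of_le_of_le' tendsto_const_nhds whp_opLe
    (Eventually.of_forall fun _ => zero_le) ?_
  filter_upwards [eventually_gt_atTop 0] with n hn
  refine measure_mono (Set.compl_subset_compl.2 fun g hg β hβ x => ?_)
  refine diag_ge hn (by positivity) x ((fields_le β hg x).trans ?_)
  refine mul_le_mul_of_nonneg_right ?_ n.cast_nonneg
  have h1 : β ^ 2 ≤ |B| ^ 2 := by
    rw [← sq_abs β]
    exact pow_le_pow_left₀ (abs_nonneg _) (hβ.trans (le_abs_self B)) 2
  nlinarith [abs_nonneg B]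

theorem whp_lazy (β : ℝ) : ∃ δ : ℝ, 0 < δ ∧ WHP (fun n => {g | ∀ x,
    δ ≤ stepMat (skJ β g) (fun _ : Fin n => 0) x x}) := by
  obtain ⟨δ, hδ, h⟩ := whp_lazy_all |β|
  refine ⟨δ, hδ, tendsto_of_tendsto_of_tendsto_of_le_of_le' tendsto_const_nhds h
    (Eventually.of_forall fun _ => zero_le) (Eventually.of_forall fun n => ?_)⟩
  exact measure_mono (Set.compl_subset_compl.2 fun g hg => hg β le_rfl)

end Vale.Agent.N150D.Lazy
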