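import Vale.Agent.N150D.Zero
import Vale.Agent.N150D.Lazy
import Vale.Agent.N150D.EntSK

/-!
The three regimes for all the dynamics in the class, from the facts on the heat-bath dynamics.
-/

namespace Vale.Agent.N150D

open Finset Filter Topology Real
open Vale.Agent.P150 (Cfg Pairs gibbs genMat skJ WHP sp locField energy)
open Vale.Agent.P150.MainThm (whp_mono whp_inter)

theorem floor_of {n : ℕ} {β : ℝ} {g : Pairs n → ℝ} (hg : P150.F.OpLe (P150.F.skM g) 3)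
    (x : Cfg n) : exp (-((5 * β ^ 2 + 2) * n)) ≤ mu β g x := by
  set M : ℝ := (1 + 9 * β ^ 2) / 4 * n with hM
  have h1 : ∀ y : Cfg n, |energy (skJ β g) (fun _ => 0) y| ≤ M := by
    intro y
    have e : energy (skJ β g) (fun _ => 0) y =
        1 / 2 * ∑ i, sp (y i) * locField (skJ β g) (fun _ => 0) y i := by
      rw [P150.energy_eq (skJ_symm β g)]
      simp only [P150.locField_eq, zero_mul, sum_const_zero, add_zero, zero_add, mul_sum]
      exact sum_congr rfl fun i _ => sum_congr rfl fun j _ => by ring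
    have h2 := Lazy.fields_le β hg y
    have h3 : ∀ s : ℝ, s ^ 2 = 1 → ∑ i, s * (sp (y i) * locField (skJ β g) (fun _ => 0) y i) ≤
        ∑ i, (1 + locField (skJ β g) (fun _ => 0) y i ^ 2) / 2 := by
      intro s hs
      refine sum_le_sum fun i _ => ?_
      have h4 := Lazy.sp_sq (y i)
      have h5 : (s * sp (y i)) ^ 2 = 1 := by rw [mul_pow, hs, h4, mul_one]
      nlinarith [sq_nonneg (s * sp (y i) - locField (skJ β g) (fun _ => 0) y i)]
    have h6 := h3 1 (by norm_num)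
    have h7 := h3 (-1) (by norm_num)
    rw [← mul_sum, ← sum_div, sum_add_distrib, sum_const, card_univ, Fintype.card_fin,
      nsmul_eq_mul] at h6 h7
    rw [e, abs_le]
    constructor <;> nlinarith
  have h2 : ∑ y : Cfg n, exp (energy (skJ β g) (fun _ => 0) y) ≤ exp (n + M) := by
    refine (sum_le_sum (g := fun _ => exp M) fun y _ =>
      exp_le_exp.2 (le_of_abs_le (h1 y))).trans ?_
    rw [sum_const, card_univ, nsmul_eq_mul, exp_add]
    refine mul_le_mul_of_nonneg_right ?_ (exp_pos _).le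
    have h3 : (2 : ℝ) ^ n ≤ exp 1 ^ n :=
      pow_le_pow_left₀ (by norm_num) (by linarith [add_one_le_exp 1]) n
    rw [← exp_nat_mul, mul_one] at h3
    simpa using h3
  have h3 : 0 < ∑ y : Cfg n, exp (energy (skJ β g) (fun _ => 0) y) :=
    sum_pos (fun _ _ => exp_pos _) univ_nonempty
  rw [mu, gibbs, le_div_iff₀ h3]
  refine (mul_le_mul_of_nonneg_left h2 (exp_pos _).le).trans ?_
  rw [← exp_add, exp_le_exp]
  have h4 := neg_le_of_abs_le (h1 x)
  have h5 : (0 : ℝ) ≤ n := n.cast_nonneg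
  nlinarith [mul_nonneg (sq_nonneg β) h5]

theorem whp_floor (β : ℝ) :
    WHP fun n => {g | ∀ x, exp (-((5 * β ^ 2 + 2) * n)) ≤ mu β g x} :=
  whp_mono Lazy.whp_opLe (Eventually.of_forall fun _ _ hg => floor_of hg)

theorem step_one_heat {n : ℕ} (β : ℝ) (g : Pairs n → ℝ) :
    step 1 (heat β g) = Lazy.stepMat (skJ β g) fun _ => 0 := by
  rw [step, one_mul]
  rfl

theorem sand_arith {K C A B l m N r r0 T t k : ℝ} (hK : 1 ≤ K) (hC : 0 < C) (hN : 1 ≤ N)
    (hl : 0 ≤ l) (hm : 0 ≤ m) (hB : 0 ≤ B) (hA : A = 2 + 2 * C + m + l + B) (r_pos : 0 ≤ r)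
    (r0_pos : 0 ≤ r0) (T0 : 0 ≤ T) (t0 : 0 ≤ t) (k0 : 0 ≤ k) (a1 : r0 ≤ K * r) (a2 : r ≤ K * r0)
    (a3 : r ≤ 2 * T) (a4 : r ≤ l * t) (a5 : t ≤ m * T) (a6 : T ≤ B * N * r)
    (a7 : K * N * T ≤ C * (N * k + 1)) (a8 : N * k ≤ C * (K * N * T + 1)) :
    T ≤ K * A * N * r0 ∧ ∀ u ∈ [r, t, k], r0 ≤ K * A * (u + 1) ∧ u ≤ K * A * (T + 1) := by
  have N0 : 0 < N := by linarith
  have a9 : T ≤ C * (k + 1) := by
    refine le_of_mul_le_mul_left ?_ N0
    nlinarith [mul_nonneg (sub_nonneg.2 hK) (mul_nonneg N0.le T0),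
      mul_nonneg hC.le (sub_nonneg.2 hN)]
  have a10 : k ≤ K * C * (T + 1) := by
    refine le_of_mul_le_mul_left ?_ N0
    have b1 : 1 ≤ K * N := one_le_mul_of_one_le_of_one_le hK hN
    nlinarith [mul_nonneg hC.le (sub_nonneg.2 b1)]
  have K0 : 0 ≤ K := by linarith
  have key : ∀ {a E v : ℝ}, 0 ≤ v → E ≤ A → a ≤ K * (E * v) → a ≤ K * A * v := by
    intro a E v hv hE ha
    rw [mul_assoc]
    exact ha.trans (mul_le_mul_of_nonneg_left (mul_le_mul_of_nonneg_right hE hv) K0)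
  have up : ∀ {a v : ℝ}, 0 ≤ v → a ≤ v → a ≤ K * v := fun hv ha =>
    ha.trans (le_mul_of_one_le_left hv hK)
  refine ⟨?_, ?_⟩
  · rw [mul_assoc]
    refine key (E := B) (by positivity) (by linarith) (a6.trans ?_)
    have := mul_le_mul_of_nonneg_left a2 (show 0 ≤ B * N by positivity)
    linarith
  · simp only [List.mem_cons, List.not_mem_nil, or_false, forall_eq_or_imp, forall_eq]
    refine ⟨⟨key (E := 1) (by positivity) (by linarith) (a1.trans ?_),
        key (E := 2) (by positivity) (by linarith) (up (by positivity) (by linarith))⟩,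
      ⟨key (E := l) (by positivity) (by linarith) (a1.trans ?_),
        key (E := m) (by positivity) (by linarith) (up (by positivity) (by linarith))⟩,
      key (E := 2 * C) (by positivity) (by linarith) (a1.trans ?_),
        key (E := C) (by positivity) (by linarith) (by linarith)⟩
    · exact mul_le_mul_of_nonneg_left (by linarith) K0
    · exact mul_le_mul_of_nonneg_left (by linarith) K0
    · exact mul_le_mul_of_nonneg_left (by linarith) K0

/-- The three times of a dynamics in the class lie between the relaxation time of the heat-bath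
dynamics and the mixing time at the level `1/4`, up to a constant. -/
theorem sandwich (K β : ℝ) {ε : ℝ} (hε : 0 < ε) (hε' : ε < 1 / 2) :
    ∃ D : ℝ, 1 ≤ D ∧ WHP fun n => {g | ∀ L, Like K β g L →
      tmix L (mu β g) (1 / 4) ≤ D * n * (gap (heat β g) (mu β g))⁻¹ ∧
      ∀ u ∈ [(gap L (mu β g))⁻¹, tmix L (mu β g) ε, kmix (step K L) (mu β g) ε / n],
        (gap (heat β g) (mu β g))⁻¹ ≤ D * (u + 1) ∧ u ≤ D * (tmix L (mu β g) (1 / 4) + 1)} := by
  obtain ⟨δ, hδ, hl⟩ := Lazy.whp_lazy β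
  obtain ⟨C, hC, hd⟩ := Disc.two_sided.{0} hε hε' hδ
  obtain ⟨m, hm1, hm⟩ := exists_rounds (δ := 1 / 4) hε (by norm_num) (by norm_num)
  have hl0 : 0 < log (1 / (2 * ε)) := log_pos (by rw [lt_div_iff₀ (by positivity)]; linarith)
  have hA0 : 0 ≤ (log (1 / (2 * ε)))⁻¹ := (inv_pos.2 hl0).le
  have hm0 : (0 : ℝ) ≤ m := m.cast_nonneg
  have hb := sq_nonneg β
  refine ⟨max K 1 * (2 + 2 * C + m + (log (1 / (2 * ε)))⁻¹ + (5 * β ^ 2 + 2)),
    one_le_mul_of_one_le_of_one_le (le_max_right _ _) (by linarith), ?_⟩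
  refine whp_mono (whp_inter hl (whp_floor β)) ?_
  filter_upwards [eventually_gt_atTop 0] with n hn
  rintro g ⟨g1, g2⟩ L h
  have := nontrivial_cfg hn
  have hK := h.one_le hn
  rw [max_eq_left hK]
  have hn1 : (1 : ℝ) ≤ n := by exact_mod_cast hn
  have hg := h.gap_pos hn
  have hg0 := gap_heat_pos hn β g
  obtain ⟨c1, c2⟩ := h.gap_le hn
  have hlog2 : log (1 / (2 * (1 / 4 : ℝ))) = log 2 := by norm_num
  have e := h.eq_smul hn
  obtain ⟨-, a7, a8⟩ := hd _ (step K L) (mu β g) (K * n) (h.mul_pos hn) (h.sto hn) (e ▸ h.1)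
    (fun x => (step_one_heat β g ▸ g1 x).trans (h.diag hn x))
    (e ▸ h.mixes hn (show (0 : ℝ) < 1 / 4 by norm_num))
  rw [← e] at a7 a8
  have ek : (kmix (step K L) (mu β g) ε : ℝ) = n * (kmix (step K L) (mu β g) ε / n) := by
    field_simp
  rw [ek] at a7 a8
  refine sand_arith hK hC hn1 hA0 hm0 (by positivity) rfl (inv_pos.2 hg).le (inv_pos.2 hg0).le
    (tmix_nonneg _ _ _) (tmix_nonneg _ _ _) (by positivity) ?_ ?_ ?_ ?_
    (h.1.tmix_boost hm1 hm (h.mixes hn (by norm_num))) ?_ a7 a8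
  · rw [← div_eq_mul_inv, le_div_iff₀ hg, inv_mul_le_iff₀ hg0, mul_comm]; exact c1
  · rw [← div_eq_mul_inv, le_div_iff₀ hg0, inv_mul_le_iff₀ hg, mul_comm]; exact c2
  · have b1 := h.1.le_tmix hg (show (0 : ℝ) < 1 / 4 by norm_num)
    rw [hlog2, ← inv_mul_le_iff₀ hg] at b1
    have b2 := mul_le_mul_of_nonneg_left (show (1 / 2 : ℝ) ≤ log 2 by linarith [log_two_gt_d9])
      (inv_pos.2 hg).le
    linarith
  · have b1 := h.1.le_tmix hg hε
    rw [← inv_mul_le_iff₀ hg] at b1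
    rw [le_inv_mul_iff₀ hl0, mul_comm]
    exact b1
  · have b1 := h.1.tmix_le_gap hg le_rfl (show (0 : ℝ) < 1 / 4 by norm_num) (by norm_num)
      (by positivity) g2
    rw [hlog2, div_eq_mul_inv] at b1
    refine b1.trans (mul_le_mul_of_nonneg_right ?_ (inv_pos.2 hg).le)
    linarith [log_two_lt_d9, mul_nonneg hb (show (0 : ℝ) ≤ n by linarith)]

theorem ev_exp (D : ℝ) {a : ℝ} (ha : 0 < a) : ∀ᶠ n : ℕ in atTop, D * (D * n + 1) ≤ exp (a * n) := by
  have h1 : Tendsto (fun n : ℕ => exp (a * n) / (a * n) ^ 1) atTop atTop :=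
    (tendsto_exp_div_pow_atTop 1).comp (tendsto_natCast_atTop_atTop.const_mul_atTop ha)
  filter_upwards [h1.eventually_ge_atTop ((D ^ 2 + |D|) / a), eventually_ge_atTop 1] with n hn h2
  have hn1 : (1 : ℝ) ≤ n := by exact_mod_cast h2
  rw [pow_one, le_div_iff₀ (by positivity), ← mul_assoc, div_mul_cancel₀ _ ha.ne'] at hn
  nlinarith [le_abs_self D, mul_nonneg (abs_nonneg D) (sub_nonneg.2 hn1)]

/-- Low temperature. -/
theorem unif_cold (K : ℝ) {β ε a : ℝ} (hε : 0 < ε) (hε' : ε < 1 / 2) (ha : 0 ≤ a)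
    (h : ∃ c : ℝ, 0 < c ∧ ∀ η : ℝ, 0 < η → WHP fun n => {g |
      exp (-((a + η) * n)) ≤ P150.gap (skJ β g) (fun _ => 0) ∧
      P150.gap (skJ β g) (fun _ => 0) ≤ exp (-(c * n))}) :
    ∃ c : ℝ, 0 < c ∧ ∀ η : ℝ, 0 < η → Unif K β ε fun n r t k => ∀ u ∈ [r, t, k],
      u ∈ Set.Icc (exp (c * n)) (exp ((a + η) * n)) := by
  obtain ⟨c, hc, h⟩ := h
  obtain ⟨D, hD, hs⟩ := sandwich K β hε hε'
  refine ⟨c / 2, half_pos hc, fun η hη => whp_mono (whp_inter hs (h (η / 2) (half_pos hη))) ?_⟩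
  filter_upwards [ev_exp (2 * D) (half_pos hc), ev_exp D (half_pos hη), eventually_gt_atTop 0]
    with n e1 e2 hn
  rintro g ⟨g1, g2, g3⟩ L hL u hu
  obtain ⟨s1, s2⟩ := g1 L hL
  obtain ⟨s3, s4⟩ := s2 u hu
  have hg0 := gap_heat_pos hn β g
  rw [← gap_heat] at g2 g3
  have b1 := inv_anti₀ hg0 g3
  have b2 := inv_anti₀ (exp_pos _) g2
  rw [← exp_neg, neg_neg] at b1 b2
  have hn0 : (0 : ℝ) ≤ n := n.cast_nonneg
  have D0 : 0 < D := by linarith
  constructor
  · have b3 : exp (c * n) = exp (c / 2 * n) * exp (c / 2 * n) := by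
      rw [← exp_add]; congr 1; ring
    have b4 : 1 ≤ exp (c / 2 * n) := one_le_exp (by positivity)
    have b5 : 2 * D ≤ exp (c / 2 * n) :=
      le_trans (le_mul_of_one_le_right (by positivity) (by nlinarith)) e1
    have b6 : D * (2 * exp (c / 2 * n)) ≤ D * (u + 1) := by nlinarith
    linarith [le_of_mul_le_mul_left b6 D0]
  · have b3 : exp ((a + η) * n) = exp (η / 2 * n) * exp ((a + η / 2) * n) := by
      rw [← exp_add]; congr 1; ring
    have b4 : 1 ≤ exp ((a + η / 2) * n) := one_le_exp (by positivity)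
    have b5 := mul_le_mul_of_nonneg_left b2 (show 0 ≤ D * n by positivity)
    have b6 : u ≤ D * (D * n + 1) * exp ((a + η / 2) * n) := by
      rw [mul_assoc]
      exact s4.trans (mul_le_mul_of_nonneg_left (by linarith) D0.le)
    rw [b3]
    exact b6.trans (mul_le_mul_of_nonneg_right e2 (exp_pos _).le)

theorem ev_rpow (D : ℝ) {a : ℝ} (ha : 0 < a) : ∀ᶠ n : ℕ in atTop, D ≤ (n : ℝ) ^ a :=
  ((tendsto_rpow_atTop ha).comp tendsto_natCast_atTop_atTop).eventually_ge_atTop D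

theorem ev_log_four (D : ℝ) : ∀ᶠ n : ℕ in atTop, D * log n ^ 4 ≤ (n : ℝ) ^ (2 / 3 : ℝ) := by
  have h1 := (isLittleO_log_rpow_rpow_atTop (4 : ℝ) (show (0 : ℝ) < 2 / 3 by norm_num)).const_mul_left D
  filter_upwards [tendsto_natCast_atTop_atTop.eventually (h1.bound one_pos)] with n hn
  rw [one_mul, norm_of_nonneg (show (0 : ℝ) ≤ (n : ℝ) ^ (2 / 3 : ℝ) by positivity)] at hn
  refine le_trans (le_trans (le_of_eq ?_) (le_abs_self _)) hn
  rw [← rpow_natCast]
  norm_num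

/-- The critical temperature. -/
theorem unif_crit (K : ℝ) {ε : ℝ} (hε : 0 < ε) (hε' : ε < 1 / 2) (h1 : N150.LevW)
    (h2 : N150.LastW) (h : ∃ C : ℝ, 0 < C ∧ WHP fun n => {g |
      P150.gap (skJ 1 g) (fun _ => 0) ≤ C * log n ^ 4 * (n : ℝ) ^ (-(2 / 3 : ℝ))}) :
    ∃ C : ℝ, 0 < C ∧ ∀ η : ℝ, 0 < η → Unif K 1 ε fun n r t k => ∀ u ∈ [r, t, k],
      u ∈ Set.Icc ((n : ℝ) ^ (2 / 3 : ℝ) / (C * log n ^ 4)) ((n : ℝ) ^ (2 / 3 + η)) := by
  obtain ⟨C, hC, h⟩ := h
  obtain ⟨D, hD, hs⟩ := sandwich K 1 hε hε'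
  have D0 : 0 < D := by linarith
  refine ⟨2 * D * C, by positivity, fun η hη =>
    whp_mono (whp_inter hs (whp_inter h (Ent.univ_crit h1 h2 (half_pos hη)))) ?_⟩
  filter_upwards [ev_log_four (2 * D * C), ev_rpow (D * (K + 1)) (half_pos hη),
    eventually_gt_atTop 1] with n e1 e2 hn1
  rintro g ⟨g1, g2, g3⟩ L hL u hu
  have hn : 0 < n := by omega
  have hn' : (1 : ℝ) < n := by exact_mod_cast hn1
  have hn0 : (0 : ℝ) < n := by linarith
  obtain ⟨-, s2⟩ := g1 L hL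
  obtain ⟨s3, s4⟩ := s2 u hu
  have hg0 := gap_heat_pos hn 1 g
  have hK := hL.pos hn
  have hl : 0 < log n ^ 4 := pow_pos (log_pos hn') 4
  constructor
  · have b1 := inv_anti₀ hg0 ((gap_heat 1 g).trans_le g2)
    rw [rpow_neg hn0.le, mul_inv, inv_inv] at b1
    have b2 : 1 ≤ (n : ℝ) ^ (2 / 3 : ℝ) / (2 * D * C * log n ^ 4) := by
      rwa [le_div_iff₀ (by positivity), one_mul]
    have b3 : (C * log n ^ 4)⁻¹ * (n : ℝ) ^ (2 / 3 : ℝ) =
        D * (2 * ((n : ℝ) ^ (2 / 3 : ℝ) / (2 * D * C * log n ^ 4))) := by field_simp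
    rw [b3] at b1
    linarith [le_of_mul_le_mul_left (b1.trans s3) D0]
  · have b1 : tmix L (mu 1 g) (1 / 4) ≤ (n : ℝ) ^ (2 / 3 + η / 2) / K⁻¹ :=
      tmix_le_of (by positivity)
        (g3 L K⁻¹ (inv_pos.2 hK) hL.1 (hL.inv_mul_le hn) _ le_rfl)
    rw [div_inv_eq_mul] at b1
    have b3 : (n : ℝ) ^ (2 / 3 + η) = (n : ℝ) ^ (η / 2) * (n : ℝ) ^ (2 / 3 + η / 2) := by
      rw [← rpow_add hn0]; congr 1; ring
    have b4 : 1 ≤ (n : ℝ) ^ (2 / 3 + η / 2) := one_le_rpow hn'.le (by positivity)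
    have b6 : u ≤ D * (K + 1) * (n : ℝ) ^ (2 / 3 + η / 2) := by
      rw [mul_assoc]
      exact s4.trans (mul_le_mul_of_nonneg_left (by linarith) D0.le)
    rw [b3]
    exact b6.trans (mul_le_mul_of_nonneg_right e2 (by positivity))

/-- High temperature. -/
theorem unif_high (K : ℝ) {β ε C c : ℝ} (hε : 0 < ε) (hε' : ε < 1 / 2) (hC : 0 < C) (hc : 0 < c)
    (h1 : WHP fun n => {g | (∀ f : Cfg n → ℝ, (∀ x, 0 < f x) →
        P150.ex (skJ β g) (fun _ => 0) (fun x => f x * log (f x))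
          - P150.ex (skJ β g) (fun _ => 0) f * log (P150.ex (skJ β g) (fun _ => 0) f)
          ≤ C * P150.dir (skJ β g) (fun _ => 0) f (fun x => log (f x))) ∧
      ∀ x, -log (gibbs (skJ β g) (fun _ => 0) x) ≤ 4 * n})
    (h2 : WHP fun _ => {g | c ≤ P150.gap (skJ β g) (fun _ => 0) ∧
      P150.gap (skJ β g) (fun _ => 0) ≤ 1}) :
    ∃ c C : ℝ, 0 < c ∧ Unif K β ε fun n r t k =>
      r ∈ Set.Icc c C ∧ t ≤ C * log n ∧ k ≤ C * log n := by
  obtain ⟨D, hD, hs⟩ := sandwich K β hε hε'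
  have D0 : 0 < D := by linarith
  set K' := max K 1 with hK'
  have K0 : 0 < K' := lt_max_of_lt_right one_pos
  refine ⟨K'⁻¹, max (K' / c) (D * (2 * K' * C + 1)), inv_pos.2 K0,
    whp_mono (whp_inter hs (whp_inter h2 (Ent.univ_high hC h1))) ?_⟩
  filter_upwards [eventually_ge_atTop 32] with n hn1
  rintro g ⟨g1, ⟨g2, g3⟩, g4⟩ L hL
  have hn : 0 < n := by omega
  have hn' : (32 : ℝ) ≤ n := by exact_mod_cast hn1
  have hK := hL.pos hn
  have eK : K' = K := max_eq_left (hL.one_le hn)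
  rw [eK]
  rw [← gap_heat] at g2 g3
  obtain ⟨c1, c2⟩ := hL.gap_le hn
  have hg := hL.gap_pos hn
  have hl1 : 1 ≤ log n := by
    rw [le_log_iff_exp_le (by linarith)]
    linarith [exp_one_lt_d9]
  have b1 : tmix L (mu β g) (1 / 4) ≤ 2 * K * C * log n := by
    refine tmix_le_of (by positivity) fun x => ?_
    have d1 := (g4 L K⁻¹ (inv_pos.2 hK) hL.1 (hL.inv_mul_le hn)).2 (2 * K * C * log n)
      (by positivity) x
    have d2 : K⁻¹ * (2 * K * C * log n) / C = log ((n : ℝ) ^ 2) := by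
      rw [log_pow]; field_simp; norm_num
    rw [d2, exp_neg, exp_log (by positivity)] at d1
    have d3 : 2 * (n : ℝ) * ((n : ℝ) ^ 2)⁻¹ ≤ (1 / 4) ^ 2 := by
      rw [← div_eq_mul_inv, div_le_iff₀ (by positivity)]
      nlinarith
    exact (abs_le_of_sq_le_sq' (d1.trans d3) (by norm_num)).2
  have b2 : ∀ u : ℝ, u ≤ D * (tmix L (mu β g) (1 / 4) + 1) →
      u ≤ max (K / c) (D * (2 * K * C + 1)) * log n := by
    intro u hu
    refine hu.trans (le_trans ?_ (mul_le_mul_of_nonneg_right (le_max_right _ _) (by linarith)))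
    rw [mul_assoc]
    exact mul_le_mul_of_nonneg_left (by linarith) D0.le
  obtain ⟨-, s2⟩ := g1 L hL
  refine ⟨⟨inv_anti₀ hg (c1.trans (mul_le_of_le_one_right hK.le g3)), le_max_of_le_left ?_⟩,
    b2 _ (s2 _ (by simp)).2, b2 _ (s2 _ (by simp)).2⟩
  rw [le_div_iff₀ hc, inv_mul_le_iff₀ hg]
  linarith

end Vale.Agent.N150D
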