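import Vale.Agent.N150D.ChDef
import Vale.Agent.P150.Defs

/-!
Single-flip dynamics for the zero-field Sherrington-Kirkpatrick measure: definitions.
-/

namespace Vale.Agent.N150D

open Vale.Agent.P150 (Cfg Pairs gibbs genMat skJ WHP)

variable {n : ℕ}

/-- The Gibbs weights `μ`. -/
noncomputable def mu (β : ℝ) (g : Pairs n → ℝ) : Cfg n → ℝ := gibbs (skJ β g) fun _ => 0

/-- The matrix of the heat-bath generator `∑ i, (Q i - I)`. -/
noncomputable def heat (β : ℝ) (g : Pairs n → ℝ) : Matrix (Cfg n) (Cfg n) ℝ :=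
  genMat (skJ β g) fun _ => 0

/-- The configuration `x` with the spin `i` flipped. -/
def flip (x : Cfg n) (i : Fin n) : Cfg n := Function.update x i (!x i)

/-- The Metropolis generator: the spin `i` flips at the rate `min 1 (μ (flip x i) / μ x)`. -/
noncomputable def metro (β : ℝ) (g : Pairs n → ℝ) : Matrix (Cfg n) (Cfg n) ℝ := fun x y =>
  ∑ i, min 1 (mu β g (flip x i) / mu β g x) *
    ((if y = flip x i then 1 else 0) - if y = x then 1 else 0)

/-- `L` is a generator which is reversible for `μ` and whose jump rates are within the factor `K`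
of the heat-bath rates. -/
def Like (K β : ℝ) (g : Pairs n → ℝ) (L : Matrix (Cfg n) (Cfg n) ℝ) : Prop :=
  Rev L (mu β g) ∧ ∀ x y, x ≠ y → heat β g x y ≤ K * L x y ∧ L x y ≤ K * heat β g x y

/-- The transition matrix `I + L / (K n)` of one update attempt. -/
noncomputable def step (K : ℝ) (L : Matrix (Cfg n) (Cfg n) ℝ) : Matrix (Cfg n) (Cfg n) ℝ :=
  1 + (K * n)⁻¹ • L

/-- With probability tending to one, `P` holds for all `L` in the class `Like K β g`, applied to
`n`, `1 / gap`, the `ε`-mixing time, and the `ε`-mixing number of attempts divided by `n`. -/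
def Unif (K β ε : ℝ) (P : ℕ → ℝ → ℝ → ℝ → Prop) : Prop :=
  WHP fun n => {g | ∀ L, Like K β g L →
    P n (gap L (mu β g))⁻¹ (tmix L (mu β g) ε) (kmix (step K L) (mu β g) ε / n)}

end Vale.Agent.N150D
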