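import Vale.Agent.N150D.Lazy
import Vale.Agent.N150D.Spec

/-!
All levels of precision, and the discrete chain, in the three regimes of the SK model.
-/

namespace Vale.Agent.N150D.DiscSK

open Finset Filter Topology MeasureTheory Vale.Agent.P150 Lazy

variable {n : ℕ}

theorem whp_mono {A B : (n : ℕ) → Set (Pairs n → ℝ)} (hA : WHP A)
    (h : ∀ᶠ n in atTop, A n ⊆ B n) : WHP B := by
  refine tendsto_of_tendsto_of_tendsto_of_le_of_le' tendsto_const_nhds hA
    (Eventually.of_forall fun n => zero_le) ?_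
  filter_upwards [h] with n hn
  exact measure_mono (Set.compl_subset_compl.2 hn)

theorem whp_inter {A B : (n : ℕ) → Set (Pairs n → ℝ)} (hA : WHP A) (hB : WHP B) :
    WHP (fun n => A n ∩ B n) := by
  have h := Tendsto.add hA hB
  rw [add_zero] at h
  refine tendsto_of_tendsto_of_tendsto_of_le_of_le tendsto_const_nhds h (fun n => zero_le) ?_
  intro n
  simp only [Set.compl_inter]
  exact measure_union_le _ _

theorem skJ_symm (β : ℝ) (g : Pairs n → ℝ) (i j : Fin n) : skJ β g i j = skJ β g j i := by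
  have := F.skM_symm g i j
  simp only [F.skM] at this
  simp only [skJ, div_mul_eq_mul_div, mul_div_assoc, this]

theorem gap_eq (J : Fin n → Fin n → ℝ) (b : Fin n → ℝ) :
    gap (genMat J b) (gibbs J b) = P150.gap J b := by
  simp only [gap, P150.gap, dir, P150.dir, act, Semi.genMat_mul]
  rfl

theorem tmix_eq (J : Fin n → Fin n → ℝ) (b : Fin n → ℝ) :
    tmix (genMat J b) (gibbs J b) (1 / 4) = P150.tmix J b := rfl

/-- The `ε`-mixing time of the heat-bath dynamics in continuous time. -/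
noncomputable abbrev tm (β : ℝ) (g : Pairs n → ℝ) (ε : ℝ) : ℝ :=
  tmix (genMat (skJ β g) fun _ => 0) (gibbs (skJ β g) fun _ => 0) ε

/-- The `ε`-mixing time of the discrete chain, in update attempts. -/
noncomputable abbrev km (β : ℝ) (g : Pairs n → ℝ) (ε : ℝ) : ℕ :=
  kmix (stepMat (skJ β g) fun _ => 0) (gibbs (skJ β g) fun _ => 0) ε

/-- Both chains are `ε`-mixed from their mixing times on. -/
def Att (β : ℝ) (g : Pairs n → ℝ) (ε : ℝ) : Prop :=
  (∀ t, tm β g ε ≤ t → ∀ x,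
    tv (genMat (skJ β g) fun _ => 0) (gibbs (skJ β g) fun _ => 0) t x ≤ ε) ∧
  ∀ k, km β g ε ≤ k → ∀ x,
    tvM (stepMat (skJ β g) (fun _ => 0) ^ k) (gibbs (skJ β g) fun _ => 0) x ≤ ε

/-- The four comparisons with the mixing time at the level `1/4`. -/
theorem compare (β : ℝ) {ε : ℝ} (hε : 0 < ε) (hε' : ε < 1 / 2) :
    ∃ C : ℝ, 1 ≤ C ∧ WHP (fun n => {g | 0 < P150.gap (skJ β g) (fun _ => 0) → Att β g ε ∧
      tm β g ε ≤ C * P150.tmix (skJ β g) (fun _ => 0) ∧
      P150.tmix (skJ β g) (fun _ => 0) ≤ C * tm β g ε ∧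
      n * P150.tmix (skJ β g) (fun _ => 0) ≤ C * (km β g ε + 1) ∧
      (km β g ε : ℝ) ≤ C * (n * P150.tmix (skJ β g) (fun _ => 0) + 1)}) := by
  obtain ⟨δ, hδ, hl⟩ := whp_lazy β
  obtain ⟨A, hA, h1⟩ := Disc.two_sided.{0} hε hε' hδ
  obtain ⟨k, hk, h2⟩ := tmix_levels (ε := ε) (δ := 1 / 4) hε (by norm_num) (by norm_num)
  obtain ⟨m, hm, h3⟩ := tmix_levels (ε := 1 / 4) (δ := ε) (by norm_num) hε hε'
  have hk' : (1 : ℝ) ≤ k := by exact_mod_cast hk
  have hm' : (1 : ℝ) ≤ m := by exact_mod_cast hm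
  refine ⟨A + k + m, by linarith, whp_mono hl ?_⟩
  filter_upwards [eventually_gt_atTop 0] with n hn g hg hgap
  have hJ := skJ_symm β g
  have hL : Rev (genMat (skJ β g) fun _ => 0) (gibbs (skJ β g) fun _ => 0) := genMat_rev hJ hn
  rw [← gap_eq] at hgap
  have a1 := h1 _ _ _ n (by positivity) (stepMat_sto hJ hn) (stepMat_revL hJ hn) hg
    (by rw [← genMat_eq hn]; exact hL.mixes hgap (by norm_num))
  rw [← genMat_eq hn, tmix_eq] at a1
  have a2 := h2 _ _ _ hL hgap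
  have a3 := h3 _ _ _ hL hgap
  rw [tmix_eq] at a2 a3
  have b1 : 0 ≤ P150.tmix (skJ β g) (fun _ => 0) := tmix_eq (skJ β g) _ ▸ tmix_nonneg _ _ _
  have b2 : 0 ≤ tm β g ε := tmix_nonneg _ _ _
  refine ⟨⟨fun t ht x => hL.tv_le_of_tmix_le (hL.mixes hgap hε) ht x, a1.1⟩,
    a2.trans (mul_le_mul_of_nonneg_right (by linarith) b1),
    a3.trans (mul_le_mul_of_nonneg_right (by linarith) b2),
    a1.2.1.trans (mul_le_mul_of_nonneg_right (by linarith) (by positivity)),
    a1.2.2.trans (mul_le_mul_of_nonneg_right (by linarith) (by positivity))⟩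

/-- Two-sided bounds at the level `1/4` pass to every level and to the discrete chain. -/
theorem transfer (β : ℝ) {ε : ℝ} (hε : 0 < ε) (hε' : ε < 1 / 2) :
    ∃ C : ℝ, 1 ≤ C ∧ ∀ a b : ℕ → ℝ, (∀ᶠ n : ℕ in atTop, 2 * C ≤ n * a n) →
      WHP (fun n => {g | 0 < P150.gap (skJ β g) (fun _ => 0) ∧
        a n ≤ P150.tmix (skJ β g) (fun _ => 0) ∧ P150.tmix (skJ β g) (fun _ => 0) ≤ b n}) →
      WHP (fun n => {g | Att β g ε ∧ a n / C ≤ tm β g ε ∧ tm β g ε ≤ C * b n ∧
        n * a n / (2 * C) ≤ km β g ε ∧ (km β g ε : ℝ) ≤ 2 * C * (n * b n)}) := by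
  obtain ⟨C, hC, h⟩ := compare β hε hε'
  refine ⟨C, hC, fun a b ha hab => whp_mono (whp_inter h hab) ?_⟩
  filter_upwards [ha] with n hn g hg
  obtain ⟨h1, h2, h3, h4⟩ := hg
  obtain ⟨a0, a1, a2, a3, a4⟩ := h1 h2
  have hC0 : 0 < C := by linarith
  have hn0 : (0 : ℝ) ≤ n := n.cast_nonneg
  have b1 := mul_le_mul_of_nonneg_left h3 hn0
  have b2 := mul_le_mul_of_nonneg_left h4 hn0
  refine ⟨a0, ?_, a1.trans (mul_le_mul_of_nonneg_left h4 hC0.le), ?_, a4.trans ?_⟩
  · rw [div_le_iff₀' hC0]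
    exact h3.trans a2
  · rw [div_le_iff₀' (by positivity)]
    linarith
  · have : n * P150.tmix (skJ β g) (fun _ => 0) + 1 ≤ 2 * (n * b n) := by linarith
    have := mul_le_mul_of_nonneg_left this hC0.le
    linarith

theorem tendsto_log : Tendsto (fun n : ℕ => Real.log n) atTop atTop :=
  Real.tendsto_log_atTop.comp tendsto_natCast_atTop_atTop

/-- High temperature. -/
theorem high {β ε c C : ℝ} (hε : 0 < ε) (hε' : ε < 1 / 2) (hc : 0 < c) (hC : 0 < C)
    (h : WHP (fun n => {g | 0 < P150.gap (skJ β g) (fun _ => 0) ∧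
      c * Real.log n ≤ P150.tmix (skJ β g) (fun _ => 0) ∧
      P150.tmix (skJ β g) (fun _ => 0) ≤ C * Real.log n})) :
    ∃ c' C' : ℝ, 0 < c' ∧ 0 < C' ∧ WHP (fun n => {g | Att β g ε ∧
      c' * Real.log n ≤ tm β g ε ∧ tm β g ε ≤ C' * Real.log n ∧
      c' * n * Real.log n ≤ km β g ε ∧ (km β g ε : ℝ) ≤ C' * n * Real.log n}) := by
  obtain ⟨A, hA, hT⟩ := transfer β hε hε'
  have hA0 : 0 < A := by linarith
  have e1 := (tendsto_log.const_mul_atTop hc).eventually_ge_atTop (2 * A)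
  refine ⟨c / (2 * A), 2 * A * C, by positivity, by positivity, whp_mono (hT _ _ ?_ h) ?_⟩
  · filter_upwards [e1, eventually_ge_atTop 1] with n h1 h2
    have : (1 : ℝ) ≤ n := by exact_mod_cast h2
    nlinarith
  · filter_upwards [eventually_ge_atTop 1] with n h2 g hg
    obtain ⟨a0, a1, a2, a3, a4⟩ := hg
    have h3 : 0 ≤ Real.log n := Real.log_natCast_nonneg n
    refine ⟨a0, le_trans ?_ a1, a2.trans ?_, le_trans (le_of_eq (by ring)) a3,
      a4.trans (le_of_eq (by ring))⟩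
    · rw [div_mul_eq_mul_div]
      exact div_le_div_of_nonneg_left (by positivity) hA0 (by linarith)
    · have : 0 ≤ A * (C * Real.log n) := by positivity
      linarith

theorem ev_rpow {e : ℝ} (he : 0 < e) (A : ℝ) : ∀ᶠ n : ℕ in atTop, A ≤ (n : ℝ) ^ e :=
  ((tendsto_rpow_atTop he).comp tendsto_natCast_atTop_atTop).eventually_ge_atTop A

theorem ev_log_pow (A : ℝ) : ∀ᶠ n : ℕ in atTop, A * Real.log n ^ 4 ≤ n := by
  have h := (Real.tendsto_pow_log_div_mul_add_atTop 1 0 4 one_ne_zero).const_mul A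
  rw [mul_zero] at h
  filter_upwards [(h.comp tendsto_natCast_atTop_atTop).eventually (gt_mem_nhds one_pos),
    eventually_gt_atTop 0] with n hn h0
  have h0' : (0 : ℝ) < n := by positivity
  simp only [Function.comp, one_mul, add_zero] at hn
  rw [← mul_div_assoc, div_lt_one h0'] at hn
  exact hn.le

/-- The critical point. -/
theorem crit {β ε C : ℝ} (hε : 0 < ε) (hε' : ε < 1 / 2) (hC : 0 < C)
    (h : ∀ e : ℝ, 0 < e → WHP (fun n => {g | 0 < P150.gap (skJ β g) (fun _ => 0) ∧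
      Real.log 2 / (C * Real.log n ^ 4) * (n : ℝ) ^ (2 / 3 : ℝ) ≤
        P150.tmix (skJ β g) (fun _ => 0) ∧
      P150.tmix (skJ β g) (fun _ => 0) ≤ (n : ℝ) ^ (2 / 3 + e)})) :
    ∃ c : ℝ, 0 < c ∧ ∀ e : ℝ, 0 < e → WHP (fun n => {g | Att β g ε ∧
      c * (n : ℝ) ^ (2 / 3 : ℝ) / Real.log n ^ 4 ≤ tm β g ε ∧ tm β g ε ≤ (n : ℝ) ^ (2 / 3 + e) ∧
      c * (n : ℝ) ^ (5 / 3 : ℝ) / Real.log n ^ 4 ≤ km β g ε ∧
      (km β g ε : ℝ) ≤ (n : ℝ) ^ (5 / 3 + e)}) := by
  obtain ⟨A, hA, hT⟩ := transfer β hε hε'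
  have hA0 : 0 < A := by linarith
  have hl : 0 < Real.log 2 := Real.log_pos one_lt_two
  refine ⟨Real.log 2 / C / (2 * A), by positivity, fun e he =>
    whp_mono (hT _ _ ?_ (h (e / 2) (by positivity))) ?_⟩
  · filter_upwards [ev_log_pow (2 * A * C / Real.log 2), eventually_ge_atTop 2] with n h1 h2
    have h3 : (2 : ℝ) ≤ n := by exact_mod_cast h2
    have h4 : 0 < Real.log n := Real.log_pos (by linarith)
    have h5 : (1 : ℝ) ≤ (n : ℝ) ^ (2 / 3 : ℝ) := Real.one_le_rpow (by linarith) (by norm_num)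
    have h6 : 2 * A ≤ n * (Real.log 2 / (C * Real.log n ^ 4)) := by
      rw [← mul_div_assoc, le_div_iff₀ (by positivity)]
      rw [div_mul_eq_mul_div, div_le_iff₀ hl] at h1
      linarith
    refine h6.trans (mul_le_mul_of_nonneg_left ?_ (by linarith))
    exact le_mul_of_one_le_right (by positivity) h5
  · filter_upwards [ev_rpow (half_pos he) (2 * A), eventually_ge_atTop 2] with n h1 h2 g hg
    obtain ⟨a0, a1, a2, a3, a4⟩ := hg
    have h3 : (2 : ℝ) ≤ n := by exact_mod_cast h2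
    have h0 : (0 : ℝ) < n := by linarith
    have h4 : 0 < Real.log n := Real.log_pos (by linarith)
    have e1 : (n : ℝ) ^ (5 / 3 : ℝ) = n * (n : ℝ) ^ (2 / 3 : ℝ) := by
      rw [show (5 / 3 : ℝ) = 1 + 2 / 3 by norm_num, Real.rpow_add h0, Real.rpow_one]
    have e2 : (n : ℝ) ^ (2 / 3 + e) = (n : ℝ) ^ (e / 2) * (n : ℝ) ^ (2 / 3 + e / 2) := by
      rw [← Real.rpow_add h0]
      congr 1
      ring
    have e3 : (n : ℝ) ^ (5 / 3 + e) = n * (n : ℝ) ^ (2 / 3 + e) := by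
      rw [show 5 / 3 + e = 1 + (2 / 3 + e) by ring, Real.rpow_add h0 1, Real.rpow_one]
    have p1 : 0 < (n : ℝ) ^ (2 / 3 : ℝ) := by positivity
    have p2 : 0 < (n : ℝ) ^ (2 / 3 + e / 2) := by positivity
    have b1 := mul_le_mul_of_nonneg_right h1 p2.le
    refine ⟨a0, le_trans ?_ a1, a2.trans ?_, le_trans (le_of_eq ?_) a3, a4.trans ?_⟩
    · have : Real.log 2 / C / (2 * A) * (n : ℝ) ^ (2 / 3 : ℝ) / Real.log n ^ 4 =
          Real.log 2 / (C * Real.log n ^ 4) * (n : ℝ) ^ (2 / 3 : ℝ) / (2 * A) := by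
        field_simp
      rw [this]
      exact div_le_div_of_nonneg_left (by positivity) hA0 (by linarith)
    · have : 0 ≤ A * (n : ℝ) ^ (2 / 3 + e / 2) := by positivity
      rw [e2]
      linarith
    · rw [e1]
      field_simp
    · rw [e3, e2]
      have := mul_le_mul_of_nonneg_left b1 h0.le
      linarith

theorem ev_exp {e : ℝ} (he : 0 < e) (A : ℝ) : ∀ᶠ n : ℕ in atTop, A * n ≤ Real.exp (e * n) := by
  filter_upwards [tendsto_natCast_atTop_atTop.eventually_ge_atTop (2 * A / e ^ 2)] with n hn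
  have h0 : (0 : ℝ) ≤ n := n.cast_nonneg
  have h1 := Real.quadratic_le_exp_of_nonneg (show 0 ≤ e * n by positivity)
  rw [div_le_iff₀ (by positivity)] at hn
  have h2 := mul_le_mul_of_nonneg_right hn h0
  have h3 : 0 ≤ e * n := by positivity
  nlinarith

/-- Low temperature. -/
theorem low {β ε c R : ℝ} (hε : 0 < ε) (hε' : ε < 1 / 2) (hc : 0 < c)
    (h : ∀ e : ℝ, 0 < e → WHP (fun n => {g | 0 < P150.gap (skJ β g) (fun _ => 0) ∧
      Real.exp (c * n) ≤ P150.tmix (skJ β g) (fun _ => 0) ∧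
      P150.tmix (skJ β g) (fun _ => 0) ≤ Real.exp ((R + e) * n)})) (e : ℝ) (he : 0 < e) :
    WHP (fun n => {g | Att β g ε ∧
      Real.exp (c / 2 * n) ≤ tm β g ε ∧ tm β g ε ≤ Real.exp ((R + e) * n) ∧
      Real.exp (c * n) ≤ km β g ε ∧ (km β g ε : ℝ) ≤ Real.exp ((R + e) * n)}) := by
  obtain ⟨A, hA, hT⟩ := transfer β hε hε'
  have hA0 : 0 < A := by linarith
  have e1 := (tendsto_natCast_atTop_atTop (R := ℝ)).eventually_ge_atTop (2 * A)
  refine whp_mono (hT _ _ ?_ (h (e / 2) (by positivity))) ?_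
  · filter_upwards [e1] with n h1
    exact h1.trans (le_mul_of_one_le_right n.cast_nonneg (Real.one_le_exp (by positivity)))
  · filter_upwards [e1, ev_exp (half_pos he) (2 * A), ev_exp (half_pos hc) A] with n h1 h2 h3 g hg
    obtain ⟨a0, a1, a2, a3, a4⟩ := hg
    have h4 : (1 : ℝ) ≤ n := by linarith
    have e2 : Real.exp ((R + e) * n) = Real.exp (e / 2 * n) * Real.exp ((R + e / 2) * n) := by
      rw [← Real.exp_add]
      congr 1
      ring
    have e3 : Real.exp (c * n) = Real.exp (c / 2 * n) * Real.exp (c / 2 * n) := by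
      rw [← Real.exp_add]
      congr 1
      ring
    have p1 := Real.exp_pos ((R + e / 2) * n)
    have p2 := Real.exp_pos (c / 2 * n)
    have p3 := Real.exp_pos (c * n)
    have b1 := mul_le_mul_of_nonneg_right h2 p1.le
    have b2 : A ≤ A * n := le_mul_of_one_le_right hA0.le h4
    refine ⟨a0, le_trans ?_ a1, a2.trans ?_, le_trans ?_ a3, a4.trans ?_⟩
    · rw [le_div_iff₀ hA0, e3]
      exact mul_le_mul_of_nonneg_left (b2.trans h3) p2.le
    · rw [e2]
      exact mul_le_mul_of_nonneg_right (by linarith) p1.le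
    · rw [le_div_iff₀ (by positivity), mul_comm]
      exact mul_le_mul_of_nonneg_right h1 p3.le
    · rw [e2]
      linarith

end Vale.Agent.N150D.DiscSK
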