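import Vale.Agent.N150.A2
import Vale.Agent.N150D.Chain

/-! Entropy estimates for a finite reversible chain in continuous time: level splitting,
Pinsker, modified log-Sobolev decay and comparison of Dirichlet forms. -/

open Finset Filter Topology Set

namespace Vale.Agent.N150D.Ent

variable {X : Type*} [Fintype X] [DecidableEq X]

/-- semigroup acting on functions -/
noncomputable def Pt (L : Matrix X X ℝ) (t : ℝ) (f : X → ℝ) (x : X) : ℝ :=
  ∑ y, ker L t x y * f y

/-- entropy -/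
noncomputable def En (π : X → ℝ) (f : X → ℝ) : ℝ :=
  ex π (fun x => f x * Real.log (f x)) - ex π f * Real.log (ex π f)

/-- density at time `t` from the start `x` -/
noncomputable def dn (L : Matrix X X ℝ) (π : X → ℝ) (x : X) (t : ℝ) (y : X) : ℝ :=
  ker L t x y / π y

/-- Defective entropy inequality for densities bounded by `exp K`, with defect `E`. -/
def Lev (L : Matrix X X ℝ) (π : X → ℝ) (K E A : ℝ) : Prop :=
  ∀ f : X → ℝ, (∀ x, 0 < f x) → (∀ x, f x ≤ Real.exp K) → ex π f = 1 →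
    ex π (fun x => f x * Real.log (f x)) ≤ E + A * dir L π f (fun x => Real.log (f x))

/-- Modified log-Sobolev inequality with constant `A`. -/
def MLSI (L : Matrix X X ℝ) (π : X → ℝ) (A : ℝ) : Prop :=
  ∀ f : X → ℝ, (∀ x, 0 < f x) → En π f ≤ A * dir L π f (fun x => Real.log (f x))

section basic

variable {π : X → ℝ} {L : Matrix X X ℝ}

omit [DecidableEq X] in
lemma Ex_add (f g : X → ℝ) : ex π (fun x => f x + g x) = ex π f + ex π g := by
  unfold ex
  rw [← Finset.sum_add_distrib]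
  exact Finset.sum_congr rfl fun x _ => by ring

omit [DecidableEq X] in
lemma Ex_smul (c : ℝ) (f : X → ℝ) : ex π (fun x => c * f x) = c * ex π f := by
  unfold ex
  rw [Finset.mul_sum]
  exact Finset.sum_congr rfl fun x _ => by ring

omit [DecidableEq X] in
lemma Ex_const (h : Rev L π) (c : ℝ) : ex π (fun _ => c) = c := by
  unfold ex
  rw [← Finset.sum_mul, h.sum, one_mul]

omit [DecidableEq X] in
lemma Ex_mono (h : Rev L π) {f g : X → ℝ} (hfg : ∀ x, f x ≤ g x) : ex π f ≤ ex π g :=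
  Finset.sum_le_sum fun x _ => mul_le_mul_of_nonneg_left (hfg x) (h.pos x).le

omit [DecidableEq X] in
lemma Ex_nonneg (h : Rev L π) {f : X → ℝ} (hf : ∀ x, 0 ≤ f x) : 0 ≤ ex π f :=
  Finset.sum_nonneg fun x _ => mul_nonneg (h.pos x).le (hf x)

omit [DecidableEq X] in
lemma Gn_mix (h : Rev L π) (c d : ℝ) (f : X → ℝ) (x : X) :
    act L (fun y => c * f y + d) x = c * act L f x := by
  unfold act
  have e : ∀ y, L x y * (c * f y + d) = c * (L x y * f y) + L x y * d := fun y => by ring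
  simp only [e, Finset.sum_add_distrib, ← Finset.mul_sum, ← Finset.sum_mul, h.row]
  ring

omit [DecidableEq X] in
/-- the generator is self-adjoint -/
lemma Gn_symm (h : Rev L π) (f g : X → ℝ) :
    ex π (fun x => f x * act L g x) = ex π (fun x => g x * act L f x) := by
  unfold ex act
  simp only [Finset.mul_sum]
  rw [Finset.sum_comm]
  refine Finset.sum_congr rfl fun y _ => Finset.sum_congr rfl fun x _ => ?_
  linear_combination (f x * g y) * h.rev x y

omit [DecidableEq X] in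
lemma Df_symm (h : Rev L π) (f g : X → ℝ) : dir L π f g = dir L π g f := by
  unfold dir
  rw [Gn_symm h]

omit [DecidableEq X] in
lemma Ex_Gn (h : Rev L π) (f : X → ℝ) : ex π (act L f) = 0 := by
  have h1 := Gn_symm h (fun _ => 1) f
  have h2 : ∀ x, act L (fun _ => (1 : ℝ)) x = 0 := fun x => by
    unfold act
    simp [h.row]
  simp only [h2, one_mul, mul_zero] at h1
  rw [h1]
  unfold ex
  simp

omit [DecidableEq X] in
/-- the Dirichlet form as a sum over edges -/
lemma Df_eq (h : Rev L π) (f g : X → ℝ) :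
    dir L π f g = (1 / 2) * ∑ x, ∑ y, π x * L x y * ((f x - f y) * (g x - g y)) := by
  have a1 : ∑ x, ∑ y, π x * L x y * (f x * g x) = 0 := by
    refine Finset.sum_eq_zero fun x _ => ?_
    have e : ∀ y, π x * L x y * (f x * g x) = (π x * (f x * g x)) * L x y := fun y => by ring
    simp only [e, ← Finset.mul_sum, h.row, mul_zero]
  have a2 : ∑ x, ∑ y, π x * L x y * (f y * g y) = 0 := by
    rw [Finset.sum_comm, ← a1]
    exact Finset.sum_congr rfl fun y _ => Finset.sum_congr rfl fun x _ => by rw [h.rev]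
  have a3 : ∑ x, ∑ y, π x * L x y * (f x * g y) = -dir L π f g := by
    unfold dir ex act
    rw [neg_neg]
    simp only [Finset.mul_sum]
    exact Finset.sum_congr rfl fun y _ => Finset.sum_congr rfl fun x _ => by ring
  have a4 : ∑ x, ∑ y, π x * L x y * (f y * g x) = -dir L π f g := by
    rw [Finset.sum_comm, ← a3]
    exact Finset.sum_congr rfl fun y _ => Finset.sum_congr rfl fun x _ => by rw [h.rev]
  have e : ∀ x y, π x * L x y * ((f x - f y) * (g x - g y))
      = π x * L x y * (f x * g x) + π x * L x y * (f y * g y) - π x * L x y * (f x * g y)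
        - π x * L x y * (f y * g x) := fun x y => by ring
  simp only [e, Finset.sum_sub_distrib, Finset.sum_add_distrib, a1, a2, a3, a4]
  ring

lemma log_inc {a b : ℝ} (ha : 0 < a) (hb : 0 < b) : 0 ≤ (a - b) * (Real.log a - Real.log b) := by
  rcases le_total a b with h | h
  · have := Real.log_le_log ha h
    exact mul_nonneg_of_nonpos_of_nonpos (by linarith) (by linarith)
  · have := Real.log_le_log hb h
    exact mul_nonneg (by linarith) (by linarith)

/-- comparison of Dirichlet forms for comonotone functions -/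
lemma Df_compare {L' : Matrix X X ℝ} (h : Rev L π) (h' : Rev L' π) {c : ℝ}
    (hc : ∀ x y, x ≠ y → c * L x y ≤ L' x y) {f g : X → ℝ}
    (hfg : ∀ x y, 0 ≤ (f x - f y) * (g x - g y)) : c * dir L π f g ≤ dir L' π f g := by
  rw [Df_eq h, Df_eq h', mul_left_comm]
  refine mul_le_mul_of_nonneg_left ?_ (by norm_num)
  rw [Finset.mul_sum]
  refine Finset.sum_le_sum fun x _ => ?_
  rw [Finset.mul_sum]
  refine Finset.sum_le_sum fun y _ => ?_
  by_cases hxy : x = y
  · subst hxy; simp
  · have := mul_le_mul_of_nonneg_right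
      (mul_le_mul_of_nonneg_left (hc x y hxy) (h.pos x).le) (hfg x y)
    linarith only [this]

lemma Df_nonneg (h : Rev L π) {f g : X → ℝ} (hfg : ∀ x y, 0 ≤ (f x - f y) * (g x - g y)) :
    0 ≤ dir L π f g := by
  have := Df_compare h h (c := 0) (fun x y hxy => by simpa using h.off x y hxy) hfg
  simpa using this

lemma Df_log_nonneg (h : Rev L π) {f : X → ℝ} (hf : ∀ x, 0 < f x) :
    0 ≤ dir L π f (fun x => Real.log (f x)) :=
  Df_nonneg h fun x y => log_inc (hf x) (hf y)

lemma Df_self_nonneg (h : Rev L π) (f : X → ℝ) : 0 ≤ dir L π f f :=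
  Df_nonneg h fun _ _ => mul_self_nonneg _

lemma Df_compare_log {L' : Matrix X X ℝ} (h : Rev L π) (h' : Rev L' π) {c : ℝ}
    (hc : ∀ x y, x ≠ y → c * L x y ≤ L' x y) {f : X → ℝ} (hf : ∀ x, 0 < f x) :
    c * dir L π f (fun x => Real.log (f x)) ≤ dir L' π f (fun x => Real.log (f x)) :=
  Df_compare h h' hc fun x y => log_inc (hf x) (hf y)

lemma Df_compare_self {L' : Matrix X X ℝ} (h : Rev L π) (h' : Rev L' π) {c : ℝ}
    (hc : ∀ x y, x ≠ y → c * L x y ≤ L' x y) (f : X → ℝ) : c * dir L π f f ≤ dir L' π f f :=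
  Df_compare h h' hc fun _ _ => mul_self_nonneg _

lemma Lev.mono (h : Rev L π) {K E A K' E' A' : ℝ} (hL : Lev L π K E A) (hK : K' ≤ K)
    (hE : E ≤ E') (hA : A ≤ A') : Lev L π K' E' A' := fun f f0 f1 f2 =>
  (hL f f0 (fun x => (f1 x).trans (Real.exp_le_exp.2 hK)) f2).trans
    (add_le_add hE (mul_le_mul_of_nonneg_right hA (Df_log_nonneg h f0)))

/-- transfer of a level inequality to a faster chain -/
lemma Lev.compare {L' : Matrix X X ℝ} (h : Rev L π) (h' : Rev L' π) {c : ℝ} (hc0 : 0 < c)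
    (hc : ∀ x y, x ≠ y → c * L x y ≤ L' x y) {K E A : ℝ} (hA : 0 ≤ A) (hL : Lev L π K E A) :
    Lev L' π K E (A / c) := fun f f0 f1 f2 => by
  have a1 := hL f f0 f1 f2
  have a2 := mul_le_mul_of_nonneg_left (Df_compare_log h h' hc f0) (div_nonneg hA hc0.le)
  rw [← mul_assoc, div_mul_cancel₀ _ hc0.ne'] at a2
  linarith only [a1, a2]

/-- transfer of a modified log-Sobolev inequality to a faster chain -/
lemma MLSI.compare {L' : Matrix X X ℝ} (h : Rev L π) (h' : Rev L' π) {c : ℝ} (hc0 : 0 < c)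
    (hc : ∀ x y, x ≠ y → c * L x y ≤ L' x y) {A : ℝ} (hA : 0 ≤ A) (hL : MLSI L π A) :
    MLSI L' π (A / c) := fun f f0 => by
  have a1 := hL f f0
  have a2 := mul_le_mul_of_nonneg_left (Df_compare_log h h' hc f0) (div_nonneg hA hc0.le)
  rw [← mul_assoc, div_mul_cancel₀ _ hc0.ne'] at a2
  linarith only [a1, a2]

omit [DecidableEq X] in
lemma En_eq {f : X → ℝ} (h1 : ex π f = 1) : En π f = ex π (fun x => f x * Real.log (f x)) := by
  unfold En
  rw [h1, Real.log_one, mul_zero, sub_zero]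

omit [DecidableEq X] in
lemma MLSI.lev {A : ℝ} (hL : MLSI L π A) (K : ℝ) : Lev L π K 0 A := fun f f0 _ f2 => by
  have := hL f f0
  rw [En_eq f2] at this
  linarith only [this]

lemma Pt_zero (f : X → ℝ) (x : X) : Pt L 0 f x = f x := by
  unfold Pt
  simp only [ker_zero, Matrix.one_apply]
  simp

lemma Pt_deriv (f : X → ℝ) (t : ℝ) (x : X) :
    HasDerivAt (fun s => Pt L s f x) (act L (Pt L t f) x) t := by
  have h : HasDerivAt (fun s : ℝ => ∑ y, ker L s x y * f y)
      (∑ y, (L * ker L t) x y * f y) t := by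
    apply HasDerivAt.fun_sum
    intro y _
    exact (ker_deriv' L t x y).mul_const (f y)
  have e : ∑ y, (L * ker L t) x y * f y = act L (Pt L t f) x := by
    simp only [Matrix.mul_apply, Finset.sum_mul, Pt, act, Finset.mul_sum]
    rw [Finset.sum_comm]
    exact Finset.sum_congr rfl fun z _ => Finset.sum_congr rfl fun y _ => by ring
  rw [e] at h
  exact h

lemma Ex_Pt (h : Rev L π) (t : ℝ) (f : X → ℝ) : ex π (Pt L t f) = ex π f := by
  unfold ex Pt
  simp only [Finset.mul_sum]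
  rw [Finset.sum_comm]
  refine Finset.sum_congr rfl fun y _ => ?_
  have e : ∀ x, π x * (ker L t x y * f y)
      = (π y * f y) * ker L t y x := fun x => by
    linear_combination f y * h.ker_rev t x y
  simp only [e, ← Finset.mul_sum, h.ker_row, mul_one]

lemma Pt_nonneg (h : Rev L π) {t : ℝ} (ht : 0 ≤ t) {f : X → ℝ} (hf : ∀ x, 0 ≤ f x) (x : X) :
    0 ≤ Pt L t f x :=
  Finset.sum_nonneg fun y _ => mul_nonneg (h.ker_nonneg ht x y) (hf y)

lemma Pt_le (h : Rev L π) {t c : ℝ} (ht : 0 ≤ t) {f : X → ℝ} (hf : ∀ x, f x ≤ c) (x : X) :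
    Pt L t f x ≤ c := by
  calc Pt L t f x ≤ ∑ y, ker L t x y * c :=
        Finset.sum_le_sum fun y _ => mul_le_mul_of_nonneg_left (hf y) (h.ker_nonneg ht x y)
    _ = c := by rw [← Finset.sum_mul, h.ker_row, one_mul]

lemma Pt_add (t : ℝ) (f g : X → ℝ) (x : X) :
    Pt L t (fun y => f y + g y) x = Pt L t f x + Pt L t g x := by
  unfold Pt
  rw [← Finset.sum_add_distrib]
  exact Finset.sum_congr rfl fun y _ => by ring

lemma Pt_smul (t c : ℝ) (f : X → ℝ) (x : X) :
    Pt L t (fun y => c * f y) x = c * Pt L t f x := by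
  unfold Pt
  rw [Finset.mul_sum]
  exact Finset.sum_congr rfl fun y _ => by ring

lemma Pt_Pt (s t : ℝ) (f : X → ℝ) (x : X) : Pt L (s + t) f x = Pt L s (Pt L t f) x := by
  unfold Pt
  rw [ker_add]
  simp only [Matrix.mul_apply, Finset.sum_mul, Finset.mul_sum]
  rw [Finset.sum_comm]
  exact Finset.sum_congr rfl fun y _ => Finset.sum_congr rfl fun z _ => by ring

omit [DecidableEq X] in
lemma ent_le (h : Rev L π) {K : ℝ} {f : X → ℝ} (hf : ∀ x, 0 ≤ f x)
    (hK : ∀ x, f x ≤ Real.exp K) (h1 : ex π f = 1) :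
    ex π (fun x => f x * Real.log (f x)) ≤ K := by
  have a : ex π (fun x => f x * Real.log (f x)) ≤ ex π (fun x => K * f x) :=
    Ex_mono h fun x => by
      rcases (hf x).eq_or_lt with h0 | h0
      · rw [← h0]; simp
      · rw [mul_comm K]
        exact mul_le_mul_of_nonneg_left ((Real.log_le_iff_le_exp h0).2 (hK x)) h0.le
  rwa [Ex_smul, h1, mul_one] at a

omit [DecidableEq X] in
/-- Pinsker's inequality -/
lemma pinsker (h : Rev L π) (f : X → ℝ) (h0 : ∀ x, 0 ≤ f x) (h1 : ex π f = 1) :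
    (ex π fun y => |f y - 1|) ^ 2 ≤ 2 * ex π (fun y => f y * Real.log (f y)) := by
  have hs := h.sum
  have e1 : ∑ y, π y * ((2 * f y + 4) / 3) = 2 := by
    have : ∀ y, π y * ((2 * f y + 4) / 3) = (2 / 3) * (π y * f y) + (4 / 3) * π y := by
      intro y; ring
    simp only [this, Finset.sum_add_distrib, ← Finset.mul_sum]
    unfold ex at h1
    rw [h1, hs]; norm_num
  have e2 : ∑ y, π y * (f y * Real.log (f y) - f y + 1)
      = ex π (fun y => f y * Real.log (f y)) := by
    have : ∀ y, π y * (f y * Real.log (f y) - f y + 1)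
        = π y * (f y * Real.log (f y)) - π y * f y + π y := by
      intro y; ring
    simp only [this, Finset.sum_add_distrib, Finset.sum_sub_distrib]
    unfold ex at h1 ⊢
    rw [h1, hs]; ring
  rw [← e2]
  conv_rhs => rw [← e1]
  unfold ex
  apply Finset.sum_sq_le_sum_mul_sum_of_sq_le_mul
  · intro y _
    have := h.pos y
    have := h0 y
    positivity
  · intro y _
    exact mul_nonneg (h.pos y).le (P150.Semi.pinsker_pt_nonneg _ (h0 y))
  · intro y _
    have hp := P150.Semi.pinsker_pt (f y) (h0 y)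
    rw [mul_pow, sq_abs]
    have : π y * ((2 * f y + 4) / 3) * (π y * (f y * Real.log (f y) - f y + 1))
      = π y ^ 2 * (((2 * f y + 4) * (f y * Real.log (f y) - f y + 1)) / 3) := by ring
    rw [this]
    apply mul_le_mul_of_nonneg_left _ (sq_nonneg _)
    linarith only [hp]

omit [DecidableEq X] in
lemma ent_deriv (h : Rev L π) (u : ℝ → X → ℝ) (t : ℝ)
    (hu : ∀ x, HasDerivAt (fun s => u s x) (act L (u t) x) t) (hpos : ∀ x, 0 < u t x) :
    HasDerivAt (fun s => ex π (fun x => u s x * Real.log (u s x)))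
      (-dir L π (u t) (fun x => Real.log (u t x))) t := by
  have h1 : HasDerivAt (fun s => ex π (fun x => u s x * Real.log (u s x)))
      (ex π (fun x => act L (u t) x * Real.log (u t x) + u t x * (act L (u t) x / u t x))) t := by
    unfold ex
    apply HasDerivAt.fun_sum
    intro x _
    exact ((hu x).mul ((hu x).log (hpos x).ne')).const_mul _
  have h2 : ex π (fun x => act L (u t) x * Real.log (u t x) + u t x * (act L (u t) x / u t x))
      = -dir L π (u t) (fun x => Real.log (u t x)) := by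
    rw [Df_symm h]
    unfold dir
    rw [neg_neg]
    have h4 : (fun x => act L (u t) x * Real.log (u t x) + u t x * (act L (u t) x / u t x))
        = fun x => Real.log (u t x) * act L (u t) x + act L (u t) x := by
      funext x
      have := (hpos x).ne'
      field_simp
    rw [h4, Ex_add, Ex_Gn h, add_zero]
  rwa [h2] at h1

omit [DecidableEq X] in
/-- entropy decay along a positive bounded flow -/
lemma decay_pos (h : Rev L π) {K E A : ℝ} (hA : 0 < A) (hL : Lev L π K E A)
    (u : ℝ → X → ℝ) (hu : ∀ t x, HasDerivAt (fun s => u s x) (act L (u t) x) t)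
    (hpos : ∀ t, 0 ≤ t → ∀ x, 0 < u t x) (hK : ∀ t, 0 ≤ t → ∀ x, u t x ≤ Real.exp K)
    (h1 : ∀ t, ex π (u t) = 1) (t : ℝ) (ht : 0 ≤ t) :
    ex π (fun x => u t x * Real.log (u t x)) - E
      ≤ Real.exp (-(t / A)) * (ex π (fun x => u 0 x * Real.log (u 0 x)) - E) := by
  set H : ℝ → ℝ := fun s => ex π (fun x => u s x * Real.log (u s x)) with hH
  set F : ℝ → ℝ := fun s => Real.exp (s / A) * (H s - E) with hF
  have hd : ∀ s, 0 ≤ s → HasDerivAt F (Real.exp (s / A) * (1 / A) * (H s - E)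
      + Real.exp (s / A) * (-dir L π (u s) (fun x => Real.log (u s x)))) s := by
    intro s hs
    exact (((hasDerivAt_id s).div_const A).exp).mul
      ((ent_deriv h u s (hu s) (hpos s hs)).sub_const E)
  have hanti : AntitoneOn F (Set.Ici 0) := by
    apply antitoneOn_of_deriv_nonpos (convex_Ici 0)
    · intro s hs
      exact (hd s hs).continuousAt.continuousWithinAt
    · intro s hs
      rw [interior_Ici] at hs
      exact (hd s (le_of_lt hs)).differentiableAt.differentiableWithinAt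
    · intro s hs
      rw [interior_Ici] at hs
      have hs0 : (0 : ℝ) ≤ s := le_of_lt hs
      rw [(hd s hs0).deriv]
      have h2 : H s ≤ E + A * dir L π (u s) (fun x => Real.log (u s x)) :=
        hL (u s) (hpos s hs0) (hK s hs0) (h1 s)
      have h4 : (1 / A) * (H s - E) ≤ dir L π (u s) (fun x => Real.log (u s x)) := by
        rw [one_div, inv_mul_le_iff₀ hA]
        linarith only [h2]
      have h5 := mul_le_mul_of_nonneg_left h4 (Real.exp_pos (s / A)).le
      linarith only [h5]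
  have h0 := hanti (Set.mem_Ici.2 le_rfl) (Set.mem_Ici.2 ht) ht
  have h6 : F t = Real.exp (t / A) * (H t - E) := rfl
  have h7 : F 0 = H 0 - E := by simp [hF]
  rw [h6, h7] at h0
  have h8 : Real.exp (-(t / A)) * Real.exp (t / A) = 1 := by
    rw [← Real.exp_add]; simp
  calc H t - E = Real.exp (-(t / A)) * (Real.exp (t / A) * (H t - E)) := by
        rw [← mul_assoc, h8, one_mul]
    _ ≤ Real.exp (-(t / A)) * (H 0 - E) :=
        mul_le_mul_of_nonneg_left h0 (Real.exp_pos _).le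

omit [DecidableEq X] in
lemma cont_mix (f : X → ℝ) : Continuous (fun ε : ℝ =>
    ex π (fun y => ((1 - ε) * f y + ε) * Real.log ((1 - ε) * f y + ε))) := by
  unfold ex
  have hc : ∀ y, Continuous (fun ε : ℝ => (1 - ε) * f y + ε) := by intro y; fun_prop
  apply continuous_finsetSum
  intro y _
  exact continuous_const.mul (Real.continuous_mul_log.comp (hc y))

/-- entropy decay for a nonnegative bounded density, sharp form -/
lemma decay' (h : Rev L π) {K E A : ℝ} (hA : 0 < A) (hK0 : 0 ≤ K)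
    (hL : Lev L π K E A) {f : X → ℝ} (hf : ∀ x, 0 ≤ f x) (hK : ∀ x, f x ≤ Real.exp K)
    (h1 : ex π f = 1) {t : ℝ} (ht : 0 ≤ t) :
    ex π (fun x => Pt L t f x * Real.log (Pt L t f x)) - E
      ≤ Real.exp (-(t / A)) * (ex π (fun x => f x * Real.log (f x)) - E) := by
  have hP1 : ∀ s, ex π (Pt L s f) = 1 := fun s => by rw [Ex_Pt h, h1]
  have e1 : 1 ≤ Real.exp K := Real.one_le_exp hK0
  have key : ∀ ε : ℝ, 0 < ε → ε < 1 →
      ex π (fun y => ((1 - ε) * Pt L t f y + ε) * Real.log ((1 - ε) * Pt L t f y + ε)) - E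
        ≤ Real.exp (-(t / A))
          * (ex π (fun y => ((1 - ε) * f y + ε) * Real.log ((1 - ε) * f y + ε)) - E) := by
    intro ε h0 h2
    have hm : ∀ s, ex π (fun y => (1 - ε) * Pt L s f y + ε) = 1 := fun s => by
      rw [Ex_add, Ex_smul, hP1, Ex_const h]; ring
    have hp : ∀ s, 0 ≤ s → ∀ y, 0 < (1 - ε) * Pt L s f y + ε := fun s hs y => by
      have : 0 ≤ (1 - ε) * Pt L s f y :=
        mul_nonneg (by linarith only [h2]) (Pt_nonneg h hs hf y)
      linarith only [this, h0]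
    have hb : ∀ s, 0 ≤ s → ∀ y, (1 - ε) * Pt L s f y + ε ≤ Real.exp K := fun s hs y => by
      have a1 := mul_le_mul_of_nonneg_left (Pt_le h hs hK y) (by linarith only [h2] : 0 ≤ 1 - ε)
      have a2 := mul_le_mul_of_nonneg_left e1 h0.le
      linarith only [a1, a2]
    have h4 := decay_pos h hA hL (fun s y => (1 - ε) * Pt L s f y + ε) (fun s y => by
      have a2 := ((Pt_deriv (L := L) f s y).const_mul (1 - ε)).add_const ε
      rw [Gn_mix h]
      exact a2) hp hb hm t ht
    simpa only [Pt_zero] using h4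
  have l0 : ∀ g : X → ℝ, Tendsto (fun ε : ℝ =>
      ex π (fun y => ((1 - ε) * g y + ε) * Real.log ((1 - ε) * g y + ε)) - E) (𝓝[>] 0)
      (𝓝 (ex π (fun y => g y * Real.log (g y)) - E)) := fun g => by
    have := (cont_mix (π := π) g).tendsto 0
    simp only [sub_zero, one_mul, add_zero] at this
    exact (this.mono_left nhdsWithin_le_nhds).sub_const E
  have l1 := l0 (Pt L t f)
  have l2 := (l0 f).const_mul (Real.exp (-(t / A)))
  refine le_of_tendsto_of_tendsto l1 l2 ?_
  filter_upwards [Ioo_mem_nhdsGT (one_pos : (0 : ℝ) < 1)] with ε hε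
  exact key ε hε.1 hε.2

/-- entropy decay for a nonnegative bounded density -/
lemma decay (h : Rev L π) {K E A : ℝ} (hA : 0 < A) (hK0 : 0 ≤ K) (hE : 0 ≤ E)
    (hL : Lev L π K E A) {f : X → ℝ} (hf : ∀ x, 0 ≤ f x) (hK : ∀ x, f x ≤ Real.exp K)
    (h1 : ex π f = 1) {t : ℝ} (ht : 0 ≤ t) :
    ex π (fun x => Pt L t f x * Real.log (Pt L t f x)) ≤ E + Real.exp (-(t / A)) * K := by
  have a1 := decay' h hA hK0 hL hf hK h1 ht
  have a2 := mul_le_mul_of_nonneg_left
    (show ex π (fun x => f x * Real.log (f x)) - E ≤ K by linarith only [ent_le h hf hK h1, hE])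
    (Real.exp_pos (-(t / A))).le
  linarith only [a1, a2]

/-- one run: half of the mass gets the bound `exp (K / 2)` -/
lemma split (h : Rev L π) {K l A : ℝ} (hA : 0 < A) (hK : 30 ≤ K) (hl0 : 0 ≤ l)
    (hl : l ≤ K / 10) (hL : Lev L π (K + l) ((K + l) / 8) A) {w : X → ℝ} (hw : ∀ x, 0 ≤ w x)
    (hwK : ∀ x, w x ≤ Real.exp K) (hm : Real.exp (-l) ≤ ex π w) :
    ∃ g k : X → ℝ, (∀ x, Pt L (3 * A) w x = g x + k x) ∧ (∀ x, 0 ≤ g x) ∧ (∀ x, 0 ≤ k x) ∧
      (∀ x, g x ≤ ex π w * Real.exp (K / 2)) ∧ (∀ x, k x ≤ Real.exp K) ∧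
      ex π k ≤ ex π w / 2 := by
  set θ := ex π w with hθ
  have hθ0 : 0 < θ := (Real.exp_pos _).trans_le hm
  have ht : 0 ≤ 3 * A := by positivity
  set f : X → ℝ := fun x => θ⁻¹ * w x with hf
  have hf0 : ∀ x, 0 ≤ f x := fun x => mul_nonneg (inv_pos.2 hθ0).le (hw x)
  have hf1 : ex π f = 1 := by rw [hf, Ex_smul, ← hθ, inv_mul_cancel₀ hθ0.ne']
  have hfK : ∀ x, f x ≤ Real.exp (K + l) := fun x => by
    have a1 : θ⁻¹ ≤ Real.exp l := by
      have := inv_anti₀ (Real.exp_pos _) hm
      rwa [← Real.exp_neg, neg_neg] at this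
    rw [add_comm, Real.exp_add]
    exact mul_le_mul a1 (hwK x) (hw x) (Real.exp_pos _).le
  have hd := decay h hA (by linarith) (by linarith) hL hf0 hfK hf1 ht
  have e3 : 3 * A / A = 3 := by field_simp
  rw [e3] at hd
  have hd2 := mul_le_mul_of_nonneg_right N150.A2.exp_neg_three (show 0 ≤ K + l by linarith)
  set p := Pt L (3 * A) f with hp
  have hp0 : ∀ x, 0 ≤ p x := Pt_nonneg h ht hf0
  have hwp : ∀ x, Pt L (3 * A) w x = θ * p x := fun x => by
    rw [hp, hf, Pt_smul, ← mul_assoc, mul_inv_cancel₀ hθ0.ne', one_mul]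
  have hM : 0 < K / 2 := by linarith
  refine ⟨fun x => θ * min (p x) (Real.exp (K / 2)),
    fun x => θ * (p x - min (p x) (Real.exp (K / 2))), fun x => by rw [hwp]; ring,
    fun x => mul_nonneg hθ0.le (le_min (hp0 x) (Real.exp_pos _).le),
    fun x => mul_nonneg hθ0.le (sub_nonneg.2 (min_le_left _ _)),
    fun x => mul_le_mul_of_nonneg_left (min_le_right _ _) hθ0.le, fun x => ?_, ?_⟩
  · have a1 := Pt_le h ht hwK x
    rw [hwp] at a1
    have a2 := mul_nonneg hθ0.le (le_min (hp0 x) (Real.exp_pos (K / 2)).le)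
    linarith only [a1, a2]
  · rw [Ex_smul]
    have h1 : ex π (fun y => p y - min (p y) (Real.exp (K / 2)))
        ≤ ex π (fun y => (1 / (K / 2)) * (p y * Real.log (p y) + 1)) :=
      Ex_mono h fun y => by
        have := P150.F.D8M.sub_min_le (hp0 y) hM
        rw [one_div, inv_mul_eq_div]
        exact this
    rw [Ex_smul, Ex_add, Ex_const h] at h1
    have h2 : 1 / (K / 2) * (ex π (fun y => p y * Real.log (p y)) + 1) ≤ 1 / 2 := by
      rw [one_div, inv_mul_le_iff₀ hM]
      linarith only [hd, hd2, hK, hl]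
    have h3 := mul_le_mul_of_nonneg_left (h1.trans h2) hθ0.le
    linarith only [h3]

/-- reruns of the remainder -/
lemma rerun (h : Rev L π) {K l A : ℝ} (hA : 0 < A) (hK : 30 ≤ K) (hl0 : 0 ≤ l)
    (hl : l ≤ K / 10) (hL : Lev L π (K + l) ((K + l) / 8) A) (r : ℕ) :
    ∀ (θ : ℝ) (w : X → ℝ), (∀ x, 0 ≤ w x) → (∀ x, w x ≤ Real.exp K) → ex π w ≤ θ →
    ∃ g k : X → ℝ, (∀ x, Pt L (r * (3 * A)) w x = g x + k x) ∧ (∀ x, 0 ≤ g x) ∧
      (∀ x, 0 ≤ k x) ∧ (∀ x, g x ≤ 2 * θ * Real.exp (K / 2)) ∧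
      ex π k ≤ max (Real.exp (-l)) (θ / 2 ^ r) := by
  induction r with
  | zero =>
    intro θ w hw _ hm
    have h0 : 0 ≤ θ := (Ex_nonneg h hw).trans hm
    refine ⟨fun _ => 0, w, fun x => by simp [Pt_zero], fun _ => le_rfl, hw,
      fun _ => by positivity, ?_⟩
    simpa using Or.inr hm
  | succ r ih =>
    intro θ w hw hwK hm
    have h0 : 0 ≤ θ := (Ex_nonneg h hw).trans hm
    have ht : 0 ≤ (r : ℝ) * (3 * A) := by positivity
    rcases le_total (ex π w) (Real.exp (-l)) with hc | hc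
    · refine ⟨fun _ => 0, Pt L ((r + 1 : ℕ) * (3 * A)) w, fun x => by simp, fun _ => le_rfl,
        Pt_nonneg h (by positivity) hw, fun _ => by positivity, ?_⟩
      rw [Ex_Pt h]
      exact hc.trans (le_max_left _ _)
    · obtain ⟨g, k, e, g0, k0, g1, k1, k2⟩ := split h hA hK hl0 hl hL hw hwK hc
      obtain ⟨g', k', e', g0', k0', g1', k2'⟩ := ih (θ / 2) k k0 k1 (by linarith only [k2, hm])
      refine ⟨fun x => Pt L (r * (3 * A)) g x + g' x, k', fun x => ?_,
        fun x => add_nonneg (Pt_nonneg h ht g0 x) (g0' x), k0', fun x => ?_, ?_⟩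
      · have e1 : ((r + 1 : ℕ) : ℝ) * (3 * A) = r * (3 * A) + 3 * A := by push_cast; ring
        rw [e1, Pt_Pt, show Pt L (3 * A) w = fun x => g x + k x from funext e, Pt_add, e']
        ring
      · have a1 := Pt_le h ht g1 x
        have a2 := mul_le_mul_of_nonneg_right hm (Real.exp_pos (K / 2)).le
        have a3 := g1' x
        linarith only [a1, a2, a3]
      · rw [pow_succ', ← div_div]
        exact k2'

/-- the levels -/
lemma levels (h : Rev L π) {K0 A : ℝ} (hA : 0 < A) (hK : 30 ≤ K0) (r : ℕ)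
    (hr : (r : ℝ) ≤ K0 / 10) (hL : ∀ K, K0 ≤ K → Lev L π K (K / 8) A) (j : ℕ) :
    ∀ w : X → ℝ, (∀ x, 0 ≤ w x) → (∀ x, w x ≤ Real.exp (2 ^ j * (K0 - 2) + 2)) →
    ex π w ≤ 1 →
    ∃ g k : X → ℝ, (∀ x, Pt L (j * (r * (3 * A))) w x = g x + k x) ∧ (∀ x, 0 ≤ g x) ∧
      (∀ x, 0 ≤ k x) ∧ (∀ x, g x ≤ Real.exp K0) ∧ ex π k ≤ j / 2 ^ r := by
  induction j with
  | zero =>
    intro w hw hwK _
    refine ⟨w, fun _ => 0, fun x => by simp [Pt_zero], hw, fun _ => le_rfl,
      fun x => by simpa using hwK x, ?_⟩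
    rw [Ex_const h]; simp
  | succ j ih =>
    intro w hw hwK hm
    have h2 : (1 : ℝ) ≤ 2 ^ j := one_le_pow₀ (by norm_num)
    have h3 : K0 - 2 ≤ 2 ^ j * (K0 - 2) := le_mul_of_one_le_left (by linarith) h2
    set K : ℝ := 2 ^ (j + 1) * (K0 - 2) + 2 with hKd
    have hK2 : K = 2 * (2 ^ j * (K0 - 2)) + 2 := by rw [hKd]; ring
    have hl2 := Real.log_two_lt_d9
    have hl0 : 0 ≤ r * Real.log 2 := by have := Real.log_two_gt_d9; positivity
    have hl1 : r * Real.log 2 ≤ r := mul_le_of_le_one_right (Nat.cast_nonneg r) (by linarith)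
    obtain ⟨g, k, e, g0, k0, g1, k1⟩ := rerun h hA (K := K) (l := r * Real.log 2)
      (by linarith) hl0 (by linarith) (hL _ (by linarith)) r 1 w hw hwK hm
    have ht : 0 ≤ (r : ℝ) * (3 * A) := by positivity
    have hk : ex π k ≤ 1 / 2 ^ r := by
      refine k1.trans (max_le (le_of_eq ?_) le_rfl)
      rw [Real.exp_neg, Real.exp_nat_mul, Real.exp_log two_pos, one_div]
    have hg : ex π g ≤ 1 := by
      have a1 : ex π g ≤ ex π (Pt L (r * (3 * A)) w) :=
        Ex_mono h fun x => by rw [e]; linarith only [k0 x]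
      rw [Ex_Pt h] at a1
      exact a1.trans hm
    obtain ⟨g', k', e', g0', k0', g1', k1'⟩ := ih g g0 (fun x => by
      refine (g1 x).trans ?_
      have a1 : 2 ^ j * (K0 - 2) + 2 = 1 + K / 2 := by rw [hK2]; ring
      rw [a1, Real.exp_add]
      refine mul_le_mul_of_nonneg_right ?_ (Real.exp_pos _).le
      linarith [Real.add_one_le_exp (1 : ℝ)]) hg
    have ht' : 0 ≤ (j : ℝ) * (r * (3 * A)) := by positivity
    refine ⟨g', fun x => k' x + Pt L (j * (r * (3 * A))) k x, fun x => ?_, g0',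
      fun x => add_nonneg (k0' x) (Pt_nonneg h ht' k0 x), g1', ?_⟩
    · have e1 : ((j + 1 : ℕ) : ℝ) * (r * (3 * A)) = j * (r * (3 * A)) + r * (3 * A) := by
        push_cast; ring
      rw [e1, Pt_Pt, show Pt L (r * (3 * A)) w = fun x => g x + k x from funext e, Pt_add, e']
      ring
    · rw [Ex_add, Ex_Pt h]
      push_cast
      rw [add_div]
      linarith only [k1', hk]

lemma dn_zero (x y : X) : dn L π x 0 y = if x = y then (π y)⁻¹ else 0 := by
  unfold dn
  rw [ker_zero, Matrix.one_apply]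
  split_ifs <;> simp

lemma dn_nonneg (h : Rev L π) (x : X) {t : ℝ} (ht : 0 ≤ t) (y : X) : 0 ≤ dn L π x t y :=
  div_nonneg (h.ker_nonneg ht x y) (h.pos y).le

lemma Ex_dn (h : Rev L π) (x : X) (t : ℝ) : ex π (dn L π x t) = 1 := by
  unfold ex dn
  rw [← h.ker_row t x]
  exact Finset.sum_congr rfl fun y _ => mul_div_cancel₀ _ (h.pos y).ne'

lemma dn_eq (h : Rev L π) (x : X) (t : ℝ) (y : X) : dn L π x t y = Pt L t (dn L π x 0) y := by
  unfold Pt
  simp only [dn_zero, mul_ite, mul_zero, Finset.sum_ite_eq, Finset.mem_univ, if_true]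
  unfold dn
  have a := h.ker_rev t x y
  have hx := (h.pos x).ne'
  have hy := (h.pos y).ne'
  field_simp
  linear_combination a

lemma TV_eq (h : Rev L π) (t : ℝ) (x : X) :
    2 * tv L π t x = ex π (fun y => |dn L π x t y - 1|) := by
  unfold tv tvM ex dn
  rw [← mul_assoc, show (2 : ℝ) * (1 / 2) = 1 by norm_num, one_mul]
  refine Finset.sum_congr rfl fun y _ => ?_
  have hg := h.pos y
  rw [← abs_of_pos hg, ← abs_mul, abs_of_pos hg]
  congr 1
  field_simp

lemma dn_zero_le (h : Rev L π) (x : X) {K : ℝ} (hK : -Real.log (π x) ≤ K) (y : X) :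
    dn L π x 0 y ≤ Real.exp K := by
  rw [dn_zero]
  split_ifs with hxy
  · subst hxy
    have a1 : (π x)⁻¹ = Real.exp (-Real.log (π x)) := by
      rw [Real.exp_neg, Real.exp_log (h.pos x)]
    rw [a1]
    exact Real.exp_le_exp.2 hK
  · exact (Real.exp_pos _).le

omit [DecidableEq X] in
lemma neg_log_nonneg (h : Rev L π) (x : X) : 0 ≤ -Real.log (π x) := by
  have a : π x ≤ 1 := by
    rw [← h.sum]
    exact Finset.single_le_sum (f := π) (fun z _ => (h.pos z).le) (Finset.mem_univ x)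
  linarith [Real.log_nonpos (h.pos x).le a]

/-- a modified log-Sobolev inequality bounds the total variation distance -/
theorem tv_sq_of_mlsi (h : Rev L π) {A : ℝ} (hA : 0 < A) (hM : MLSI L π A) {t : ℝ} (ht : 0 ≤ t)
    (x : X) : tv L π t x ^ 2 ≤ Real.exp (-(t / A)) * (-Real.log (π x)) / 2 := by
  have hd := decay h hA (neg_log_nonneg h x) le_rfl (hM.lev _) (dn_nonneg h x le_rfl)
    (dn_zero_le h x le_rfl) (Ex_dn h x 0) ht
  have e : Pt L t (dn L π x 0) = dn L π x t := funext fun y => (dn_eq h x t y).symm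
  rw [e] at hd
  have hp := pinsker h (dn L π x t) (dn_nonneg h x ht) (Ex_dn h x t)
  rw [← TV_eq h] at hp
  nlinarith only [hd, hp]

/-- the mixing bound from the level inequalities -/
theorem tv_of_levels (h : Rev L π)
    {K0 A B : ℝ} (hA : 0 < A) (hK : 30 ≤ K0) (j : ℕ) (hj : (j : ℝ) + 3 ≤ K0 / 10)
    (hB : B ≤ 2 ^ j) (hmin : ∀ x, -Real.log (π x) ≤ B)
    (hL : ∀ K, K0 ≤ K → Lev L π K (K / 8) A) (hl : Lev L π (K0 + 1) (1 / 100) A)
    {t : ℝ} (ht : A * (3 * j * (j + 3) + Real.log (200 * (K0 + 1))) ≤ t) (x : X) :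
    tv L π t x ≤ 1 / 4 := by
  have hw0 : ∀ y, 0 ≤ dn L π x 0 y := dn_nonneg h x le_rfl
  have hwK : ∀ y, dn L π x 0 y ≤ Real.exp (2 ^ j * (K0 - 2) + 2) := dn_zero_le h x (by
    refine (hmin x).trans (hB.trans ?_)
    have a2 : (2 : ℝ) ^ j * 1 ≤ 2 ^ j * (K0 - 2) :=
      mul_le_mul_of_nonneg_left (by linarith) (by positivity)
    linarith)
  obtain ⟨g, k, e, g0, h0, g1, h1⟩ := levels h hA hK (j + 3) (by push_cast; exact hj) hL j
    (dn L π x 0) hw0 hwK (Ex_dn h x 0).le
  set t1 : ℝ := j * (((j + 3 : ℕ) : ℝ) * (3 * A)) with ht1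
  have ht10 : 0 ≤ t1 := by positivity
  have hh : ex π k ≤ 1 / 8 := by
    refine h1.trans ?_
    rw [div_le_iff₀ (by positivity), pow_add]
    have a1 : (j : ℝ) ≤ 2 ^ j := by exact_mod_cast (Nat.lt_two_pow_self (n := j)).le
    linarith
  have hh0 := Ex_nonneg h h0
  set θ := ex π g with hθ
  have hθ1 : θ + ex π k = 1 := by
    rw [hθ, ← Ex_add, ← show Pt L t1 (dn L π x 0) = fun y => g y + k y from funext e,
      Ex_Pt h, Ex_dn h]
  have hθ0 : 0 < θ := by linarith
  set f : X → ℝ := fun y => θ⁻¹ * g y with hf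
  have hf0 : ∀ y, 0 ≤ f y := fun y => mul_nonneg (inv_pos.2 hθ0).le (g0 y)
  have hf1 : ex π f = 1 := by rw [hf, Ex_smul, ← hθ, inv_mul_cancel₀ hθ0.ne']
  have hfK : ∀ y, f y ≤ Real.exp (K0 + 1) := fun y => by
    have a1 : θ⁻¹ ≤ Real.exp 1 := by
      rw [inv_le_comm₀ hθ0 (Real.exp_pos _)]
      have a2 : (Real.exp 1)⁻¹ ≤ 2⁻¹ :=
        inv_anti₀ two_pos (by linarith [Real.add_one_le_exp (1 : ℝ)])
      linarith
    rw [add_comm, Real.exp_add]
    exact mul_le_mul a1 (g1 y) (g0 y) (Real.exp_pos _).le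
  set s := t - t1 with hs
  have hpos : 0 < 200 * (K0 + 1) := by linarith
  have hlog : 0 ≤ Real.log (200 * (K0 + 1)) := Real.log_nonneg (by linarith)
  have hsA : A * Real.log (200 * (K0 + 1)) ≤ s := by
    have : t1 = A * (3 * j * (j + 3)) := by rw [ht1]; push_cast; ring
    rw [hs, this]; linarith
  have hs0 : 0 ≤ s := (mul_nonneg hA.le hlog).trans hsA
  have hd := decay h hA (by linarith) (by norm_num) hl hf0 hfK hf1 hs0
  have hd1 : Real.exp (-(s / A)) * (K0 + 1) ≤ 1 / 200 := by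
    have a1 : Real.exp (-(s / A)) ≤ (200 * (K0 + 1))⁻¹ := by
      rw [← Real.exp_log hpos, ← Real.exp_neg]
      refine Real.exp_le_exp.2 (neg_le_neg ?_)
      rw [le_div_iff₀ hA]; linarith
    have a2 := mul_le_mul_of_nonneg_right a1 (show 0 ≤ K0 + 1 by linarith)
    have a3 : (200 * (K0 + 1))⁻¹ * (K0 + 1) = 1 / 200 := by
      have : K0 + 1 ≠ 0 := by linarith
      field_simp
    linarith
  have hp := pinsker h (Pt L s f) (Pt_nonneg h hs0 hf0) (by rw [Ex_Pt h, hf1])
  have hp1 : ex π (fun y => |Pt L s f y - 1|) ≤ 1 / 4 :=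
    (abs_le_of_sq_le_sq' (hp.trans (by linarith)) (by norm_num : (0 : ℝ) ≤ 1 / 4)).2
  have hdens : ∀ y, dn L π x t y - 1
      = θ * (Pt L s f y - 1) + Pt L s k y - ex π k := fun y => by
    have a1 := dn_eq h x t y
    have a2 : t = s + t1 := by rw [hs]; ring
    have a3 : θ * Pt L s f y = Pt L s g y := by
      rw [hf, Pt_smul, ← mul_assoc, mul_inv_cancel₀ hθ0.ne', one_mul]
    rw [a1, a2, Pt_Pt, show Pt L t1 (dn L π x 0) = fun y => g y + k y from funext e, Pt_add]
    linarith only [a3, hθ1]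
  have hb : ex π (fun y => |dn L π x t y - 1|)
      ≤ ex π (fun y => (1 * |Pt L s f y - 1| + Pt L s k y) + ex π k) :=
    Ex_mono h fun y => by
      rw [hdens y]
      have a1 := Pt_nonneg h hs0 h0 y
      have a2 : |θ * (Pt L s f y - 1)| ≤ 1 * |Pt L s f y - 1| := by
        rw [abs_mul, abs_of_pos hθ0]
        exact mul_le_mul_of_nonneg_right (by linarith) (abs_nonneg _)
      have a3 := abs_le.1 a2
      rw [abs_le]
      constructor <;> linarith only [a1, a3.1, a3.2, hh0]
  rw [Ex_add, Ex_add, Ex_const h, Ex_smul, Ex_Pt h] at hb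
  linarith only [hb, TV_eq h t x, hp1, hh]

end basic

end Vale.Agent.N150D.Ent
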