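import Vale.Agent.N150D.EntSK
import Vale.Agent.N150D.Lazy
import Vale.Agent.N150D.Spec
import Vale.Agent.N150D.Defs

/-! Lower bounds of the order `log n` for the mixing of the heat-bath dynamics, with a constant
which does not depend on the precision. -/

open Finset Filter Topology

namespace Vale.Agent.P150.Low

variable {n : ℕ} {J : Fin n → Fin n → ℝ}

/-- the deterministic inequality at the precision `ε` -/
theorem mixing_epsD (hn : 0 < n) (hJ : ∀ i j, J i j = J j i) {lam r : ℝ}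
    (hlam : ∀ v : Fin n → ℝ, |∑ i, ∑ j, Jo J i j * v i * v j| ≤ lam * ∑ i, v i ^ 2)
    (hr : ∀ i, ∑ j, Jo J i j ^ 2 ≤ r) (hs : ∀ i j, |Jo J i j| ≤ 1 / 4)
    {C : ℝ} (hC : 0 < C) (hCl : 2 * (lam + 80 * r) ≤ C) {c0 ε : ℝ} (hc0 : 0 < c0)
    (hg : c0 ≤ gap J (fun _ => 0)) (hε : ε ≤ 1) (t : ℝ) (ht : 0 ≤ t)
    (htv : ∀ x, tvDist J (fun _ => 0) t x ≤ ε) :
    (1 - ε) * n * Real.exp (-(2 * t)) ≤ 16 / C * Real.exp (C * t) + 4 / c0 := by
  set b : Fin n → ℝ := fun _ => 0 with hb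
  have hn' : (0 : ℝ) < n := by exact_mod_cast hn
  obtain ⟨x, hx⟩ : ∃ x : Cfg n, (n : ℝ) * Real.exp (-t)
      ≤ ∑ i, sp (x i) * Pt J b t (fun y => sp (y i)) x := by
    by_contra hcon
    push Not at hcon
    have h1 : ex J b (fun x => ∑ i, sp (x i) * Pt J b t (fun y => sp (y i)) x)
        < (n : ℝ) * Real.exp (-t) := by
      calc ex J b (fun x => ∑ i, sp (x i) * Pt J b t (fun y => sp (y i)) x)
          < ∑ x, gibbs J b x * ((n : ℝ) * Real.exp (-t)) := by
            unfold ex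
            apply Finset.sum_lt_sum_of_nonempty Finset.univ_nonempty
            intro x _
            exact mul_lt_mul_of_pos_left (hcon x) (gibbs_pos J b x)
        _ = (n : ℝ) * Real.exp (-t) := by rw [← Finset.sum_mul, gibbs_sum, one_mul]
    have h2 : ex J b (fun x => ∑ i, sp (x i) * Pt J b t (fun y => sp (y i)) x)
        = ∑ i, ex J b (fun x => sp (x i) * Pt J b t (fun y => sp (y i)) x) := by
      unfold ex
      rw [Finset.sum_comm]
      apply Finset.sum_congr rfl; intro x _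
      rw [Finset.mul_sum]
    have h3 : (n : ℝ) * Real.exp (-t)
        ≤ ∑ i, ex J b (fun x => sp (x i) * Pt J b t (fun y => sp (y i)) x) := by
      calc (n : ℝ) * Real.exp (-t) = ∑ _i : Fin n, Real.exp (-t) := by
            rw [Finset.sum_const, Finset.card_univ, Fintype.card_fin, nsmul_eq_mul]
        _ ≤ _ := Finset.sum_le_sum fun i _ => auto_spin b hJ t ht i
    linarith only [h3, h2, h1]
  set f : Cfg n → ℝ := fun y => ∑ i, sp (x i) * sp (y i) with hf
  set m : ℝ := Pt J b t f x with hm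
  have hmx : (n : ℝ) * Real.exp (-t) ≤ m := by
    rw [hm, hf, Pt_lin b t (fun i => sp (x i)) x]; exact hx
  have hmpos : 0 < m := lt_of_lt_of_le (by positivity) hmx
  have hu := var_flow b hJ hlam hr hs hC hCl f (S := n) (fun y => (sqg_lin x y).le) t ht x
  have hvar : ∑ y, kernel J b t x y * (f y - m) ^ 2
      = Pt J b t (fun z => f z ^ 2) x - Pt J b t f x ^ 2 := by
    have h1 : ∀ y, kernel J b t x y * (f y - m) ^ 2 = kernel J b t x y * f y ^ 2
        - 2 * m * (kernel J b t x y * f y) + m ^ 2 * kernel J b t x y := by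
      intro y; ring
    simp only [h1, Finset.sum_add_distrib, Finset.sum_sub_distrib, ← Finset.mul_sum]
    rw [Semi.kernel_row]
    have h2 : ∑ y, kernel J b t x y * f y = m := rfl
    rw [h2]
    have h3 : ∑ y, kernel J b t x y * f y ^ 2 = Pt J b t (fun z => f z ^ 2) x := rfl
    rw [h3]
    ring
  have hmean : ex J b f = 0 := by
    have h1 : ex J b f = ∑ i, sp (x i) * ex J b (fun y => sp (y i)) := by
      unfold ex
      simp only [hf, Finset.mul_sum]
      rw [Finset.sum_comm]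
      apply Finset.sum_congr rfl; intro i _
      apply Finset.sum_congr rfl; intro y _
      ring
    rw [h1]
    apply Finset.sum_eq_zero; intro i _
    rw [hb, Poinc.ex_sp_zero, mul_zero]
  have hW2 : ex J b (fun y => f y ^ 2) ≤ n / c0 := by
    have h1 := Semi.gap_mul_var_le (J := J) b hJ f
    rw [Semi.var_eq, hmean] at h1
    have h2 := Poinc.dir_lin_le J b hJ (fun i => sp (x i))
    have h3 : ∑ i, sp (x i) ^ 2 = (n : ℝ) := by
      have : ∀ i, sp (x i) ^ 2 = 1 := fun i => by rw [pow_two]; exact sp_sq (x i)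
      simp only [this, Finset.sum_const, Finset.card_univ, Fintype.card_fin, nsmul_eq_mul, mul_one]
    rw [h3] at h2
    have h4 : gap J b * ex J b (fun y => f y ^ 2) ≤ n := by
      have : (0 : ℝ) ^ 2 = 0 := by norm_num
      rw [this, sub_zero] at h1
      exact h1.trans h2
    have hW0 : 0 ≤ ex J b (fun y => f y ^ 2) := Semi.ex_nonneg b fun _ => sq_nonneg _
    rw [le_div_iff₀' hc0]
    exact (mul_le_mul_of_nonneg_right hg hW0).trans h4
  have htv2 := tv_lower (fun y => kernel J b t x y) (fun y => gibbs J b y) f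
    (fun y => Semi.kernel_nonneg J b ht x y) (fun y => (gibbs_pos J b y).le)
    (Semi.kernel_row J b t x) (gibbs_sum J b) hmpos
  have htv3 : (1 / 2 : ℝ) * ∑ y, |kernel J b t x y - gibbs J b y| ≤ ε := htv x
  rw [hvar] at htv2
  have hexf : ∑ y, gibbs J b y * f y ^ 2 = ex J b (fun y => f y ^ 2) := rfl
  rw [hexf] at htv2
  have h34 : (1 - ε) * m ^ 2 ≤ 4 * ((Pt J b t (fun z => f z ^ 2) x - Pt J b t f x ^ 2)
      + ex J b (fun y => f y ^ 2)) := by
    have h1 : 1 - ε ≤ 4 / m ^ 2 * ((Pt J b t (fun z => f z ^ 2) x - Pt J b t f x ^ 2)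
      + ex J b (fun y => f y ^ 2)) := by linarith only [htv3, htv2]
    rw [div_mul_eq_mul_div, le_div_iff₀ (by positivity)] at h1
    exact h1
  have hm2 : ((n : ℝ) * Real.exp (-t)) ^ 2 ≤ m ^ 2 :=
    pow_le_pow_left₀ (by positivity) hmx 2
  have he : ((n : ℝ) * Real.exp (-t)) ^ 2 = n * (n * Real.exp (-(2 * t))) := by
    have : Real.exp (-(2 * t)) = Real.exp (-t) * Real.exp (-t) := by
      rw [← Real.exp_add]; congr 1; ring
    rw [this]; ring
  rw [he] at hm2
  have hm3 := mul_le_mul_of_nonneg_left hm2 (sub_nonneg.2 hε)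
  have hfin : n * ((1 - ε) * n * Real.exp (-(2 * t)))
      ≤ n * (16 / C * Real.exp (C * t) + 4 / c0) := by
    have h1 : 4 * (4 * (n : ℝ) / C * Real.exp (C * t)) = n * (16 / C * Real.exp (C * t)) := by
      ring
    have h2 : 4 * (n / c0) = n * (4 / c0) := by ring
    have h3 : n * ((1 - ε) * n * Real.exp (-(2 * t)))
        = (1 - ε) * (n * (n * Real.exp (-(2 * t)))) := by ring
    rw [mul_add, h3]
    linarith only [h2, h1, hm3, h34, hW2, hu]
  exact le_of_mul_le_mul_left hfin hn'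

/-- the deterministic lower bound on the time -/
theorem time_epsD (hn : 0 < n) (hJ : ∀ i j, J i j = J j i) {lam r : ℝ}
    (hlam : ∀ v : Fin n → ℝ, |∑ i, ∑ j, Jo J i j * v i * v j| ≤ lam * ∑ i, v i ^ 2)
    (hr : ∀ i, ∑ j, Jo J i j ^ 2 ≤ r) (hs : ∀ i j, |Jo J i j| ≤ 1 / 4)
    {C : ℝ} (hC : 1 ≤ C) (hCl : 2 * (lam + 80 * r) ≤ C) {c0 ε : ℝ} (hc0 : 0 < c0)
    (hg : c0 ≤ gap J (fun _ => 0)) (hε : ε < 1) (t : ℝ) (ht : 0 ≤ t)
    (htv : ∀ x, tvDist J (fun _ => 0) t x ≤ ε) :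
    Real.log n - Real.log ((16 + 4 / c0) / (1 - ε)) ≤ (C + 2) * t := by
  have h1 := mixing_epsD hn hJ hlam hr hs (by linarith only [hC]) hCl hc0 hg hε.le t ht htv
  have hn' : (0 : ℝ) < n := by exact_mod_cast hn
  have he : 0 < 1 - ε := sub_pos.2 hε
  have h2 : 16 / C * Real.exp (C * t) ≤ 16 * Real.exp (C * t) := by
    apply mul_le_mul_of_nonneg_right _ (Real.exp_pos _).le
    rw [div_le_iff₀ (by linarith only [hC])]; linarith only [hC]
  have h3 : 4 / c0 * 1 ≤ 4 / c0 * Real.exp (C * t) :=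
    mul_le_mul_of_nonneg_left (Real.one_le_exp (mul_nonneg (by linarith only [hC]) ht))
      (by positivity)
  have h4 : (1 - ε) * n * Real.exp (-(2 * t)) ≤ (16 + 4 / c0) * Real.exp (C * t) := by
    linarith only [h3, h2, h1]
  have h5 : (1 - ε) * n ≤ (16 + 4 / c0) * Real.exp ((C + 2) * t) := by
    have h6 := mul_le_mul_of_nonneg_right h4 (Real.exp_pos (2 * t)).le
    rw [mul_assoc, ← Real.exp_add, neg_add_cancel, Real.exp_zero, mul_one, mul_assoc,
      ← Real.exp_add] at h6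
    rw [show (C + 2) * t = C * t + 2 * t by ring]
    exact h6
  rw [← Real.log_div hn'.ne' (by positivity), Real.log_le_iff_le_exp (by positivity),
    div_le_iff₀ (by positivity), mul_div_assoc', le_div_iff₀ he]
  linarith only [h5]

open Asm in
/-- the couplings are bounded with probability tending to one -/
theorem good_epsD (β : ℝ) (hβ0 : 0 ≤ β) : WHP (fun n => {g |
    (∀ v : Fin n → ℝ, |∑ i, ∑ j, Jo (skJ β g) i j * v i * v j| ≤ β * 3 * ∑ i, v i ^ 2) ∧
    (∀ i, ∑ j, Jo (skJ β g) i j ^ 2 ≤ β ^ 2 * 2) ∧ ∀ i j, |Jo (skJ β g) i j| ≤ 1 / 4}) := by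
  set e : ℝ := 1 / (4 * (β + 1)) with he
  have he0 : 0 < e := by positivity
  have heβ : β * e ≤ 1 / 4 := by
    rw [he, mul_one_div, div_le_iff₀ (by positivity)]
    linarith only []
  refine tendsto_zero_of_inter (A := fun n => {g | ∀ v : Fin n → ℝ,
      |∑ i, ∑ j, gsym g i j * v i * v j| ≤ (2 + 1) * √n * ∑ i, v i ^ 2})
    (B := fun n => {g | ∀ i : Fin n, ∑ j, gsym g i j ^ 2 ≤ (1 + 1) * n})
    (C := fun n => {g | ∀ i j : Fin n, |gsym g i j| ≤ e * √n}) ?_ ?_ ?_
    (goe_norm one_pos) (goe_rows one_pos) (goe_max he0) ?_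
  · intro n
    apply IsClosed.measurableSet
    simp only [Set.ofPred_forall]
    refine isClosed_iInter fun v => isClosed_le ?_ continuous_const
    refine (continuous_finsetSum _ fun i _ => continuous_finsetSum _ fun j _ => ?_).abs
    exact ((continuous_gsym i j).mul continuous_const).mul continuous_const
  · intro n
    apply IsClosed.measurableSet
    simp only [Set.ofPred_forall]
    refine isClosed_iInter fun i => isClosed_le ?_ continuous_const
    exact continuous_finsetSum _ fun j _ => (continuous_gsym i j).pow 2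
  · intro n
    apply IsClosed.measurableSet
    simp only [Set.ofPred_forall]
    refine isClosed_iInter fun i => isClosed_iInter fun j => isClosed_le ?_ continuous_const
    exact (continuous_gsym i j).abs
  filter_upwards [eventually_ge_atTop 900] with n hn
  rintro g ⟨⟨hA, hB'⟩, hC'⟩
  simp only [Set.mem_ofPred_eq] at hA hB' hC' ⊢
  have hn0 : 0 < n := by omega
  have hn1 : (900:ℝ) ≤ n := by exact_mod_cast hn
  have hsq : 0 < √(n:ℝ) := Real.sqrt_pos.mpr (by positivity)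
  have hsq2 : √(n:ℝ) ^ 2 = n := Real.sq_sqrt (by positivity)
  have hb0 : 0 ≤ β / √n := div_nonneg hβ0 hsq.le
  have hJo : ∀ i j, Jo (skJ β g) i j = skJ β g i j := by
    intro i j
    unfold Jo
    by_cases h : j = i
    · subst h; rw [if_pos rfl, skJ_diag]
    · rw [if_neg h]
  refine ⟨?_, ?_, ?_⟩
  · intro v
    simp only [hJo]
    rw [skJ_form, abs_mul, abs_of_nonneg hb0]
    calc β / √n * |∑ i, ∑ j, gsym g i j * v i * v j|
        ≤ β / √n * ((2 + 1) * √n * ∑ i, v i ^ 2) := mul_le_mul_of_nonneg_left (hA v) hb0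
      _ = β * 3 * ∑ i, v i ^ 2 := by field_simp; ring
  · intro i
    simp only [hJo]
    have h1 : ∑ j, skJ β g i j ^ 2 = β ^ 2 / n * ∑ j, gsym g i j ^ 2 := by
      unfold skJ
      rw [Finset.mul_sum]; apply Finset.sum_congr rfl; intro j _
      rw [mul_pow, div_pow, hsq2]
    rw [h1]
    calc β ^ 2 / n * ∑ j, gsym g i j ^ 2 ≤ β ^ 2 / n * ((1 + 1) * n) :=
          mul_le_mul_of_nonneg_left (hB' i) (by (clear * - hn; positivity))
      _ = β ^ 2 * 2 := by field_simp; ring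
  · intro i j
    rw [hJo]
    unfold skJ
    rw [abs_mul, abs_of_nonneg hb0]
    calc β / √n * |gsym g i j| ≤ β / √n * (e * √n) :=
          mul_le_mul_of_nonneg_left (hC' i j) hb0
      _ = β * e := by field_simp
      _ ≤ 1 / 4 := heβ

end Vale.Agent.P150.Low

namespace Vale.Agent.N150D

open Vale.Agent.P150 (Cfg Pairs gibbs genMat skJ WHP)

/-- continuous time -/
theorem low_cont {β c0 : ℝ} (hβ0 : 0 ≤ β) (hc0 : 0 < c0)
    (hgap : WHP fun _ => {g | c0 ≤ P150.gap (skJ β g) (fun _ => 0)}) :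
    ∃ c : ℝ, 0 < c ∧ ∀ ε : ℝ, ε < 1 → WHP fun n => {g | ∀ t, 0 ≤ t →
      (∀ x, tv (heat β g) (mu β g) t x ≤ ε) → c * Real.log n ≤ t} := by
  set C : ℝ := 2 * (β * 3 + 80 * (β ^ 2 * 2)) + 1 with hC
  have hC1 : 1 ≤ C := by
    have : 0 ≤ β * 3 + 80 * (β ^ 2 * 2) := by positivity
    linarith [this]
  refine ⟨1 / (2 * (C + 2)), by positivity, fun ε hε => ?_⟩
  refine P150.MainThm.whp_mono (P150.MainThm.whp_inter (P150.Low.good_epsD β hβ0) hgap) ?_
  filter_upwards [eventually_gt_atTop 0, (Real.tendsto_log_atTop.comp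
    tendsto_natCast_atTop_atTop).eventually_ge_atTop (2 * Real.log ((16 + 4 / c0) / (1 - ε)))]
    with n hn hlog
  rintro g ⟨⟨h1, h2, h3⟩, h4⟩ t ht htv
  have key := P150.Low.time_epsD hn (P150.Asm.skJ_symm β g) h1 h2 h3 hC1 (by linarith only [])
    hc0 h4 hε t ht htv
  have hlog' : 2 * Real.log ((16 + 4 / c0) / (1 - ε)) ≤ Real.log n := hlog
  rw [div_mul_eq_mul_div, one_mul, div_le_iff₀ (by positivity)]
  linarith only [key, hlog']

lemma step_one_heat {n : ℕ} (β : ℝ) (g : Pairs n → ℝ) :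
    step 1 (heat β g) = Lazy.stepMat (skJ β g) (fun _ => 0) := by
  simp [step, heat, Lazy.stepMat]

/-- both times, with the same constant -/
theorem low_two {β c0 : ℝ} (hβ0 : 0 ≤ β) (hc0 : 0 < c0)
    (hgap : WHP fun _ => {g | c0 ≤ P150.gap (skJ β g) (fun _ => 0)}) :
    ∃ c : ℝ, 0 < c ∧ ∀ ε : ℝ, ε < 1 → WHP fun n => {g |
      (∀ t, 0 ≤ t → (∀ x, tv (heat β g) (mu β g) t x ≤ ε) → c * Real.log n ≤ t) ∧
      ∀ k : ℕ, (∀ x, tvM (step 1 (heat β g) ^ k) (mu β g) x ≤ ε) → c * n * Real.log n ≤ k} := by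
  obtain ⟨c, hc, h⟩ := low_cont hβ0 hc0 hgap
  refine ⟨c / 4, by positivity, fun ε hε => ?_⟩
  have hη : 0 < (1 - ε) / 2 := by linarith
  refine P150.MainThm.whp_mono (h (ε + (1 - ε) / 2) (by linarith)) ?_
  filter_upwards [eventually_gt_atTop 0, (Real.tendsto_log_atTop.comp
    tendsto_natCast_atTop_atTop).eventually_ge_atTop (2 * (4 / ((1 - ε) / 2)) / c)]
    with n hn hlog g hg
  have hn' : (1 : ℝ) ≤ n := by exact_mod_cast hn
  have hl0 : 0 ≤ Real.log n := Real.log_natCast_nonneg n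
  have hcl : 0 ≤ c * Real.log n := mul_nonneg hc.le hl0
  refine ⟨fun t ht htv => ?_, fun k hk => ?_⟩
  · have := hg t ht fun x => (htv x).trans (by linarith)
    linarith
  · have hJ := P150.Asm.skJ_symm β g
    have hS := Lazy.stepMat_sto (b := fun _ => 0) hJ hn
    have a1 := hg ((2 * k + 4 / ((1 - ε) / 2)) / n) (by positivity) fun x => by
      have a2 := Disc.cont_le_of hS (c := n) (t := (2 * k + 4 / ((1 - ε) / 2)) / n) hη (k := k)
        (by rw [div_mul_cancel₀ _ (by positivity)]) x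
      rw [← Lazy.genMat_eq hn, ← step_one_heat] at a2
      exact a2.trans (add_le_add (hk x) le_rfl)
    rw [le_div_iff₀ (by positivity)] at a1
    have a3 : 2 * (4 / ((1 - ε) / 2)) / c ≤ Real.log n := hlog
    rw [div_le_iff₀' hc] at a3
    have a4 : c * Real.log n * 1 ≤ c * Real.log n * n := mul_le_mul_of_nonneg_left hn' hcl
    nlinarith only [a1, a3, a4]

/-- discrete time -/
theorem low_disc {β c0 : ℝ} (hβ0 : 0 ≤ β) (hc0 : 0 < c0)
    (hgap : WHP fun _ => {g | c0 ≤ P150.gap (skJ β g) (fun _ => 0)}) :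
    ∃ c : ℝ, 0 < c ∧ ∀ ε : ℝ, ε < 1 → WHP fun n => {g |
      ∀ k : ℕ, (∀ x, tvM (step 1 (heat β g) ^ k) (mu β g) x ≤ ε) → c * n * Real.log n ≤ k} :=
  (low_two hβ0 hc0 hgap).imp fun _ h => ⟨h.1, fun ε hε =>
    P150.MainThm.whp_mono (h.2 ε hε) (Eventually.of_forall fun _ _ hg => hg.2)⟩

/-- the lower bounds for the two mixing times -/
theorem low_mix {β c0 : ℝ} (hβ0 : 0 ≤ β) (hc0 : 0 < c0)
    (hgap : WHP fun _ => {g | c0 ≤ P150.gap (skJ β g) (fun _ => 0)}) :
    ∃ c : ℝ, 0 < c ∧ ∀ ε : ℝ, 0 < ε → ε < 1 → WHP fun n => {g |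
      c * Real.log n ≤ tmix (heat β g) (mu β g) ε ∧
      c * Real.log n ≤ kmix (step 1 (heat β g)) (mu β g) ε / n} := by
  obtain ⟨c, hc, h⟩ := low_two hβ0 hc0 hgap
  obtain ⟨δ, hδ, hl⟩ := Lazy.whp_lazy β
  refine ⟨c, hc, fun ε hε0 hε => ?_⟩
  obtain ⟨A, _, hA⟩ := Disc.upper.{0} hε0 hδ
  refine P150.MainThm.whp_mono
    (P150.MainThm.whp_inter (P150.MainThm.whp_inter (h ε hε) hl) hgap) ?_
  filter_upwards [eventually_gt_atTop 0] with n hn
  rintro g ⟨⟨⟨h1, h2⟩, h3⟩, h4⟩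
  have hn' : (0 : ℝ) < n := by exact_mod_cast hn
  have hJ := P150.Asm.skJ_symm β g
  have hR : Rev (heat β g) (mu β g) := Ent.rev_genMat hJ
  have hg : 0 < gap (heat β g) (mu β g) := by
    have e : gap (heat β g) (mu β g) = P150.gap (skJ β g) (fun _ => 0) := Ent.gap_genMat
    rw [e]
    exact hc0.trans_le h4
  refine ⟨h1 _ (tmix_nonneg _ _ _) (tv_tmix (hR.mixes hg hε0)), ?_⟩
  obtain ⟨T, hT, hT1⟩ := hR.mixes hg (ε := 1 / 4) (by norm_num)
  have a1 := (hA (Cfg n) (Lazy.stepMat (skJ β g) fun _ => 0) (mu β g) n hn'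
    (Lazy.stepMat_sto hJ hn) (Lazy.stepMat_revL hJ hn) h3 T hT
    (by rw [← Lazy.genMat_eq hn]; exact hT1)).1
  rw [← step_one_heat] at a1
  have a2 := h2 _ a1
  rw [le_div_iff₀ hn']
  linarith only [a2]

lemma eq_heat_of_like {n : ℕ} {β : ℝ} {g : Pairs n → ℝ} {L : Matrix (Cfg n) (Cfg n) ℝ}
    (h : Like 1 β g L) : L = heat β g := by
  have hR : Rev (heat β g) (mu β g) := Ent.rev_genMat (P150.Asm.skJ_symm β g)
  have off : ∀ x y, x ≠ y → L x y = heat β g x y := fun x y hxy => by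
    have := h.2 x y hxy
    linarith only [this.1, this.2]
  ext x y
  by_cases hxy : x = y
  · subst hxy
    have a1 := h.1.row x
    have a2 := hR.row x
    rw [← Finset.add_sum_erase _ _ (Finset.mem_univ x)] at a1 a2
    have a3 : ∑ y ∈ Finset.univ.erase x, L x y = ∑ y ∈ Finset.univ.erase x, heat β g x y :=
      Finset.sum_congr rfl fun y hy => off x y (Finset.ne_of_mem_erase hy).symm
    linarith only [a1, a2, a3]
  · exact off x y hxy

/-- the lower half of the last clause -/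
theorem low_unif {β c0 : ℝ} (hβ0 : 0 ≤ β) (hc0 : 0 < c0)
    (hgap : WHP fun _ => {g | c0 ≤ P150.gap (skJ β g) (fun _ => 0)}) :
    ∃ c : ℝ, 0 < c ∧ ∀ ε : ℝ, 0 < ε → ε < 1 →
      Unif 1 β ε fun n _ t k => c * Real.log n ≤ t ∧ c * Real.log n ≤ k :=
  (low_mix hβ0 hc0 hgap).imp fun _ h => ⟨h.1, fun ε h0 h1 =>
    P150.MainThm.whp_mono (h.2 ε h0 h1) (Eventually.of_forall fun _ _ hg L hL => by
      rw [eq_heat_of_like hL]
      exact hg)⟩

end Vale.Agent.N150D
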