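import Vale.Agent.N150D.Zero
import Vale.Agent.N150D.DiscSK
import Vale.Agent.P150W51.Disc
import Vale.Agent.P150.H185.MainAT

/-!
The discrete chains: the upper bound with a constant which does not depend on the precision, and
the comparison with continuous time in the whole class of dynamics.
-/

namespace Vale.Agent.N150D.Pre

open Finset Filter Topology
open Vale.Agent.P150 (Cfg Pairs gibbs genMat skJ WHP resample gibbs_pos)

variable {n : ℕ}

theorem step_heat (β : ℝ) (g : Pairs n → ℝ) :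
    step 1 (heat β g) = Lazy.stepMat (skJ β g) fun _ => 0 := by
  rw [step, one_mul]
  rfl

theorem pow_mul_eq {J : Fin n → Fin n → ℝ} {b : Fin n → ℝ} (hn : 0 < n) (k : ℕ) (f : Cfg n → ℝ)
    (x : Cfg n) : ∑ y, (Lazy.stepMat J b ^ k) x y * f y = (P150W.step J b)^[k] f x := by
  induction k generalizing f with
  | zero => simp [Matrix.one_apply]
  | succ k ih =>
    rw [pow_succ, Function.iterate_succ_apply, ← ih]
    simp only [Matrix.mul_apply, sum_mul]
    rw [sum_comm]
    refine sum_congr rfl fun z _ => ?_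
    simp only [mul_assoc]
    rw [← mul_sum, Lazy.stepMat_mul hn]
    rfl

theorem pow_eq_dn {J : Fin n → Fin n → ℝ} {b : Fin n → ℝ} (hJ : ∀ i j, J i j = J j i)
    (hn : 0 < n) (k : ℕ) (x y : Cfg n) :
    (Lazy.stepMat J b ^ k) x y = gibbs J b y * P150W.dn J b k x y := by
  have h := pow_mul_eq (J := J) (b := b) hn k (fun z => if z = y then 1 else 0) x
  rw [P150W.iter_eq hJ] at h
  simpa [P150.ex] using h

theorem tvM_sq_le {J : Fin n → Fin n → ℝ} {b : Fin n → ℝ} (hJ : ∀ i j, J i j = J j i)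
    (hn : 0 < n) {C : ℝ} (hC : 0 < C)
    (hA : ∀ f : Cfg n → ℝ, (∀ x, 0 ≤ f x) →
      P150.ex J b (fun x => f x * Real.log (f x)) - P150.ex J b f * Real.log (P150.ex J b f)
        ≤ C * ∑ i, (P150.ex J b (fun x => f x * Real.log (f x))
          - P150.ex J b (fun x => resample J b i f x * Real.log (resample J b i f x))))
    (hg : ∀ x, -Real.log (gibbs J b x) ≤ 4 * n) {k : ℕ} (hk : 2 * C * n * Real.log n ≤ k)
    (x : Cfg n) : (2 * tvM (Lazy.stepMat J b ^ k) (gibbs J b) x) ^ 2 ≤ 8 / n := by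
  have hn' : (0 : ℝ) < n := by positivity
  have h1 := P150.Semi.pinsker b (P150W.dn J b k x) (P150W.dn_nonneg k x) (P150W.ex_dn hJ hn k x)
  have h2 := (P150W.ent_step hJ hn hC hA x k).trans
    (mul_le_mul_of_nonneg_left (hg x) (Real.exp_pos _).le)
  have h3 : Real.exp (-(k / (C * n))) ≤ ((n : ℝ) * n)⁻¹ := by
    rw [← Real.exp_log (show (0 : ℝ) < ((n : ℝ) * n)⁻¹ by positivity), Real.exp_le_exp,
      Real.log_inv, Real.log_mul (by positivity) (by positivity), neg_le_neg_iff,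
      le_div_iff₀ (by positivity)]
    linarith
  have h4 : ((n : ℝ) * n)⁻¹ * (4 * n) = 4 / n := by field_simp
  have h5 := mul_le_mul_of_nonneg_right h3 (show (0 : ℝ) ≤ 4 * n by positivity)
  have e : 2 * tvM (Lazy.stepMat J b ^ k) (gibbs J b) x =
      ∑ y, gibbs J b y * |P150W.dn J b k x y - 1| := by
    rw [tvM, ← mul_assoc, show (2 : ℝ) * (1 / 2) = 1 by norm_num, one_mul]
    refine sum_congr rfl fun y _ => ?_
    rw [pow_eq_dn hJ hn, ← mul_sub_one, abs_mul, abs_of_pos (gibbs_pos J b y)]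
  have h6 : (8 : ℝ) / n = 2 * (4 / n) := by ring
  rw [e]
  linarith

/-- For `β < 1` the heat-bath chain is `ε`-mixed after `C n log n` attempts, `C` free of `ε`. -/
theorem upper {β : ℝ} (h0 : 0 ≤ β) (h1 : β < 1) :
    ∃ C : ℝ, 0 < C ∧ ∀ ε : ℝ, 0 < ε → WHP fun n => {g | ∀ k : ℕ, C * n * Real.log n ≤ k →
      ∀ x, tvM (step 1 (heat β g) ^ k) (mu β g) x ≤ ε} := by
  obtain ⟨c, C, -, hC, h⟩ := P150.H185.high_zero_at β h0 h1
  obtain ⟨_, -, h2⟩ := P150.H185.sk_mlsi β h0 h1
  have h3 : WHP fun n => {g | ∀ x, -Real.log (gibbs (skJ β g) (fun _ => 0) x) ≤ 4 * n} :=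
    h2.mono fun _ h => h.2
  refine ⟨2 * C, by positivity, fun ε hε => DiscSK.whp_mono (DiscSK.whp_inter h h3) ?_⟩
  filter_upwards [eventually_gt_atTop 0,
    tendsto_natCast_atTop_atTop.eventually_ge_atTop (2 / ε ^ 2)] with n hn hn2 g h k hk x
  have a1 := tvM_sq_le (DiscSK.skJ_symm β g) hn hC h.1.2.2.2.2.2.1 h.2 hk x
  have a2 : (8 : ℝ) / n ≤ (2 * ε) ^ 2 := by
    rw [div_le_iff₀ (by positivity)] at hn2 ⊢
    linarith
  have a3 := (abs_le_of_sq_le_sq' (a1.trans a2) (by positivity)).2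
  rw [step_heat, mu]
  linarith

/-- The same for the mixing number of attempts. -/
theorem kmix_upper {β : ℝ} (h0 : 0 ≤ β) (h1 : β < 1) :
    ∃ C : ℝ, 0 < C ∧ ∀ ε : ℝ, 0 < ε → WHP fun n => {g |
      (kmix (step 1 (heat β g)) (mu β g) ε : ℝ) / n ≤ C * Real.log n} := by
  obtain ⟨C, hC, h⟩ := upper h0 h1
  refine ⟨C + 1, by positivity, fun ε hε => DiscSK.whp_mono (h ε hε) ?_⟩
  filter_upwards [eventually_gt_atTop 0, DiscSK.tendsto_log.eventually_ge_atTop 1]
    with n hn hl g hg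
  have hn1 : (1 : ℝ) ≤ n := by exact_mod_cast hn
  have a1 : (kmix (step 1 (heat β g)) (mu β g) ε : ℝ) ≤ ⌈C * n * Real.log n⌉₊ := by
    exact_mod_cast kmix_le_of (hg _ (Nat.le_ceil _))
  have a2 := Nat.ceil_lt_add_one (show 0 ≤ C * n * Real.log n by positivity)
  have a3 : 1 ≤ Real.log n * n := one_le_mul_of_one_le_of_one_le hl hn1
  rw [Set.mem_ofPred_eq, div_le_iff₀ (by positivity)]
  linarith

/-- The number of attempts divided by `n` and the mixing time are comparable, uniformly in the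
class of dynamics. -/
theorem disc_of_cont (K β : ℝ) {ε : ℝ} (hε : 0 < ε) (hε' : ε < 1 / 2) :
    ∃ C : ℝ, 0 < C ∧ WHP fun n => {g | ∀ L, Like K β g L →
      tmix L (mu β g) (1 / 4) ≤ C * (kmix (step K L) (mu β g) ε / n + 1) ∧
      (kmix (step K L) (mu β g) ε : ℝ) / n ≤ C * (tmix L (mu β g) (1 / 4) + 1)} := by
  obtain ⟨δ, hδ, hl⟩ := Lazy.whp_lazy β
  obtain ⟨A, hA, h1⟩ := Disc.two_sided.{0} hε hε' hδ
  refine ⟨A * (|K| + 1), by positivity, DiscSK.whp_mono hl ?_⟩
  filter_upwards [eventually_gt_atTop 0] with n hn g hg L hL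
  have hK := hL.one_le hn
  have hn1 : (1 : ℝ) ≤ n := by exact_mod_cast hn
  have hn' : (0 : ℝ) < n := by positivity
  have a1 := h1 _ (step K L) (mu β g) (K * n) (by positivity) (hL.sto hn)
    (by rw [← hL.eq_smul hn]; exact hL.1)
    (fun x => le_trans (by rw [step_heat]; exact hg x) (hL.diag hn x))
    (by rw [← hL.eq_smul hn]; exact hL.1.mixes (hL.gap_pos hn) (by norm_num))
  rw [← hL.eq_smul hn] at a1
  obtain ⟨-, a1, a2⟩ := a1
  set T := tmix L (mu β g) (1 / 4)
  set k : ℝ := (kmix (step K L) (mu β g) ε : ℝ)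
  have hT : 0 ≤ T := tmix_nonneg _ _ _
  have hk : 0 ≤ k := Nat.cast_nonneg _
  rw [abs_of_pos (by linarith)]
  refine ⟨?_, ?_⟩
  · have b1 : n * T ≤ K * n * T :=
      mul_le_mul_of_nonneg_right (le_mul_of_one_le_left hn'.le hK) hT
    have b2 : A * (k + 1) ≤ A * (K + 1) * (k + n) := by
      have := mul_le_mul (show A ≤ A * (K + 1) by nlinarith) (show k + 1 ≤ k + n by linarith)
        (by positivity) (by positivity)
      exact this
    have b3 : A * (K + 1) * (k / n + 1) = A * (K + 1) * (k + n) / n := by field_simp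
    rw [b3, le_div_iff₀' hn']
    linarith
  · rw [div_le_iff₀ hn']
    refine a2.trans ?_
    have b1 : K * n * T + 1 ≤ (K + 1) * (T + 1) * n := by
      have : 0 ≤ n * T := by positivity
      have : 0 ≤ K * n := by positivity
      nlinarith
    have := mul_le_mul_of_nonneg_left b1 hA.le
    linarith

end Vale.Agent.N150D.Pre
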