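import Vale.Agent.N150D.Spec
import Vale.Agent.P150.Bdl.B13

/-!
Single-flip dynamics on the cube: general rates, the heat-bath rates, the Metropolis rates.
-/

namespace Vale.Agent.N150D.Fl

open Finset Vale.Agent.P150

variable {n : ℕ}

/-- The generator `f ↦ ∑ i, r i x (f (x with the spin i flipped) - f x)`, as a matrix. -/
noncomputable def flipGen (r : Fin n → Cfg n → ℝ) : Matrix (Cfg n) (Cfg n) ℝ :=
  fun x y => ∑ i, r i x * ((if P150.flip x i = y then 1 else 0) - (if x = y then 1 else 0))

/-- The heat-bath flip rate `exp (-x_i h_i) / (2 cosh h_i)`. -/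
noncomputable def heat (J : Fin n → Fin n → ℝ) (b : Fin n → ℝ) (i : Fin n) (x : Cfg n) : ℝ :=
  Real.exp (-(sp (x i) * locField J b x i)) / (2 * Real.cosh (locField J b x i))

/-- The Metropolis flip rate `min 1 (exp (-2 x_i h_i))`. -/
noncomputable def metro (J : Fin n → Fin n → ℝ) (b : Fin n → ℝ) (i : Fin n) (x : Cfg n) : ℝ :=
  min 1 (Real.exp (-(2 * sp (x i) * locField J b x i)))

theorem act_flipGen (r : Fin n → Cfg n → ℝ) (f : Cfg n → ℝ) (x : Cfg n) :
    act (flipGen r) f x = ∑ i, r i x * (f (P150.flip x i) - f x) := by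
  simp only [act, flipGen, sum_mul]
  rw [sum_comm]
  refine sum_congr rfl fun i _ => ?_
  simp only [mul_assoc, ← mul_sum, sub_mul, sum_sub_distrib, ite_mul, one_mul, zero_mul,
    sum_ite_eq, mem_univ, if_true]

theorem flipGen_off (r : Fin n → Cfg n → ℝ) {x y : Cfg n} (h : x ≠ y) :
    flipGen r x y = ∑ i, if P150.flip x i = y then r i x else 0 := by
  simp only [flipGen, if_neg h, sub_zero, mul_ite, mul_one, mul_zero]

theorem flipGen_le {r s : Fin n → Cfg n → ℝ} {a : ℝ} (h : ∀ i x, a * r i x ≤ s i x) (x y : Cfg n)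
    (hxy : x ≠ y) : a * flipGen r x y ≤ flipGen s x y := by
  rw [flipGen_off r hxy, flipGen_off s hxy, mul_sum]
  refine sum_le_sum fun i _ => ?_
  split_ifs
  · exact h i x
  · simp

theorem rev_flipGen {π : Cfg n → ℝ} (hp : ∀ x, 0 < π x) (hs : ∑ x, π x = 1)
    {r : Fin n → Cfg n → ℝ} (hr : ∀ i x, 0 ≤ r i x)
    (hd : ∀ i x, π x * r i x = π (P150.flip x i) * r i (P150.flip x i)) : Rev (flipGen r) π where
  pos := hp
  sum := hs
  off x y h := by simpa using flipGen_le (a := 0) (r := r) (fun i x => by simpa using hr i x) x y h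
  row x := by simpa [act] using act_flipGen r (fun _ => 1) x
  rev x y := by
    by_cases h : x = y
    · rw [h]
    · rw [flipGen_off r h, flipGen_off r (Ne.symm h), mul_sum, mul_sum]
      refine sum_congr rfl fun i _ => ?_
      by_cases e : P150.flip x i = y
      · have e' : P150.flip y i = x := by rw [← e, P150.flip_flip]
        rw [if_pos e, if_pos e', hd, e]
      · have e' : ¬ P150.flip y i = x := fun e' => e (by rw [← e', P150.flip_flip])
        rw [if_neg e, if_neg e', mul_zero, mul_zero]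

variable {J : Fin n → Fin n → ℝ} {b : Fin n → ℝ}

theorem heat_pos (i : Fin n) (x : Cfg n) : 0 < heat J b i x := by
  have := Real.cosh_pos (locField J b x i)
  unfold heat
  positivity

theorem heat_eq (hJ : ∀ i j, J i j = J j i) (i : Fin n) (x : Cfg n) :
    heat J b i x = gibbs J b (P150.flip x i) / (gibbs J b x + gibbs J b (P150.flip x i)) :=
  rate_eq hJ b x i

/-- The heat-bath generator is the single-flip generator with the heat-bath rates. -/
theorem genMat_eq (hJ : ∀ i j, J i j = J j i) : genMat J b = flipGen (heat J b) := by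
  ext x y
  simp only [genMat, gen, flipGen, resample_sub hJ, heat_eq hJ, rate]

theorem heat_bal (hJ : ∀ i j, J i j = J j i) (i : Fin n) (x : Cfg n) :
    gibbs J b x * heat J b i x = gibbs J b (P150.flip x i) * heat J b i (P150.flip x i) := by
  rw [heat_eq hJ, heat_eq hJ, P150.flip_flip, add_comm (gibbs J b (P150.flip x i))]
  ring

theorem rev_genMat (hJ : ∀ i j, J i j = J j i) : Rev (genMat J b) (gibbs J b) := by
  rw [genMat_eq hJ]
  exact rev_flipGen (gibbs_pos J b) (gibbs_sum J b) (fun i x => (heat_pos i x).le) (heat_bal hJ)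

theorem dir_genMat (f g : Cfg n → ℝ) :
    N150D.dir (genMat J b) (gibbs J b) f g = P150.dir J b f g := by
  simp only [N150D.dir, P150.dir, act, Semi.genMat_mul]
  rfl

theorem gap_genMat : N150D.gap (genMat J b) (gibbs J b) = P150.gap J b := by
  simp only [N150D.gap, P150.gap, dir_genMat]
  rfl

theorem tv_genMat (t : ℝ) (x : Cfg n) :
    N150D.tv (genMat J b) (gibbs J b) t x = tvDist J b t x := rfl

theorem tmix_genMat : N150D.tmix (genMat J b) (gibbs J b) (1 / 4) = P150.tmix J b := rfl

theorem metro_eq (hJ : ∀ i j, J i j = J j i) (i : Fin n) (x : Cfg n) :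
    gibbs J b x * metro J b i x = min (gibbs J b x) (gibbs J b (P150.flip x i)) := by
  rw [metro, mul_min_of_nonneg _ _ (gibbs_pos J b x).le, mul_one, gibbs_flip hJ]

theorem metro_bal (hJ : ∀ i j, J i j = J j i) (i : Fin n) (x : Cfg n) :
    gibbs J b x * metro J b i x = gibbs J b (P150.flip x i) * metro J b i (P150.flip x i) := by
  rw [metro_eq hJ, metro_eq hJ, P150.flip_flip, min_comm]

theorem heat_le_metro (hJ : ∀ i j, J i j = J j i) (i : Fin n) (x : Cfg n) :
    heat J b i x ≤ metro J b i x := by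
  have h1 := gibbs_pos J b x
  have h2 := gibbs_pos J b (P150.flip x i)
  refine le_of_mul_le_mul_left ?_ h1
  rw [metro_eq hJ, heat_eq hJ, ← mul_div_assoc, div_le_iff₀ (by positivity)]
  rcases le_total (gibbs J b x) (gibbs J b (P150.flip x i)) with h | h
  · rw [min_eq_left h]; nlinarith
  · rw [min_eq_right h]; nlinarith

theorem metro_le_heat (hJ : ∀ i j, J i j = J j i) (i : Fin n) (x : Cfg n) :
    metro J b i x ≤ 2 * heat J b i x := by
  have h1 := gibbs_pos J b x
  have h2 := gibbs_pos J b (P150.flip x i)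
  refine le_of_mul_le_mul_left ?_ h1
  rw [metro_eq hJ, heat_eq hJ, ← mul_div_assoc, ← mul_div_assoc, le_div_iff₀ (by positivity)]
  rcases le_total (gibbs J b x) (gibbs J b (P150.flip x i)) with h | h
  · rw [min_eq_left h]; nlinarith
  · rw [min_eq_right h]; nlinarith

/-- Rates which are reversible for the Gibbs measure and above `a` times the heat-bath rates. -/
theorem rev_of_rates {r : Fin n → Cfg n → ℝ} {a : ℝ} (ha : 0 ≤ a)
    (hr : ∀ i x, a * heat J b i x ≤ r i x)
    (hd : ∀ i x, gibbs J b x * r i x = gibbs J b (P150.flip x i) * r i (P150.flip x i)) :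
    Rev (flipGen r) (gibbs J b) :=
  rev_flipGen (gibbs_pos J b) (gibbs_sum J b)
    (fun i x => (mul_nonneg ha (heat_pos i x).le).trans (hr i x)) hd

theorem rev_metro (hJ : ∀ i j, J i j = J j i) : Rev (flipGen (metro J b)) (gibbs J b) :=
  rev_of_rates zero_le_one (fun i x => by simpa using heat_le_metro hJ i x) (metro_bal hJ)

theorem le_of_rates (hJ : ∀ i j, J i j = J j i) {r : Fin n → Cfg n → ℝ} {a : ℝ}
    (hr : ∀ i x, a * heat J b i x ≤ r i x) (x y : Cfg n) (h : x ≠ y) :
    a * genMat J b x y ≤ flipGen r x y := by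
  rw [genMat_eq hJ]
  exact flipGen_le hr x y h

/-- Two-sided comparison of the gaps. -/
theorem gap_two (hJ : ∀ i j, J i j = J j i) {r : Fin n → Cfg n → ℝ} {a A : ℝ} (ha : 0 ≤ a)
    (hA : 0 < A) (hr : ∀ i x, a * heat J b i x ≤ r i x) (hR : ∀ i x, r i x ≤ A * heat J b i x)
    (hd : ∀ i x, gibbs J b x * r i x = gibbs J b (P150.flip x i) * r i (P150.flip x i)) :
    a * P150.gap J b ≤ N150D.gap (flipGen r) (gibbs J b) ∧
      N150D.gap (flipGen r) (gibbs J b) ≤ A * P150.gap J b := by
  have h := rev_of_rates ha hr hd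
  rw [← gap_genMat]
  refine ⟨gap_mono (rev_genMat hJ) h ha (le_of_rates hJ hr), ?_⟩
  rw [← inv_mul_le_iff₀ hA]
  refine gap_mono h (rev_genMat hJ) (inv_pos.2 hA).le fun x y e => ?_
  rw [genMat_eq hJ]
  exact flipGen_le (fun i x => (inv_mul_le_iff₀ hA).2 (hR i x)) x y e

end Vale.Agent.N150D.Fl
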