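import Vale.Agent.N150D.Defs
import Vale.Agent.N150D.Metro
import Vale.Agent.N150D.Disc2
import Vale.Agent.P150.Bdl.B19

/-!
The deterministic facts on the class of dynamics.
-/

set_option linter.unusedSectionVars false

namespace Vale.Agent.N150D

open Finset

section Generic

variable {S : Type*} [Fintype S] [DecidableEq S] {L : Matrix S S ℝ} {π : S → ℝ}

theorem Rev.ex_act (h : Rev L π) (f : S → ℝ) : ex π (act L f) = 0 := by
  have h1 := h.dir_symm (fun _ => 1) f
  simp only [dir, act, one_mul, mul_one, h.row, mul_zero, ex, sum_const_zero] at h1 ⊢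
  linarith

theorem eq_of_var_eq_zero (hp : ∀ x, 0 < π x) {f : S → ℝ} (hf : var π f = 0) (x : S) :
    f x = ex π f := by
  have h1 := (sum_eq_zero_iff_of_nonneg fun z _ => mul_nonneg (hp z).le (sq_nonneg _)).1 hf x
    (mem_univ x)
  have h2 := pow_eq_zero_iff two_ne_zero |>.1 ((mul_eq_zero.1 h1).resolve_left (hp x).ne')
  linarith

theorem Rev.const_of_act (h : Rev L π) (hg : 0 < gap L π) {f : S → ℝ} (hf : act L f = 0)
    (x y : S) : f x = f y := by
  have h1 := h.gap_mul_var_le f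
  have h2 : dir L π f f = 0 := by simp [dir, hf, ex]
  have h3 : var π f = 0 :=
    le_antisymm (le_of_mul_le_mul_left (by rw [mul_zero]; linarith) hg) (var_nonneg h.pos f)
  rw [eq_of_var_eq_zero h.pos h3 x, eq_of_var_eq_zero h.pos h3 y]

theorem mem_spectrum_neg {r : ℝ} :
    r ∈ spectrum ℝ (-L) ↔ ∃ f : S → ℝ, f ≠ 0 ∧ ∀ x, act L f x = -r * f x := by
  rw [spectrum.mem_iff, Matrix.isUnit_iff_isUnit_det, isUnit_iff_ne_zero, not_not,
    ← Matrix.exists_mulVec_eq_zero_iff]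
  refine exists_congr fun f => and_congr_right fun _ => ?_
  rw [funext_iff]
  refine forall_congr' fun x => ?_
  rw [Algebra.algebraMap_eq_smul_one, sub_neg_eq_add, Matrix.add_mulVec, Matrix.smul_mulVec,
    Matrix.one_mulVec]
  change r * f x + act L f x = 0 ↔ _
  constructor <;> intro h <;> linarith

/-- The gap is the least nonzero point of the spectrum of `-L`. -/
theorem Rev.isLeast_spectrum [Nontrivial S] (h : Rev L π) (hg : 0 < gap L π) :
    IsLeast (spectrum ℝ (-L) \ {0}) (gap L π) := by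
  constructor
  · obtain ⟨φ, _, h1, h2⟩ := h.exists_eigen
    refine ⟨mem_spectrum_neg.2 ⟨φ, fun e => ?_, h2⟩, hg.ne'⟩
    simp [e, ex] at h1
  · rintro r ⟨hr, hr0⟩
    obtain ⟨f, hf0, hf⟩ := mem_spectrum_neg.1 hr
    have h1 : ex π f = 0 := by
      have := h.ex_act f
      rw [show act L f = fun x => -r * f x from funext hf, ex_smul] at this
      exact (mul_eq_zero.1 this).resolve_left (neg_ne_zero.2 hr0)
    have h2 : dir L π f f = r * var π f := by
      rw [var_eq h.sum, h1, dir]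
      simp only [hf, ex, mul_sum, ← sum_neg_distrib, ne_eq, OfNat.ofNat_ne_zero,
        not_false_eq_true, zero_pow, sub_zero]
      exact sum_congr rfl fun x _ => by ring
    have h3 : 0 < var π f := by
      refine (var_nonneg h.pos f).lt_of_ne fun e => hf0 (funext fun x => ?_)
      rw [eq_of_var_eq_zero h.pos e.symm x, h1]
      rfl
    have h4 := h.gap_mul_var_le f
    rw [h2] at h4
    exact le_of_mul_le_mul_right h4 h3

theorem Rev.diag_eq (h : Rev L π) (x : S) : L x x = -∑ y ∈ univ.erase x, L x y := by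
  have := h.row x
  rw [← add_sum_erase _ _ (mem_univ x)] at this
  linarith

end Generic

open Vale.Agent.P150 (Cfg Pairs gibbs genMat skJ resample gsym)

variable {n : ℕ} {K β : ℝ} {g : Pairs n → ℝ} {L : Matrix (Cfg n) (Cfg n) ℝ}

theorem skJ_symm (β : ℝ) (g : Pairs n → ℝ) (i j : Fin n) : skJ β g i j = skJ β g j i := by
  unfold skJ gsym
  rcases lt_trichotomy i j with h | h | h
  · simp [h, h.not_gt]
  · rw [h]
  · simp [h, h.not_gt]

theorem rev_heat (β : ℝ) (g : Pairs n → ℝ) : Rev (heat β g) (mu β g) :=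
  Fl.rev_genMat (skJ_symm β g)

theorem heat_eq (β : ℝ) (g : Pairs n → ℝ) :
    heat β g = Fl.flipGen (Fl.heat (skJ β g) fun _ => 0) := Fl.genMat_eq (skJ_symm β g)

theorem gap_heat (β : ℝ) (g : Pairs n → ℝ) :
    gap (heat β g) (mu β g) = P150.gap (skJ β g) fun _ => 0 := Fl.gap_genMat

theorem tmix_heat (β : ℝ) (g : Pairs n → ℝ) :
    tmix (heat β g) (mu β g) (1 / 4) = P150.tmix (skJ β g) fun _ => 0 := rfl

theorem gap_heat_pos (hn : 0 < n) (β : ℝ) (g : Pairs n → ℝ) : 0 < gap (heat β g) (mu β g) := by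
  rw [gap_heat]
  exact P150.gap_pos hn (skJ_symm β g) _

theorem flip_ne (x : Cfg n) (i : Fin n) : x ≠ P150.flip x i := fun e => by
  have := congrFun e i
  simp [P150.flip] at this

theorem nontrivial_cfg (hn : 0 < n) : Nontrivial (Cfg n) :=
  ⟨fun _ => true, _, flip_ne _ ⟨0, hn⟩⟩

theorem metro_eq (β : ℝ) (g : Pairs n → ℝ) :
    metro β g = Fl.flipGen (Fl.metro (skJ β g) fun _ => 0) := by
  ext x y
  refine sum_congr rfl fun i _ => ?_
  have e : mu β g (flip x i) / mu β g x =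
      Real.exp (-(2 * P150.sp (x i) * P150.locField (skJ β g) (fun _ => 0) x i)) := by
    rw [div_eq_iff ((rev_heat β g).pos x).ne', mul_comm]
    exact P150.gibbs_flip (skJ_symm β g) _ x i
  rw [e]
  simp only [eq_comm (a := y)]
  rfl

theorem like_heat (β : ℝ) (g : Pairs n → ℝ) : Like 1 β g (heat β g) :=
  ⟨rev_heat β g, fun _ _ _ => ⟨(one_mul _).ge, (one_mul _).ge⟩⟩

theorem like_one : Like 1 β g L ↔ L = heat β g := by
  refine ⟨fun h => ?_, fun h => h ▸ like_heat β g⟩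
  have h1 : ∀ x y, x ≠ y → L x y = heat β g x y := fun x y e => by
    have := h.2 x y e
    linarith [this.1, this.2]
  ext x y
  by_cases e : x = y
  · subst e
    rw [h.1.diag_eq, (rev_heat β g).diag_eq]
    exact congrArg _ (sum_congr rfl fun y hy => h1 x y (ne_of_mem_erase hy).symm)
  · exact h1 x y e

theorem like_metro (β : ℝ) (g : Pairs n → ℝ) : Like 2 β g (metro β g) := by
  have hJ := skJ_symm β g
  rw [Like, metro_eq, heat_eq]
  refine ⟨Fl.rev_metro hJ, fun x y e => ⟨?_, ?_⟩⟩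
  · have h1 := Fl.flipGen_le (a := 1) (fun i x => by
      simpa using Fl.heat_le_metro (b := fun _ => 0) hJ i x) x y e
    have h2 := (Fl.rev_metro (b := fun _ => 0) hJ).off x y e
    linarith
  · have h1 := Fl.flipGen_le (a := 1 / 2) (r := Fl.metro (skJ β g) fun _ => 0)
      (s := Fl.heat (skJ β g) fun _ => 0) (fun i x => by
        linarith [Fl.metro_le_heat (b := fun _ => 0) hJ i x]) x y e
    linarith

theorem heat_flip_pos (β : ℝ) (g : Pairs n → ℝ) (x : Cfg n) (i : Fin n) :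
    0 < heat β g x (P150.flip x i) := by
  rw [heat_eq, Fl.flipGen_off _ (flip_ne x i)]
  refine sum_pos' (fun j _ => ?_) ⟨i, mem_univ i, ?_⟩
  · split_ifs
    · exact (Fl.heat_pos j x).le
    · exact le_rfl
  · rw [if_pos rfl]
    exact Fl.heat_pos i x

theorem Like.one_le (hn : 0 < n) (h : Like K β g L) : 1 ≤ K := by
  set x : Cfg n := fun _ => true
  have e := flip_ne x ⟨0, hn⟩
  obtain ⟨h1, h2⟩ := h.2 _ _ e
  have h3 := h.1.off _ _ e
  have h4 := heat_flip_pos β g x ⟨0, hn⟩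
  by_contra hK
  rw [not_le] at hK
  rcases le_or_gt K 0 with h5 | h5
  · nlinarith
  · nlinarith [mul_le_mul_of_nonneg_left h2 h5.le, mul_pos h5 h4]

theorem Like.pos (hn : 0 < n) (h : Like K β g L) : 0 < K := one_pos.trans_le (h.one_le hn)

theorem Like.mul_pos (hn : 0 < n) (h : Like K β g L) : 0 < K * n :=
  _root_.mul_pos (h.pos hn) (Nat.cast_pos.2 hn)

theorem Like.eq_smul (hn : 0 < n) (h : Like K β g L) : L = (K * n) • (step K L - 1) := by
  rw [step, add_sub_cancel_left, smul_smul, mul_inv_cancel₀ (h.mul_pos hn).ne', one_smul]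

theorem Like.diag (hn : 0 < n) (h : Like K β g L) (x : Cfg n) :
    step 1 (heat β g) x x ≤ step K L x x := by
  have hK := h.pos hn
  have hn' : (0 : ℝ) < n := Nat.cast_pos.2 hn
  have h1 : K * heat β g x x ≤ L x x := by
    rw [h.1.diag_eq, (rev_heat β g).diag_eq, mul_neg, neg_le_neg_iff, mul_sum]
    exact sum_le_sum fun y hy => (h.2 x y (ne_of_mem_erase hy).symm).2
  have h2 := mul_le_mul_of_nonneg_left h1 (inv_pos.2 (h.mul_pos hn)).le
  have h3 : (K * n)⁻¹ * (K * heat β g x x) = ((1 : ℝ) * n)⁻¹ * heat β g x x := by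
    field_simp
  simp only [step, Matrix.add_apply, Matrix.smul_apply, smul_eq_mul]
  linarith

theorem act_step (K : ℝ) (L : Matrix (Cfg n) (Cfg n) ℝ) (f : Cfg n → ℝ) (x : Cfg n) :
    act (step K L) f x = f x + (K * n)⁻¹ * act L f x := by
  simp only [act, step, Matrix.add_apply, Matrix.smul_apply, smul_eq_mul, add_mul,
    sum_add_distrib, Matrix.one_apply, ite_mul, one_mul, zero_mul, sum_ite_eq, mem_univ, if_true,
    mul_assoc, mul_sum]

theorem act_step_heat (hn : 0 < n) (β : ℝ) (g : Pairs n → ℝ) (f : Cfg n → ℝ) (x : Cfg n) :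
    act (step 1 (heat β g)) f x = (∑ i, resample (skJ β g) (fun _ => 0) i f x) / n := by
  have hn' : (n : ℝ) ≠ 0 := by positivity
  rw [act_step, show act (heat β g) f x = _ from P150.Semi.genMat_mul _ _ f x, P150.gen,
    sum_sub_distrib, sum_const, card_univ, Fintype.card_fin, nsmul_eq_mul]
  field_simp
  ring

theorem step_heat_pos (hn : 0 < n) (β : ℝ) (g : Pairs n → ℝ) (x : Cfg n) :
    0 < step 1 (heat β g) x x := by
  have hn' : (0 : ℝ) < n := Nat.cast_pos.2 hn
  have h1 : heat β g x x = -∑ i, Fl.heat (skJ β g) (fun _ => 0) i x := by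
    simp [heat_eq, Fl.flipGen, (flip_ne x _).symm]
  have h2 : ∑ i, Fl.heat (skJ β g) (fun _ => 0) i x < ∑ _i : Fin n, (1 : ℝ) := by
    refine sum_lt_sum_of_nonempty ⟨⟨0, hn⟩, mem_univ _⟩ fun i _ => ?_
    have a1 := P150.gibbs_pos (skJ β g) (fun _ => 0) x
    have a2 := P150.gibbs_pos (skJ β g) (fun _ => 0) (P150.flip x i)
    rw [Fl.heat_eq (skJ_symm β g), div_lt_one (by positivity)]
    linarith
  rw [sum_const, card_univ, Fintype.card_fin, nsmul_eq_mul, mul_one, ← inv_mul_lt_one₀ hn'] at h2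
  simp only [step, Matrix.add_apply, Matrix.smul_apply, smul_eq_mul, Matrix.one_apply_eq, h1,
    one_mul, mul_neg]
  linarith

theorem Like.sto (hn : 0 < n) (h : Like K β g L) : Sto (step K L) (mu β g) where
  nn x := (h.1.pos x).le
  sum := h.1.sum
  nonneg x y := by
    by_cases e : x = y
    · subst e
      exact ((step_heat_pos hn β g x).trans_le (h.diag hn x)).le
    · simp only [step, Matrix.add_apply, Matrix.smul_apply, smul_eq_mul, Matrix.one_apply_ne e,
        zero_add]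
      exact mul_nonneg (inv_pos.2 (h.mul_pos hn)).le (h.1.off x y e)
  row x := by simpa [act, h.1.row] using act_step K L (fun _ => 1) x
  stat y := by
    simp only [step, Matrix.add_apply, Matrix.smul_apply, smul_eq_mul, mul_add, sum_add_distrib,
      Matrix.one_apply, mul_ite, mul_one, mul_zero, sum_ite_eq', mem_univ, if_true,
      mul_left_comm (mu β g _), h.1.rev _ y, ← mul_sum, h.1.row, add_zero]

theorem Like.inv_mul_le (hn : 0 < n) (h : Like K β g L) (x y : Cfg n) (e : x ≠ y) :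
    K⁻¹ * heat β g x y ≤ L x y := (inv_mul_le_iff₀ (h.pos hn)).2 (h.2 x y e).1

theorem Like.gap_le (hn : 0 < n) (h : Like K β g L) :
    gap L (mu β g) ≤ K * gap (heat β g) (mu β g) ∧ gap (heat β g) (mu β g) ≤ K * gap L (mu β g) := by
  have hK := h.pos hn
  rw [← inv_mul_le_iff₀ hK, ← inv_mul_le_iff₀ hK]
  exact ⟨gap_mono h.1 (rev_heat β g) (inv_pos.2 hK).le
      fun x y e => (inv_mul_le_iff₀ hK).2 (h.2 x y e).2,
    gap_mono (rev_heat β g) h.1 (inv_pos.2 hK).le (h.inv_mul_le hn)⟩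

theorem Like.gap_pos (hn : 0 < n) (h : Like K β g L) : 0 < gap L (mu β g) :=
  (mul_pos_iff_of_pos_left (h.pos hn)).1 ((gap_heat_pos hn β g).trans_le (h.gap_le hn).2)

theorem Like.mixes (hn : 0 < n) (h : Like K β g L) {ε : ℝ} (hε : 0 < ε) :
    ∃ T, 0 ≤ T ∧ ∀ x, tv L (mu β g) T x ≤ ε := h.1.mixes (h.gap_pos hn) hε

theorem Like.tv_iff (hn : 0 < n) (h : Like K β g L) {ε t : ℝ} (hε : 0 < ε) (ht : 0 ≤ t) :
    (∀ x, tv L (mu β g) t x ≤ ε) ↔ tmix L (mu β g) ε ≤ t :=
  ⟨tmix_le_of ht, h.1.tv_le_of_tmix_le (h.mixes hn hε)⟩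

theorem Like.tvM_kmix (hn : 0 < n) (h : Like K β g L) {ε : ℝ} (hε : 0 < ε) (x : Cfg n) :
    tvM (step K L ^ kmix (step K L) (mu β g) ε) (mu β g) x ≤ ε := by
  obtain ⟨z, hz⟩ := Finite.exists_min fun z => step 1 (heat β g) z z
  obtain ⟨C, _, hC⟩ := Disc.upper hε (step_heat_pos hn β g z)
  obtain ⟨T, hT, hx⟩ := h.mixes hn (show (0 : ℝ) < 1 / 4 by norm_num)
  have e := h.eq_smul hn
  exact (hC _ (step K L) (mu β g) (K * n) (h.mul_pos hn) (h.sto hn) (e ▸ h.1)
    (fun y => (hz y).trans (h.diag hn y)) T hT (e ▸ hx)).1 x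

theorem Like.tvM_iff (hn : 0 < n) (h : Like K β g L) {ε : ℝ} (hε : 0 < ε) (k : ℕ) :
    (∀ x, tvM (step K L ^ k) (mu β g) x ≤ ε) ↔ kmix (step K L) (mu β g) ε ≤ k :=
  ⟨kmix_le_of, tvM_le_of_kmix_le (h.sto hn) ⟨_, h.tvM_kmix hn hε⟩⟩

theorem zero (n : ℕ) (β : ℝ) (g : Pairs n → ℝ) (hn : 0 < n) :
    (∀ L, Like 1 β g L ↔ L = heat β g) ∧ Like 2 β g (metro β g) ∧
      (∀ f x, act (step 1 (heat β g)) f x = (∑ i, resample (skJ β g) (fun _ => 0) i f x) / n) ∧
      ∀ K L, Like K β g L → Sto (step K L) (mu β g) ∧ (∀ f, act L f = 0 → ∀ x y, f x = f y) ∧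
        IsLeast (spectrum ℝ (-L) \ {0}) (gap L (mu β g)) ∧ 0 < gap L (mu β g) ∧
        ∀ ε, 0 < ε → (∀ t, 0 ≤ t → ((∀ x, tv L (mu β g) t x ≤ ε) ↔ tmix L (mu β g) ε ≤ t)) ∧
          ∀ k, (∀ x, tvM (step K L ^ k) (mu β g) x ≤ ε) ↔ kmix (step K L) (mu β g) ε ≤ k :=
  haveI := nontrivial_cfg hn
  ⟨fun _ => like_one, like_metro β g, act_step_heat hn β g, fun _ _ h => ⟨h.sto hn,
    fun _ hf => h.1.const_of_act (h.gap_pos hn) hf, h.1.isLeast_spectrum (h.gap_pos hn),
    h.gap_pos hn, fun _ hε => ⟨fun _ ht => h.tv_iff hn hε ht, h.tvM_iff hn hε⟩⟩⟩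

end Vale.Agent.N150D
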