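import Vale.Agent.N150D.Asm
import Vale.Agent.N150D.Pre
import Vale.Agent.N150D.Low
import Vale.Agent.N150D.Zero

/-! The comparison hypothesis is discharged; constants which do not depend on the level. -/

open Filter Topology Set Real

namespace Vale.Agent.N150D.Asm

open Vale.Agent.P150 (Cfg Pairs gibbs genMat skJ WHP)
open Vale.Agent.P150.MainThm (whp_mono whp_inter)

theorem dc : DC := fun K β _ h0 h1 => Pre.disc_of_cont K β h0 h1

/-- High temperature, heat bath: one pair of constants for all the levels. -/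
theorem pre (β : ℝ) (h0 : 0 ≤ β) (h1 : β < 1) : ∃ c C : ℝ, 0 < c ∧ ∀ ε : ℝ, 0 < ε → ε < 1 →
    Unif 1 β ε fun n _ t k => ∀ u ∈ [t, k], u ∈ Icc (c * log n) (C * log n) := by
  obtain ⟨c0, C0, hc0, -, h2⟩ := P150.H185.high_zero_at β h0 h1
  obtain ⟨c, hc, h3⟩ := low_unif h0 hc0 (whp_mono h2 (Eventually.of_forall fun _ _ hg => hg.1))
  obtain ⟨A, hA, h4⟩ := high_up one_pos h0 h1
  obtain ⟨B, hB, h5⟩ := Pre.kmix_upper h0 h1
  refine ⟨c, A + B, hc, fun ε e0 e1 => whp_mono (whp_inter (whp_inter (h3 ε e0 e1) (h4 ε e0))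
    (h5 ε e0)) (Eventually.of_forall fun n g hg L hL u hu => ?_)⟩
  obtain ⟨⟨a1, a2⟩, a3⟩ := hg
  have hl := log_natCast_nonneg n
  have b1 := mul_nonneg hA.le hl
  have b2 := mul_nonneg hB.le hl
  have b3 := a2 L hL
  obtain ⟨b4, b5⟩ := a1 L hL
  simp only [List.mem_cons, List.not_mem_nil, or_false] at hu
  rcases hu with rfl | rfl
  · exact ⟨b4, by linarith⟩
  · refine ⟨b5, ?_⟩
    rw [eq_heat_of_like hL]
    have b6 : (kmix (step 1 (heat β g)) (mu β g) ε : ℝ) / n ≤ B * log n := a3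
    linarith

end Vale.Agent.N150D.Asm
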