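import Vale.Agent.N150D.Low
import Vale.Agent.N150D.Zero

/-! The high temperature phase: upper bounds for all comparable dynamics. -/

open Finset Filter Topology Set

namespace Vale.Agent.N150D

open Vale.Agent.P150 (Cfg Pairs gibbs genMat skJ WHP)

/-- The event of the modified log-Sobolev inequality and of the lower bound on the weights. -/
def MlsiW (β C : ℝ) : Prop := WHP (fun n => {g |
  (∀ f : Cfg n → ℝ, (∀ x, 0 < f x) →
    P150.ex (skJ β g) (fun _ => 0) (fun x => f x * Real.log (f x))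
      - P150.ex (skJ β g) (fun _ => 0) f * Real.log (P150.ex (skJ β g) (fun _ => 0) f)
      ≤ C * P150.dir (skJ β g) (fun _ => 0) f (fun x => Real.log (f x))) ∧
  ∀ x, -Real.log (gibbs (skJ β g) (fun _ => 0) x) ≤ 4 * n})

/-- the continuous upper bound, with a constant which does not depend on the precision -/
theorem hot_cont {β C : ℝ} (hC : 0 < C) (h : MlsiW β C) {ε : ℝ} (hε : 0 < ε) :
    WHP fun n => {g | ∀ K L, Like K β g L → ∀ t, 2 * K * C * Real.log n ≤ t →
      ∀ x, tv L (mu β g) t x ≤ ε} := by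
  refine P150.MainThm.whp_mono (Ent.univ_high hC h) ?_
  filter_upwards [eventually_gt_atTop 0, (Real.tendsto_log_atTop.comp
    tendsto_natCast_atTop_atTop).eventually_ge_atTop (Real.log (2 / ε ^ 2))] with n hn hlog
  intro g hg K L hL t ht x
  have hK := hL.pos hn
  have hn' : (0 : ℝ) < n := Nat.cast_pos.2 hn
  have hl0 : 0 ≤ Real.log n := Real.log_natCast_nonneg n
  have ht0 : 0 ≤ t := le_trans (by positivity) ht
  have a1 := (hg L K⁻¹ (inv_pos.2 hK) hL.1 (hL.inv_mul_le hn)).2 t ht0 x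
  have e : K⁻¹ * t / C = (K * C)⁻¹ * t := by field_simp
  rw [e] at a1
  refine Ent.tv_le_of_sq (by positivity) (by positivity) hε a1 (le_trans ?_ ht)
  have a2 : Real.log (2 * n / ε ^ 2) = Real.log (2 / ε ^ 2) + Real.log n := by
    rw [← Real.log_mul (by positivity) hn'.ne']
    congr 1
    ring
  have a3 : Real.log (2 / ε ^ 2) ≤ Real.log n := hlog
  rw [a2, div_inv_eq_mul]
  have a4 := mul_le_mul_of_nonneg_right a3 (mul_pos hK hC).le
  linarith only [a4]

/-- the continuous upper half of the last clause -/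
theorem hot_tmix {β C : ℝ} (hC : 0 < C) (h : MlsiW β C) {ε : ℝ} (hε : 0 < ε) :
    WHP fun n => {g | ∀ K L, Like K β g L → tmix L (mu β g) ε ≤ 2 * K * C * Real.log n} := by
  refine P150.MainThm.whp_mono (hot_cont hC h hε) ?_
  filter_upwards [eventually_gt_atTop 0] with n hn g hg K L hL
  have hK := hL.pos hn
  have hl0 : 0 ≤ Real.log n := Real.log_natCast_nonneg n
  exact tmix_le_of (by positivity) (hg K L hL _ le_rfl)

/-- the high temperature line for all comparable dynamics -/
theorem unif_hot {β C c0 : ℝ} (hC : 0 < C) (h : MlsiW β C) (hc0 : 0 < c0)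
    (hgap : WHP fun _ => {g | c0 ≤ P150.gap (skJ β g) (fun _ => 0) ∧
      P150.gap (skJ β g) (fun _ => 0) ≤ 1}) (K : ℝ) {ε : ℝ} (hε : 0 < ε) :
    ∃ c D : ℝ, 0 < c ∧ Unif K β ε fun n r t k =>
      r ∈ Icc c D ∧ t ≤ D * Real.log n ∧ k ≤ D * Real.log n := by
  obtain ⟨δ, hδ, hl⟩ := Lazy.whp_lazy β
  obtain ⟨A, hA, hU⟩ := Disc.upper.{0} hε hδ
  have hM : 0 < max K 1 := one_pos.trans_le (le_max_right _ _)
  refine ⟨(max K 1)⁻¹, max (max (K / c0) (2 * K * C)) (A * (K * (2 * K * C) + 1)),
    inv_pos.2 hM, ?_⟩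
  refine P150.MainThm.whp_mono (P150.MainThm.whp_inter (P150.MainThm.whp_inter
    (P150.MainThm.whp_inter (hot_tmix hC h hε) (hot_cont hC h (ε := 1 / 4) (by norm_num))) hl)
    hgap) ?_
  filter_upwards [eventually_ge_atTop 3] with n hn3
  rintro g ⟨⟨⟨h1, h2⟩, h3⟩, h4, h5⟩ L hL
  have hn : 0 < n := by omega
  have hn' : (3 : ℝ) ≤ n := by exact_mod_cast hn3
  have hK := hL.pos hn
  have hl1 : 1 ≤ Real.log n := by
    rw [Real.le_log_iff_exp_le (by linarith)]
    linarith [Real.exp_one_lt_three]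
  have hg := hL.gap_le hn
  have hp := hL.gap_pos hn
  rw [gap_heat] at hg
  refine ⟨⟨?_, ?_⟩, ?_, ?_⟩
  · refine inv_anti₀ hp (hg.1.trans ?_)
    exact (mul_le_of_le_one_right hK.le h5).trans (le_max_left _ _)
  · refine le_trans ?_ ((le_max_left _ _).trans (le_max_left _ _))
    rw [le_div_iff₀ hc0, inv_mul_le_iff₀ hp]
    linarith only [hg.2, h4]
  · exact (h1 K L hL).trans (mul_le_mul_of_nonneg_right
      ((le_max_right _ _).trans (le_max_left _ _)) (by linarith))
  · have a1 := (hU (Cfg n) (step K L) (mu β g) (K * n) (hL.mul_pos hn) (hL.sto hn)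
      (by rw [← hL.eq_smul hn]; exact hL.1)
      (fun x => (h3 x).trans (by rw [← step_one_heat]; exact hL.diag hn x))
      (2 * K * C * Real.log n) (by positivity)
      (by rw [← hL.eq_smul hn]; exact h2 K L hL _ le_rfl)).2
    refine le_trans ?_ (mul_le_mul_of_nonneg_right (le_max_right _ _) (by linarith))
    rw [div_le_iff₀ (by linarith)]
    refine a1.trans ?_
    have a2 : (1 : ℝ) * 1 ≤ Real.log n * n := mul_le_mul hl1 (by linarith) zero_le_one (by linarith)
    have a3 := mul_le_mul_of_nonneg_left a2 hA.le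
    linarith only [a3]

end Vale.Agent.N150D
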