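import Vale.Agent.N150D.Zero
import Vale.Agent.N150D.EntSK

/-! Concentration of the logarithm of the spectral gap. -/

open MeasureTheory Filter Topology

namespace Vale.Agent.P150.SelfD

variable {n : ℕ}

/-- harmonic weight -/
lemma wt_mono {a p q P Q : ℝ} (ha : 0 < a) (hp : 0 < p) (hq : 0 < q) (hP : a * p ≤ P)
    (hQ : a * q ≤ Q) : a * (p * q / (p + q)) ≤ P * Q / (P + Q) := by
  have hP0 : 0 < P := lt_of_lt_of_le (mul_pos ha hp) hP
  have hQ0 : 0 < Q := lt_of_lt_of_le (mul_pos ha hq) hQ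
  rw [← mul_div_assoc, div_le_div_iff₀ (by linarith) (by linarith)]
  have h1 : a * p * (q * Q) ≤ P * (q * Q) := mul_le_mul_of_nonneg_right hP (by positivity)
  have h2 : a * q * (p * P) ≤ Q * (p * P) := mul_le_mul_of_nonneg_right hQ (by positivity)
  nlinarith [h1, h2]

/-- variance is at most any second moment -/
lemma var_le_ex (J : Fin n → Fin n → ℝ) (b : Fin n → ℝ) (f : Cfg n → ℝ) (c : ℝ) :
    var J b f ≤ ex J b (fun x => (f x - c) ^ 2) := by
  have hs := gibbs_sum J b
  set m := ex J b f with hm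
  have h1 : ex J b (fun x => (f x - c) ^ 2)
      = ex J b (fun x => (f x - m) ^ 2) + (m - c) ^ 2 := by
    unfold ex
    have e : ∀ x, gibbs J b x * (f x - c) ^ 2 = gibbs J b x * (f x - m) ^ 2
        + (2 * (m - c)) * (gibbs J b x * f x) + ((m - c) ^ 2 - 2 * (m - c) * m) * gibbs J b x := by
      intro x; ring
    simp only [e, Finset.sum_add_distrib, ← Finset.mul_sum]
    have hm' : ∑ x, gibbs J b x * f x = m := rfl
    rw [hm', hs]
    ring
  unfold var
  rw [h1]
  have := sq_nonneg (m - c)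
  linarith

/-- Holley-Stroock for the heat-bath form. -/
theorem comp {J J' : Fin n → Fin n → ℝ} (hJ : ∀ i j, J i j = J j i) (hJ' : ∀ i j, J' i j = J' j i)
    {b b' : Fin n → ℝ} {a B γ : ℝ} (ha : 0 < a) (hB : 0 < B) (hγ : 0 ≤ γ)
    (h1 : ∀ x, a * gibbs J' b' x ≤ gibbs J b x) (h2 : ∀ x, gibbs J b x ≤ B * gibbs J' b' x)
    (hP : ∀ f : Cfg n → ℝ, γ * var J' b' f ≤ dir J' b' f f) (f : Cfg n → ℝ) :
    (a / B * γ) * var J b f ≤ dir J b f f := by
  have hv : var J b f ≤ B * var J' b' f := by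
    refine (var_le_ex J b f (ex J' b' f)).trans ?_
    unfold var ex
    rw [Finset.mul_sum]
    refine Finset.sum_le_sum fun x _ => ?_
    rw [← mul_assoc]
    exact mul_le_mul_of_nonneg_right (h2 x) (sq_nonneg _)
  have hd : a * dir J' b' f f ≤ dir J b f f := by
    rw [dir_eq hJ, dir_eq hJ']
    rw [← mul_assoc, mul_comm a (1 / 2), mul_assoc, Finset.mul_sum]
    refine mul_le_mul_of_nonneg_left (Finset.sum_le_sum fun i _ => ?_) (by norm_num)
    rw [Finset.mul_sum]
    refine Finset.sum_le_sum fun x _ => ?_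
    rw [← mul_assoc]
    exact mul_le_mul_of_nonneg_right
      (wt_mono ha (gibbs_pos J' b' x) (gibbs_pos J' b' _) (h1 x) (h1 _))
      (mul_self_nonneg _)
  have h3 := hP f
  calc (a / B * γ) * var J b f ≤ (a / B * γ) * (B * var J' b' f) :=
        mul_le_mul_of_nonneg_left hv (by positivity)
    _ = a * (γ * var J' b' f) := by field_simp
    _ ≤ a * dir J' b' f f := mul_le_mul_of_nonneg_left h3 ha.le
    _ ≤ dir J b f f := hd

lemma energy_pairs (β : ℝ) (g : Pairs n → ℝ) (x : Cfg n) :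
    energy (skJ β g) (fun _ => 0) x
      = β / √n * ∑ p : Pairs n, g p * (sp (x p.1.1) * sp (x p.1.2)) := by
  unfold energy
  simp only [zero_mul, Finset.sum_const_zero, add_zero]
  rw [sum_pairs]
  have h1 : ∀ i : Fin n, (if i < i then skJ β g i i * sp (x i) * sp (x i) else 0) = 0 := by
    intro i; simp
  simp only [h1, Finset.sum_const_zero, add_zero]
  rw [Finset.mul_sum]
  refine Finset.sum_congr rfl fun p _ => ?_
  rw [if_pos p.2, if_neg p.2.asymm, add_zero]
  unfold skJ
  rw [gsym_pair]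
  ring

lemma energy_diff (hn : 0 < n) (β : ℝ) (g g' : Pairs n → ℝ) (x : Cfg n) :
    |energy (skJ β g) (fun _ => 0) x - energy (skJ β g') (fun _ => 0) x|
      ≤ |β| * √n * F.ed g g' := by
  have hn' : (0 : ℝ) < n := Nat.cast_pos.2 hn
  have hs : 0 < √(n : ℝ) := Real.sqrt_pos.2 hn'
  rw [energy_pairs, energy_pairs, ← mul_sub, ← Finset.sum_sub_distrib, abs_mul, abs_div,
    abs_of_pos hs]
  have h1 : (∑ p : Pairs n, (g p * (sp (x p.1.1) * sp (x p.1.2))
      - g' p * (sp (x p.1.1) * sp (x p.1.2)))) ^ 2 ≤ ((n : ℝ) * F.ed g g') ^ 2 := by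
    have h2 := Finset.sum_mul_sq_le_sq_mul_sq Finset.univ (fun p : Pairs n => g p - g' p)
      (fun p => sp (x p.1.1) * sp (x p.1.2))
    have h3 : ∀ p : Pairs n, (sp (x p.1.1) * sp (x p.1.2)) ^ 2 = 1 := fun p => by
      rw [mul_pow, Poinc.sp_sq, Poinc.sp_sq, one_mul]
    simp only [h3, Finset.sum_const, Finset.card_univ, nsmul_eq_mul, mul_one] at h2
    simp only [← sub_mul]
    refine h2.trans ?_
    rw [mul_pow, F.ed_sq, mul_comm]
    refine mul_le_mul_of_nonneg_right ?_ (Finset.sum_nonneg fun _ _ => sq_nonneg _)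
    exact_mod_cast card_pairs n
  have h4 := abs_le_abs (abs_le_of_sq_le_sq' h1 (mul_nonneg hn'.le (F.ed_nonneg _ _))).2
    (neg_le.1 (abs_le_of_sq_le_sq' h1 (mul_nonneg hn'.le (F.ed_nonneg _ _))).1)
  rw [abs_of_nonneg (mul_nonneg hn'.le (F.ed_nonneg _ _))] at h4
  refine (mul_le_mul_of_nonneg_left h4 (by positivity)).trans (le_of_eq ?_)
  have h5 : (n : ℝ) = √n * √n := (Real.mul_self_sqrt hn'.le).symm
  rw [div_mul_eq_mul_div, div_eq_iff hs.ne']
  linear_combination (|β| * F.ed g g') * h5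

/-- comparison of the gaps for two energies at a bounded distance -/
theorem gap_comp (hn : 0 < n) {J J' : Fin n → Fin n → ℝ} (hJ : ∀ i j, J i j = J j i)
    (hJ' : ∀ i j, J' i j = J' j i) {b b' : Fin n → ℝ} {D : ℝ}
    (hD : ∀ x, |energy J b x - energy J' b' x| ≤ D) :
    Real.exp (-(2 * D)) * gap J' b' ≤ gap J b := by
  set Z := ∑ y, Real.exp (energy J b y) with hZ
  set Z' := ∑ y, Real.exp (energy J' b' y) with hZ'
  have hZp : 0 < Z := Finset.sum_pos (fun _ _ => Real.exp_pos _) Finset.univ_nonempty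
  have hZp' : 0 < Z' := Finset.sum_pos (fun _ _ => Real.exp_pos _) Finset.univ_nonempty
  have e1 : ∀ x, gibbs J b x = Real.exp (energy J b x) / Z := fun _ => rfl
  have e2 : ∀ x, gibbs J' b' x = Real.exp (energy J' b' x) / Z' := fun _ => rfl
  have key := comp hJ hJ' (b := b) (b' := b') (a := Real.exp (-D) * (Z' / Z))
    (B := Real.exp D * (Z' / Z)) (γ := gap J' b') (by positivity) (by positivity)
    (gap_pos hn hJ' b').le
    (by
      intro x
      rw [e1, e2]
      have h1 : Real.exp (-D) * (Z' / Z) * (Real.exp (energy J' b' x) / Z')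
          = Real.exp (-D + energy J' b' x) / Z := by
        rw [Real.exp_add]; field_simp
      rw [h1]
      refine div_le_div_of_nonneg_right (Real.exp_le_exp.2 ?_) hZp.le
      linarith [(abs_le.1 (hD x)).1])
    (by
      intro x
      rw [e1, e2]
      have h1 : Real.exp D * (Z' / Z) * (Real.exp (energy J' b' x) / Z')
          = Real.exp (D + energy J' b' x) / Z := by
        rw [Real.exp_add]; field_simp
      rw [h1]
      refine div_le_div_of_nonneg_right (Real.exp_le_exp.2 ?_) hZp.le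
      linarith [(abs_le.1 (hD x)).2])
    (Semi.gap_mul_var_le b' hJ')
  have h4 : Real.exp (-D) * (Z' / Z) / (Real.exp D * (Z' / Z)) = Real.exp (-(2 * D)) := by
    have : Real.exp (-(2 * D)) = Real.exp (-D) * Real.exp (-D) := by
      rw [← Real.exp_add]; congr 1; ring
    rw [this, Real.exp_neg D]
    field_simp
  rw [h4] at key
  exact le_gap hn key

theorem log_gap_comp (hn : 0 < n) {J J' : Fin n → Fin n → ℝ} (hJ : ∀ i j, J i j = J j i)
    (hJ' : ∀ i j, J' i j = J' j i) {b b' : Fin n → ℝ} {D : ℝ}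
    (hD : ∀ x, |energy J b x - energy J' b' x| ≤ D) :
    |Real.log (gap J b) - Real.log (gap J' b')| ≤ 2 * D := by
  have p := gap_pos hn hJ b
  have p' := gap_pos hn hJ' b'
  have h1 := Real.log_le_log (by positivity) (gap_comp hn hJ hJ' hD)
  have h2 := Real.log_le_log (by positivity)
    (gap_comp hn hJ' hJ (fun x => by rw [abs_sub_comm]; exact hD x))
  rw [Real.log_mul (Real.exp_pos _).ne' (by positivity), Real.log_exp] at h1 h2
  rw [abs_le]
  constructor <;> linarith only [h1, h2]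

end Vale.Agent.P150.SelfD

namespace Vale.Agent.N150D

open Vale.Agent.P150 (Cfg Pairs skJ WHP disorder)

/-- the logarithm of the gap is a Lipschitz function of the disorder -/
theorem lip_log_gap {n : ℕ} (hn : 0 < n) (β : ℝ) :
    P150.F.Lip (2 * |β| * √n) (fun g : Pairs n → ℝ => Real.log (gap (heat β g) (mu β g))) := by
  intro g g'
  simp only [gap_heat]
  refine (P150.SelfD.log_gap_comp hn (skJ_symm β g) (skJ_symm β g')
    (P150.SelfD.energy_diff hn β g g')).trans (le_of_eq ?_)
  ring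

/-- the Gaussian tail of the logarithm of the relaxation time -/
theorem tail_log_gap {n : ℕ} (hn : 0 < n) (β : ℝ) {s : ℝ} (hs : 0 ≤ s) :
    (disorder n).real {g | s * √n ≤ |Real.log (gap (heat β g) (mu β g))⁻¹
      - ∫ g', Real.log (gap (heat β g') (mu β g'))⁻¹ ∂disorder n|}
      ≤ 2 * Real.exp (-(s ^ 2 / (4 * (2 * |β| + 1) ^ 2))) := by
  have hn' : (0 : ℝ) < n := Nat.cast_pos.2 hn
  have hq : 0 < √(n : ℝ) := Real.sqrt_pos.2 hn'
  have h1 : P150.F.Lip ((2 * |β| + 1) * √n)
      (fun g : Pairs n → ℝ => Real.log (gap (heat β g) (mu β g))⁻¹) := by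
    simp only [Real.log_inv]
    exact (lip_log_gap hn β).neg.mono (by nlinarith only [hq])
  have h2 := h1.tail_abs (by positivity) (t := s * √n) (by positivity)
  have e : (s * √n) ^ 2 / (4 * ((2 * |β| + 1) * √n) ^ 2) = s ^ 2 / (4 * (2 * |β| + 1) ^ 2) := by
    field_simp
  rw [e] at h2
  exact h2

/-- self-averaging of the logarithm of the relaxation time -/
theorem self_gap (β : ℝ) : ∃ a : ℕ → ℝ, ∀ w : ℕ → ℝ, Tendsto w atTop atTop →
    WHP fun n => {g | |Real.log (gap (heat β g) (mu β g))⁻¹ - a n| ≤ w n * √n} := by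
  refine ⟨fun n => ∫ g', Real.log (gap (heat β g') (mu β g'))⁻¹ ∂disorder n, fun w hw => ?_⟩
  have h1 : Tendsto (fun n => 2 * Real.exp (-(w n ^ 2 / (4 * (2 * |β| + 1) ^ 2)))) atTop
      (𝓝 0) := by
    have h2 : Tendsto (fun n => w n ^ 2 / (4 * (2 * |β| + 1) ^ 2)) atTop atTop :=
      ((tendsto_pow_atTop two_ne_zero).comp hw).atTop_div_const (by positivity)
    simpa using (Real.tendsto_exp_neg_atTop_nhds_zero.comp h2).const_mul 2
  have h2 := ENNReal.tendsto_ofReal h1
  rw [ENNReal.ofReal_zero] at h2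
  refine tendsto_of_tendsto_of_tendsto_of_le_of_le' tendsto_const_nhds h2
    (Eventually.of_forall fun _ => zero_le) ?_
  filter_upwards [eventually_gt_atTop 0, hw.eventually_ge_atTop 0] with n hn hw0
  have : IsProbabilityMeasure (disorder n) := by
    unfold disorder
    infer_instance
  refine (ENNReal.le_ofReal_iff_toReal_le (measure_ne_top _ _) (by positivity)).2 ?_
  refine le_trans (measureReal_mono fun g hg => ?_) (tail_log_gap hn β hw0)
  simp only [Set.mem_compl_iff, Set.mem_ofPred_eq, not_le] at hg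
  exact hg.le

end Vale.Agent.N150D
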