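import Vale.Agent.N150D.Pre
import Vale.Agent.P150.H704.Upper

/-!
All the time scales agree with the heat-bath relaxation time up to a factor of the order `n`.
-/

namespace Vale.Agent.N150D.Self2

open Filter Topology Set Real
open Vale.Agent.P150 (Cfg Pairs gibbs genMat skJ WHP)

variable {n : ℕ} {K β ε : ℝ} {g : Pairs n → ℝ} {L : Matrix (Cfg n) (Cfg n) ℝ}

theorem whp_floor (h0 : 0 ≤ β) :
    WHP fun n => {g | ∀ x, exp (-((1 + 2 * β) * n)) ≤ mu β g x} := by
  refine DiscSK.whp_mono (P150.H704.whp_H one_pos (by linarith [log_two_lt_d9])) ?_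
  filter_upwards [eventually_gt_atTop 0] with n hn g hg x
  have h1 := P150.H704.gibbs_inv_le h0 hg x
  have h2 : 0 < mu β g x := P150.gibbs_pos _ _ x
  rw [exp_neg, inv_le_comm₀ (exp_pos _) h2]
  refine h1.trans (exp_le_exp.2 ?_)
  have := mul_le_mul_of_nonneg_left log_two_lt_d9.le (Nat.cast_nonneg (α := ℝ) n)
  have : (0 : ℝ) ≤ n := n.cast_nonneg
  linarith

/-- At least one update attempt is needed. -/
theorem one_le_kmix (hn : 0 < n) (h : Like K β g L) (h0 : 0 < ε) (h1 : ε < 1 / 2) :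
    1 ≤ kmix (step K L) (mu β g) ε := by
  by_contra hk
  have hk0 : kmix (step K L) (mu β g) ε ≤ 0 := by omega
  have h2 := (h.tvM_iff hn h0 0).2 hk0
  obtain ⟨x, y, hxy⟩ := (nontrivial_cfg hn).exists_pair_ne
  have h3 : ∑ z, |(1 : Matrix (Cfg n) (Cfg n) ℝ) x z - 1 * (1 : Matrix (Cfg n) (Cfg n) ℝ) y z| ≤
      ∑ z, (|(1 : Matrix (Cfg n) (Cfg n) ℝ) x z - mu β g z| +
        |(1 : Matrix (Cfg n) (Cfg n) ℝ) y z - mu β g z|) :=
    Finset.sum_le_sum fun z _ => by
      rw [one_mul, abs_sub_comm ((1 : Matrix (Cfg n) (Cfg n) ℝ) y z)]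
      exact abs_sub_le _ _ _
  have h4 := Finset.add_le_sum (s := Finset.univ) (f := fun z =>
    |(1 : Matrix (Cfg n) (Cfg n) ℝ) x z - 1 * (1 : Matrix (Cfg n) (Cfg n) ℝ) y z|)
    (fun _ _ => abs_nonneg _) (Finset.mem_univ x) (Finset.mem_univ y) hxy
  have h5 := h2 x
  have h6 := h2 y
  simp only [Matrix.one_apply_eq, Matrix.one_apply_ne hxy, Matrix.one_apply_ne hxy.symm] at h4
  simp only [tvM, pow_zero] at h5 h6
  rw [Finset.sum_add_distrib] at h3
  norm_num at h4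
  simp only [one_mul] at h3
  linarith

theorem abs_log_le {u r B : ℝ} (hu : 0 < u) (hr : 0 < r) (hB : 0 < B) (h1 : r ≤ B * u)
    (h2 : u ≤ B * r) : |log u - log r| ≤ log B := by
  have a1 := log_le_log hr h1
  have a2 := log_le_log hu h2
  rw [log_mul hB.ne' hu.ne'] at a1
  rw [log_mul hB.ne' hr.ne'] at a2
  rw [abs_le]
  constructor <;> linarith

/-- The two-sided comparison with the heat-bath relaxation time. -/
theorem factor (K : ℝ) (hβ : 0 ≤ β) (h0 : 0 < ε) (h1 : ε < 1 / 2) :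
    ∃ B : ℝ, 0 < B ∧ WHP fun n => {g | ∀ L, Like K β g L →
      ∀ u ∈ [(gap L (mu β g))⁻¹, tmix L (mu β g) ε, kmix (step K L) (mu β g) ε / n],
        (gap (heat β g) (mu β g))⁻¹ ≤ B * n * u ∧ u ≤ B * n * (gap (heat β g) (mu β g))⁻¹} := by
  obtain ⟨C, hC, hW⟩ := Pre.disc_of_cont K β h0 h1
  set a := log (1 / (2 * ε)) with ha
  have ha0 : 0 < a := log_pos (by rw [lt_div_iff₀ (by positivity)]; linarith)
  refine ⟨|K| * (1 + a⁻¹ + (1 + β + a) + 4 * C + C * (3 + β)) + 1, by positivity,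
    DiscSK.whp_mono (DiscSK.whp_inter hW (whp_floor hβ)) ?_⟩
  filter_upwards [eventually_gt_atTop 0] with n hn g hg L hL
  have := nontrivial_cfg hn
  obtain ⟨b1, b2⟩ := hg.1 L hL
  have hK := hL.one_le hn
  have hK0 := hL.pos hn
  have hn1 : (1 : ℝ) ≤ n := by exact_mod_cast hn
  have hγ := hL.gap_pos hn
  have hγ0 := gap_heat_pos hn β g
  obtain ⟨c1, c2⟩ := hL.gap_le hn
  have c3 : gap (heat β g) (mu β g) ≤ 1 := by
    rw [gap_heat]
    exact P150.gap_le_one hn (skJ_symm β g)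
  have d1 := hL.1.le_tmix hγ h0
  have d2 := hL.1.le_tmix hγ (ε := 1 / 4) (by norm_num)
  have d3 := hL.1.tmix_le_gap hγ le_rfl h0 h1.le (by positivity) hg.2
  have d4 := hL.1.tmix_le_gap hγ le_rfl (ε := 1 / 4) (by norm_num) (by norm_num)
    (by positivity) hg.2
  have d5 : (1 : ℝ) ≤ kmix (step K L) (mu β g) ε := by exact_mod_cast one_le_kmix hn hL h0 h1
  rw [show (1 : ℝ) / (2 * (1 / 4)) = 2 by norm_num] at d2 d4
  rw [div_eq_mul_inv] at d3 d4
  rw [abs_of_pos hK0, ← ha] at *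
  set r0 := (gap (heat β g) (mu β g))⁻¹ with hr0
  set r := (gap L (mu β g))⁻¹ with hr
  set T := tmix L (mu β g) ε
  set T4 := tmix L (mu β g) (1 / 4)
  set N : ℝ := (kmix (step K L) (mu β g) ε : ℝ) / n with hN
  have p0 : 1 ≤ r0 := (one_le_inv₀ hγ0).2 c3
  have p1 : 0 < r := inv_pos.2 hγ
  have p2 : 0 ≤ T := tmix_nonneg _ _ _
  have p4 : 1 ≤ n * N := by
    rw [hN, mul_div_cancel₀ _ (by positivity)]
    exact d5
  have p5 : 0 ≤ N := by positivity
  have e0 : r0 ≤ K * r := by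
    rw [hr, hr0, ← div_eq_mul_inv, le_div_iff₀ hγ, inv_mul_le_iff₀ hγ0]
    linarith
  have e0' : r ≤ K * r0 := by
    rw [hr, hr0, ← div_eq_mul_inv, le_div_iff₀ hγ0, inv_mul_le_iff₀ hγ]
    linarith
  have e1 : r ≤ a⁻¹ * T := by
    rw [le_inv_mul_iff₀ ha0, hr, ← div_eq_mul_inv, div_le_iff₀' hγ]
    exact d1
  have e2 : r ≤ 2 * T4 := by
    rw [hr, inv_le_iff_one_le_mul₀' hγ]
    nlinarith [log_two_gt_d9, tmix_nonneg L (mu β g) (1 / 4)]
  have e3 : T ≤ (1 + β + a) * (n * r) := by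
    refine d3.trans ?_
    rw [← mul_assoc]
    refine mul_le_mul_of_nonneg_right ?_ p1.le
    nlinarith
  have e4 : T4 ≤ (2 + β) * (n * r) := by
    refine d4.trans ?_
    rw [← mul_assoc]
    refine mul_le_mul_of_nonneg_right ?_ p1.le
    linarith [log_two_lt_d9]
  have e5 : n * r ≤ K * (n * r0) := by
    have := mul_le_mul_of_nonneg_left e0' (show (0 : ℝ) ≤ n by positivity)
    linarith
  have e6 : 1 ≤ K * (n * r0) :=
    one_le_mul_of_one_le_of_one_le hK (one_le_mul_of_one_le_of_one_le hn1 p0)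
  set E := 1 + a⁻¹ + (1 + β + a) + 4 * C + C * (3 + β) with hE
  have m : ∀ {A x y : ℝ}, A ≤ E → x ≤ A * (K * (n * y)) → 0 ≤ y → x ≤ (K * E + 1) * n * y := by
    intro A x y h1 h2 h3
    have q1 : 0 ≤ n * y := by positivity
    have := mul_le_mul_of_nonneg_right h1 (show 0 ≤ K * (n * y) by positivity)
    linarith
  have up : ∀ {y : ℝ}, 0 ≤ y → K * y ≤ K * (n * y) := fun hy =>
    mul_le_mul_of_nonneg_left (le_mul_of_one_le_left hy hn1) hK0.le
  have i1 : 0 < a⁻¹ := inv_pos.2 ha0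
  have i2 : 0 ≤ C * (3 + β) := by positivity
  intro u hu
  simp only [List.mem_cons, List.not_mem_nil, or_false] at hu
  rcases hu with rfl | rfl | rfl
  · exact ⟨m (A := 1) (by linarith) (by linarith [up p1.le]) p1.le,
      m (A := 1) (by linarith) (by linarith [up (zero_le_one.trans p0)]) (by linarith)⟩
  · refine ⟨m (A := a⁻¹) (by linarith) ?_ p2, m (A := 1 + β + a) (by linarith)
      (e3.trans (mul_le_mul_of_nonneg_left e5 (by positivity))) (by linarith)⟩
    have q1 := mul_le_mul_of_nonneg_left e1 hK0.le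
    have q2 := mul_le_mul_of_nonneg_left (up p2) i1.le
    linarith
  · refine ⟨m (A := 4 * C) (by linarith) ?_ p5, m (A := C * (3 + β)) (by linarith) ?_
      (by linarith)⟩
    · have q1 : N + 1 ≤ 2 * (n * N) := by linarith [le_mul_of_one_le_left p5 hn1]
      have q2 := b1.trans (mul_le_mul_of_nonneg_left q1 hC.le)
      have q3 := mul_le_mul_of_nonneg_left (e2.trans (mul_le_mul_of_nonneg_left q2 zero_le_two))
        hK0.le
      linarith
    · have q1 := e4.trans (mul_le_mul_of_nonneg_left e5 (by positivity))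
      have q2 : T4 + 1 ≤ (3 + β) * (K * (n * r0)) := by linarith
      have q3 := mul_le_mul_of_nonneg_left q2 hC.le
      linarith

/-- The logarithms of all the time scales agree up to `D + log n`. -/
theorem transfer (K : ℝ) (hβ : 0 ≤ β) (h0 : 0 < ε) (h1 : ε < 1 / 2) :
    ∃ D : ℝ, WHP fun n => {g | ∀ L, Like K β g L →
      ∀ u ∈ [(gap L (mu β g))⁻¹, tmix L (mu β g) ε, kmix (step K L) (mu β g) ε / n],
        |log u - log (gap (heat β g) (mu β g))⁻¹| ≤ D + log n} := by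
  obtain ⟨B, hB, h⟩ := factor K hβ h0 h1
  refine ⟨log B, DiscSK.whp_mono h ?_⟩
  filter_upwards [eventually_gt_atTop 0] with n hn g hg L hL u hu
  have hn' : (0 : ℝ) < n := by positivity
  obtain ⟨a1, a2⟩ := hg L hL u hu
  have a3 := inv_pos.2 (gap_heat_pos hn β g)
  have a4 : 0 < u := (mul_pos_iff_of_pos_left (by positivity)).1 (a3.trans_le a1)
  rw [← log_mul hB.ne' hn'.ne']
  exact abs_log_le a4 a3 (by positivity) a1 a2

theorem ev_sqrt (D : ℝ) : ∀ᶠ n : ℕ in atTop, D + log n ≤ 3 * √n := by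
  filter_upwards [DiscSK.ev_rpow (show (0 : ℝ) < 1 / 2 by norm_num) D] with n hn
  have h := log_le_rpow_div (Nat.cast_nonneg n) (show (0 : ℝ) < 1 / 2 by norm_num)
  rw [sqrt_eq_rpow]
  linarith

/-- Self-averaging passes from the heat-bath gap to all the time scales of all the dynamics. -/
theorem five (hβ : 0 ≤ β) (h : ∃ a : ℕ → ℝ, ∀ w : ℕ → ℝ, Tendsto w atTop atTop →
      WHP fun n => {g | |log (gap (heat β g) (mu β g))⁻¹ - a n| ≤ w n * √n}) :
    ∃ a : ℕ → ℝ, ∀ K ε : ℝ, 0 < ε → ε < 1 / 2 → ∀ w : ℕ → ℝ, Tendsto w atTop atTop →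
      Unif K β ε fun n r t k => ∀ u ∈ [r, t, k], |log u - a n| ≤ w n * √n := by
  obtain ⟨a, ha⟩ := h
  refine ⟨a, fun K ε h0 h1 w hw => ?_⟩
  obtain ⟨D, hD⟩ := transfer K hβ h0 h1
  refine DiscSK.whp_mono (DiscSK.whp_inter hD (ha (fun n => w n - 3)
    (tendsto_atTop_add_const_right _ (-3) hw))) ?_
  filter_upwards [ev_sqrt D] with n hn g hg L hL u hu
  have a1 := hg.1 L hL u hu
  have a2 : |log (gap (heat β g) (mu β g))⁻¹ - a n| ≤ (w n - 3) * √n := hg.2
  have a3 := abs_sub_le (log u) (log (gap (heat β g) (mu β g))⁻¹) (a n)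
  linarith

end Vale.Agent.N150D.Self2
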