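import Vale.Agent.N150D.Zero

/-!
The dynamics in the class flip one spin at a time; the heat-bath and the Metropolis rates.
-/

namespace Vale.Agent.N150D

open Finset
open Vale.Agent.P150 (Cfg Pairs skJ sp locField)

variable {n : ℕ} {K β : ℝ} {g : Pairs n → ℝ} {L : Matrix (Cfg n) (Cfg n) ℝ}

theorem flip_inj (x : Cfg n) {i j : Fin n} (h : P150.flip x j = P150.flip x i) : j = i := by
  by_contra e
  have := congrFun h j
  simp [P150.flip, Function.update_of_ne e] at this

theorem flipGen_flip (r : Fin n → Cfg n → ℝ) (x : Cfg n) (i : Fin n) :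
    Fl.flipGen r x (flip x i) = r i x := by
  change Fl.flipGen r x (P150.flip x i) = _
  rw [Fl.flipGen_off r (flip_ne x i), sum_eq_single i, if_pos rfl]
  · exact fun j _ e => if_neg fun h => e (flip_inj x h)
  · simp

theorem Like.single (h : Like K β g L) {x y : Cfg n} (h1 : y ≠ x) (h2 : ∀ i, y ≠ flip x i) :
    L x y = 0 := by
  have h3 : heat β g x y = 0 := by
    rw [heat_eq, Fl.flipGen_off _ h1.symm]
    exact sum_eq_zero fun i _ => if_neg fun e => h2 i e.symm
  have h4 := (h.2 x y h1.symm).2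
  rw [h3, mul_zero] at h4
  exact le_antisymm h4 (h.1.off x y h1.symm)

theorem heat_flip (β : ℝ) (g : Pairs n → ℝ) (x : Cfg n) (i : Fin n) :
    heat β g x (flip x i) = Real.exp (-(sp (x i) * locField (skJ β g) (fun _ => 0) x i)) /
      (2 * Real.cosh (locField (skJ β g) (fun _ => 0) x i)) := by
  rw [heat_eq, flipGen_flip]
  rfl

theorem heat_flip' (β : ℝ) (g : Pairs n → ℝ) (x : Cfg n) (i : Fin n) :
    heat β g x (flip x i) = mu β g (flip x i) / (mu β g x + mu β g (flip x i)) := by
  rw [heat_eq, flipGen_flip]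
  exact Fl.heat_eq (skJ_symm β g) i x

theorem metro_flip (β : ℝ) (g : Pairs n → ℝ) (x : Cfg n) (i : Fin n) :
    metro β g x (flip x i) =
      min 1 (Real.exp (-(2 * sp (x i) * locField (skJ β g) (fun _ => 0) x i))) := by
  rw [metro_eq, flipGen_flip]
  rfl

/-- A dynamics in the class is the single-flip dynamics with the rates `L x (flip x i)`. -/
theorem Like.act_eq (h : Like K β g L) (f : Cfg n → ℝ) (x : Cfg n) :
    act L f x = ∑ i, L x (flip x i) * (f (flip x i) - f x) := by
  have h1 : act L f x = ∑ y, L x y * (f y - f x) := by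
    simp only [act, mul_sub, sum_sub_distrib, ← sum_mul, h.1.row, zero_mul, sub_zero]
  rw [h1, ← sum_image (s := univ) (g := fun i => flip x i) (f := fun y => L x y * (f y - f x))
    fun i _ j _ e => flip_inj x e]
  refine (sum_subset (subset_univ _) fun y _ hy => ?_).symm
  by_cases e : y = x
  · rw [e, sub_self, mul_zero]
  · rw [h.single e fun i e' => hy (mem_image.2 ⟨i, mem_univ i, e'.symm⟩), zero_mul]

theorem zero_two (n : ℕ) (β : ℝ) (g : Pairs n → ℝ) :
    (∀ K L, Like K β g L → (∀ x y, y ≠ x → (∀ i, y ≠ flip x i) → L x y = 0) ∧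
      ∀ f x, act L f x = ∑ i, L x (flip x i) * (f (flip x i) - f x)) ∧
    ∀ x i, heat β g x (flip x i) = mu β g (flip x i) / (mu β g x + mu β g (flip x i)) ∧
      heat β g x (flip x i) = Real.exp (-(sp (x i) * locField (skJ β g) (fun _ => 0) x i)) /
        (2 * Real.cosh (locField (skJ β g) (fun _ => 0) x i)) ∧
      metro β g x (flip x i) =
        min 1 (Real.exp (-(2 * sp (x i) * locField (skJ β g) (fun _ => 0) x i))) :=
  ⟨fun _ _ h => ⟨fun _ _ => h.single, h.act_eq⟩,
    fun x i => ⟨heat_flip' β g x i, heat_flip β g x i, metro_flip β g x i⟩⟩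

end Vale.Agent.N150D
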